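import Crest.Agent.Lib.EgyptPhase2

set_option autoImplicit false

namespace Crest.Agent.Egypt

open Finset

/-- The algorithm at a fixed level `Y`. -/
lemma main_step {Y J k cabs n₁ n₂ : ℕ} {τ₀ τ₁ c₁ : ℝ}
    (hG : GoodAt Y τ₀ (Real.exp (c₁ * Y / Real.log Y))) (hτ₀ : 0 ≤ τ₀)
    (h1 : (2 : ℝ) ^ 200 ≤ τ₁) (h2 : 2 * τ₀ ≤ τ₁) (hJ : τ₁ ^ 2 ≤ 2 ^ J) (h5 : τ₁ ^ 2 ≤ cabs)
    (h6 : cabs < 2 ^ k) (hk : k ≤ 4 * Y + 12) (hJA : J ≤ 4 * Y + 12)
    (hℓ1 : 1 ≤ c₁ * Y / Real.log Y - Real.log 4)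
    (hℓ2 : Real.log τ₁ ≤ c₁ * Y / Real.log Y - Real.log 4)
    (hn₁ : 101 * Real.log (c₁ * Y / Real.log Y - Real.log 4) ≤ n₁)
    (hn₂ : 100 * (((4 * Y + 12 : ℕ) : ℝ) * Real.log 2) / (c₁ * Y / Real.log Y - Real.log 4) ≤ n₂)
    (hnY : n₂ + n₁ ≤ Y)
    (a b : ℕ) (ha : 1 ≤ a) (hab : a < b) (hbY : b < 2 ^ Y) :
    ∃ S : Finset ℕ, (∀ n ∈ S, 2 ≤ n) ∧ S.card ≤ J + 99 * (n₂ + n₁) + (k + 3) ∧
      ∑ n ∈ S, (1 : ℚ) / (n : ℚ) = (a : ℚ) / (b : ℚ) := by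
  classical
  obtain ⟨ℓ, hℓ⟩ : ∃ ℓ, ℓ = c₁ * Y / Real.log Y - Real.log 4 := ⟨_, rfl⟩
  rw [← hℓ] at hℓ1 hℓ2 hn₁ hn₂
  have hbpos : 0 < b := by omega
  obtain ⟨A, hA⟩ : ∃ A, A = 4 * Y + 12 := ⟨_, rfl⟩
  obtain ⟨N, hN⟩ : ∃ N, N = 45 * b * MM Y * 2 ^ A := ⟨_, rfl⟩
  obtain ⟨R, hR⟩ : ∃ R, R = 3 * Y + 6 := ⟨_, rfl⟩
  obtain ⟨U, hU⟩ : ∃ U, U = 45 * b * MM Y * 2 ^ (Y + 6) := ⟨_, rfl⟩
  have hMpos := MM_pos Y
  have hNpos : 0 < N := NN_pos hbpos hN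
  have hτ₁pos : 0 < τ₁ := window_pos h1
  have hlogτ₁ := log_two_pow_two_hundred h1
  have hlog2 := Real.log_pos (by norm_num : (1 : ℝ) < 2)
  have hlog2' := Real.log_two_gt_d9
  have hℓ0 : 0 < ℓ := by linarith
  have hlogm : Real.log (Real.exp ℓ) = ℓ := Real.log_exp ℓ
  have hτm : 4 * Real.exp ℓ = Real.exp (c₁ * Y / Real.log Y) := by
    rw [hℓ, Real.exp_sub, Real.exp_log (by norm_num)]
    field_simp
  have P : Params Y b A N k cabs τ₀ τ₁ (Real.exp ℓ) (Real.exp (c₁ * Y / Real.log Y)) :=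
    { hG := hG
      hb := hbpos
      hN := hN
      hτ₀ := hτ₀
      h1 := h1
      h2 := h2
      h3 := by rw [← Real.exp_log hτ₁pos]; exact Real.exp_le_exp.mpr hℓ2
      h4 := hτm.le
      h5 := h5
      h6 := h6
      h7 := by omega
      h8 := by omega }
  have hU1 : 147 * 2 ^ Y * MM Y ≤ U := by
    rw [hU, pow_add]
    have : 147 ≤ 45 * b * 2 ^ 6 := by
      have : 1 ≤ b := hbpos
      norm_num; omega
    calc 147 * 2 ^ Y * MM Y ≤ (45 * b * 2 ^ 6) * 2 ^ Y * MM Y :=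
          Nat.mul_le_mul (Nat.mul_le_mul this le_rfl) le_rfl
      _ = 45 * b * MM Y * (2 ^ Y * 2 ^ 6) := by ring
  have hU2 : N = U * 2 ^ R := by
    have h2A : 2 ^ A = 2 ^ (Y + 6) * 2 ^ R := by
      rw [← pow_add, hA, hR]; congr 1; omega
    rw [hN, hU, h2A]; ring
  have hUle : U ≤ 2 ^ A := by
    have h4 : MM Y ≤ 2 ^ (2 * Y) := by
      have := MM_le_four_pow Y
      rwa [show (4 : ℕ) = 2 ^ 2 by norm_num, ← pow_mul] at this
    have h5 : 45 * b * MM Y * 2 ^ (Y + 6) ≤ 2 ^ 6 * 2 ^ Y * 2 ^ (2 * Y) * 2 ^ (Y + 6) := by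
      apply Nat.mul_le_mul _ le_rfl
      apply Nat.mul_le_mul _ h4
      exact Nat.mul_le_mul (by norm_num) hbY.le
    rw [hU]
    refine h5.trans (le_of_eq ?_)
    rw [← pow_add, ← pow_add, ← pow_add, hA]
    congr 1
    omega
  -- the number of steps
  obtain ⟨n, hn⟩ : ∃ n, n = n₂ + n₁ := ⟨_, rfl⟩
  have hTA : (A : ℝ) * Real.log 2 ≤ (nxt ℓ)^[n] (2 * Real.log τ₁) := by
    rw [hn]
    apply iterate_nxt_ge hℓ1 (by linarith) n₁ n₂ hn₁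
    rw [hA]
    exact hn₂
  have hexpA : Real.exp ((A : ℝ) * Real.log 2) = 2 ^ A := by
    rw [Real.exp_nat_mul, Real.exp_log (by norm_num)]
  -- phase III
  have hIII : ∀ c : ℕ, c ≤ U → ∃ S : Finset ℕ, S.card ≤ 49 * n + (k + 3) ∧
      (∀ m ∈ S, 0 < m ∧ padicValNat 3 N ≤ padicValNat 3 m) ∧
      ∑ m ∈ S, (1 : ℚ) / (m : ℚ) = (c : ℚ) / N := by
    intro c hc
    have hcA : (c : ℝ) ≤ 2 ^ A := by exact_mod_cast hc.trans hUle
    obtain ⟨S, h1S, h2S, h3S⟩ := claim3 P n c A (by omega) le_rfl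
      (by
        rw [hlogm]
        refine hcA.trans ?_
        rw [← hexpA]
        exact Real.exp_le_exp.mpr hTA)
      (by
        intro hcc
        have hc1 : (1 : ℝ) ≤ c := by
          have : 1 ≤ c := by omega
          exact_mod_cast this
        have h1g : gg (Real.exp ℓ) c ≤ c := by
          unfold gg
          apply max_le
          · have : √(c : ℝ) ≤ √(c : ℝ) * √(c : ℝ) := by
              have h7 : (1 : ℝ) ≤ √(c : ℝ) := Real.one_le_sqrt.mpr hc1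
              nlinarith
            rwa [Real.mul_self_sqrt (by linarith)] at this
          · apply div_le_self (by linarith)
            exact Real.one_le_exp hℓ0.le
        have : (2 : ℝ) ^ A < 2 ^ (A + 1) := pow_lt_pow_right₀ (by norm_num) (by omega)
        linarith)
    exact ⟨S, h1S, fun m hm => ⟨(h2S m hm).1, (h2S m hm).2.1⟩, h3S⟩
  -- phase I
  obtain ⟨q, hq⟩ : ∃ q, q = a * 2 ^ J / b := ⟨_, rfl⟩
  obtain ⟨r, hr⟩ : ∃ r, r = a * 2 ^ J % b := ⟨_, rfl⟩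
  have hqr : b * q + r = a * 2 ^ J := by rw [hq, hr]; exact Nat.div_add_mod _ _
  have hrb : r < b := by rw [hr]; exact Nat.mod_lt _ hbpos
  have hqJ : q < 2 ^ J := by
    rw [hq]
    apply Nat.div_lt_of_lt_mul
    exact Nat.mul_lt_mul_of_pos_right hab (Nat.two_pow_pos J)
  obtain ⟨c, hc⟩ : ∃ c, c = r * (45 * MM Y) * 2 ^ (A - J) := ⟨_, rfl⟩
  have hcJ : c * 2 ^ J = r * (45 * MM Y) * 2 ^ A := by
    rw [hc, mul_assoc, ← pow_add]
    congr 2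
    omega
  have hcJN : c * 2 ^ J < N := by
    rw [hcJ, hN]
    have : 45 * b * MM Y * 2 ^ A = b * (45 * MM Y) * 2 ^ A := by ring
    rw [this]
    apply Nat.mul_lt_mul_of_pos_right _ (by positivity)
    exact Nat.mul_lt_mul_of_pos_right hrb (Nat.mul_pos (by norm_num) hMpos)
  have hx : 2 * Real.log τ₁ ≤ (J : ℝ) * Real.log 2 := by
    have := Real.log_le_log (by positivity) hJ
    rw [Real.log_pow, Real.log_pow] at this
    exact_mod_cast this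
  have hexpJ : Real.exp ((J : ℝ) * Real.log 2) = 2 ^ J := by
    rw [Real.exp_nat_mul, Real.exp_log (by norm_num)]
  obtain ⟨S₂, hS₂card, hS₂m, hS₂sum⟩ := claim2 P (U := U) (R := R) (B := 49 * n + (k + 3))
    hU1 hU2 (by omega) (by omega) hIII n c 0 ((J : ℝ) * Real.log 2) hx
    (by
      rw [hexpJ]
      have : ((c * 2 ^ J : ℕ) : ℝ) ≤ N := by exact_mod_cast hcJN.le
      exact_mod_cast this)
    (by omega)
    (by
      rw [hlogm, hn]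
      apply iterate_nxt_ge hℓ1 (by linarith) n₁ n₂ hn₁
      refine le_trans ?_ hn₂
      apply div_le_div_of_nonneg_right _ hℓ0.le
      have hRA : (R : ℝ) ≤ ((4 * Y + 12 : ℕ) : ℝ) := by
        have : R ≤ 4 * Y + 12 := by omega
        exact_mod_cast this
      nlinarith)
  obtain ⟨K, hK, hKsum⟩ := binary_expansion J q hqJ
  have hNq : (0 : ℚ) < N := by exact_mod_cast hNpos
  have h2Jq : (0 : ℚ) < ((2 ^ J : ℕ) : ℚ) := by
    exact_mod_cast (by positivity : 0 < 2 ^ J)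
  have hcNlt : (c : ℚ) / N < 1 / ((2 ^ J : ℕ) : ℚ) := by
    rw [div_lt_div_iff₀ hNq h2Jq]
    have : ((c * 2 ^ J : ℕ) : ℚ) < N := by exact_mod_cast hcJN
    push_cast at this ⊢
    linarith
  have hS₂big : ∀ m ∈ S₂, 2 ^ J < m := by
    intro m hm
    have hm0 : 0 < m := (hS₂m m hm).1
    have h1m : (1 : ℚ) / (m : ℚ) ≤ ∑ m ∈ S₂, (1 : ℚ) / (m : ℚ) :=
      Finset.single_le_sum (f := fun m : ℕ => (1 : ℚ) / (m : ℚ)) (fun m _ => by positivity) hm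
    rw [hS₂sum] at h1m
    have h3 : (1 : ℚ) / (m : ℚ) < 1 / ((2 ^ J : ℕ) : ℚ) := lt_of_le_of_lt h1m hcNlt
    have hmq : (0 : ℚ) < m := by exact_mod_cast hm0
    rw [div_lt_div_iff₀ hmq h2Jq] at h3
    have h4 : ((2 ^ J : ℕ) : ℚ) < m := by linarith
    exact_mod_cast h4
  have hinj : Set.InjOn (fun k : ℕ => 2 ^ k) (K : Set ℕ) := fun i _ j _ hij =>
    Nat.pow_right_injective (le_refl 2) hij
  have hKle : ∀ x ∈ K, 1 ≤ x ∧ x ≤ J := fun x hx => Finset.mem_Icc.mp (hK hx)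
  have hdisj : Disjoint (K.image fun k : ℕ => 2 ^ k) S₂ := by
    rw [Finset.disjoint_left]
    intro m hm hm2
    obtain ⟨i, hi, rfl⟩ := Finset.mem_image.mp hm
    have h3 := hS₂big _ hm2
    have h4 : 2 ^ i ≤ 2 ^ J := Nat.pow_le_pow_right (by norm_num) (hKle i hi).2
    omega
  refine ⟨K.image (fun k : ℕ => 2 ^ k) ∪ S₂, ?_, ?_, ?_⟩
  · intro m hm
    rcases Finset.mem_union.mp hm with hm | hm
    · obtain ⟨i, hi, rfl⟩ := Finset.mem_image.mp hm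
      calc 2 = 2 ^ 1 := by norm_num
        _ ≤ 2 ^ i := Nat.pow_le_pow_right (by norm_num) (hKle i hi).1
    · have h3 := hS₂big m hm
      have h4 : 1 ≤ 2 ^ J := Nat.one_le_two_pow
      omega
  · refine (Finset.card_union_le _ _).trans ?_
    have h3 : (K.image (fun k : ℕ => 2 ^ k)).card ≤ J := by
      refine Finset.card_image_le.trans ((Finset.card_le_card hK).trans ?_)
      simp
    rw [← hn]
    have : 99 * n = 50 * n + 49 * n := by ring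
    omega
  · rw [Finset.sum_union hdisj, Finset.sum_image hinj, hKsum, hS₂sum]
    have hbq : (b : ℚ) ≠ 0 := by exact_mod_cast hbpos.ne'
    have hMq : (MM Y : ℚ) ≠ 0 := by exact_mod_cast hMpos.ne'
    have h2A : ((2 : ℚ) ^ A) ≠ 0 := by positivity
    have h2J : ((2 : ℚ) ^ J) ≠ 0 := by positivity
    have e1 : (N : ℚ) = 45 * b * MM Y * 2 ^ A := by rw [hN]; push_cast; ring
    have e2 : (c : ℚ) * 2 ^ J = r * (45 * MM Y) * 2 ^ A := by exact_mod_cast hcJ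
    have e3 : (b : ℚ) * q + r = a * 2 ^ J := by exact_mod_cast hqr
    have e4 : (c : ℚ) / N = r / (b * 2 ^ J) := by
      rw [e1, div_eq_div_iff (by positivity) (by positivity)]
      linear_combination (b : ℚ) * e2
    rw [e4]
    push_cast
    field_simp
    linear_combination e3

lemma eventually_mul_log_le (K : ℝ) : ∀ᶠ Y : ℕ in Filter.atTop, K * Real.log Y ≤ Y := by
  have h := Real.isLittleO_log_id_atTop.def (c := 1 / (|K| + 1)) (by positivity)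
  have h2 := tendsto_natCast_atTop_atTop (R := ℝ) |>.eventually h
  filter_upwards [h2, Filter.eventually_ge_atTop 1] with Y hY hY1
  have hK : 0 < |K| + 1 := by positivity
  simp only [id_eq, Real.norm_eq_abs] at hY
  have hYnn : (0 : ℝ) ≤ Y := Nat.cast_nonneg _
  rw [abs_of_nonneg hYnn] at hY
  have h3 : (|K| + 1) * |Real.log Y| ≤ Y := by
    rw [div_mul_eq_mul_div, one_mul, le_div_iff₀ hK] at hY
    linarith
  calc K * Real.log Y ≤ |K * Real.log Y| := le_abs_self _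
    _ = |K| * |Real.log Y| := abs_mul _ _
    _ ≤ (|K| + 1) * |Real.log Y| := by
        apply mul_le_mul_of_nonneg_right _ (abs_nonneg _)
        linarith
    _ ≤ Y := h3

lemma eventually_le_log (c : ℝ) : ∀ᶠ Y : ℕ in Filter.atTop, c ≤ Real.log Y :=
  (Real.tendsto_log_atTop.comp tendsto_natCast_atTop_atTop).eventually_ge_atTop c

/-- Estimates for the scale `ℓ`. -/
lemma ell_bounds {c₁ κ lτ : ℝ} {Y : ℕ} (hc₁ : 0 < c₁) (hlτ : 0 ≤ lτ)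
    (hκ : κ = lτ + Real.log 4 + 1) (hlogY : 1 ≤ Real.log Y) (hY0 : (0 : ℝ) < Y)
    (e3 : c₁ ≤ Real.log Y) (e4 : (2 * κ / c₁) * Real.log Y ≤ Y) :
    c₁ * Y / (2 * Real.log Y) ≤ c₁ * Y / Real.log Y - Real.log 4 ∧
    1 ≤ c₁ * Y / Real.log Y - Real.log 4 ∧ lτ ≤ c₁ * Y / Real.log Y - Real.log 4 ∧
    c₁ * Y / Real.log Y - Real.log 4 ≤ Y := by
  have hlogYpos : 0 < Real.log Y := by linarith
  have hlog4 : 0 < Real.log 4 := Real.log_pos (by norm_num)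
  have hhalf : κ ≤ c₁ * Y / (2 * Real.log Y) := by
    rw [le_div_iff₀ (by positivity)]
    have h1 : (2 * κ / c₁) * Real.log Y * c₁ ≤ Y * c₁ := mul_le_mul_of_nonneg_right e4 hc₁.le
    have h3 : (2 * κ / c₁) * Real.log Y * c₁ = κ * (2 * Real.log Y) := by
      field_simp
    linarith
  have hsplit : c₁ * Y / Real.log Y = c₁ * Y / (2 * Real.log Y) + c₁ * Y / (2 * Real.log Y) := by
    field_simp
    ring
  have h5 : c₁ * Y / Real.log Y ≤ Y := by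
    rw [div_le_iff₀ hlogYpos, mul_comm]
    exact mul_le_mul_of_nonneg_left e3 hY0.le
  rw [hκ] at hhalf
  refine ⟨?_, ?_, ?_, ?_⟩ <;> linarith

/-- Estimates for the number of steps. -/
lemma steps_bound {c₁ ℓ : ℝ} {Y : ℕ} (hc₁ : 0 < c₁) (hlogY : 1 ≤ Real.log Y) (hY5 : (5 : ℝ) ≤ Y)
    (hℓ1 : 1 ≤ ℓ) (hℓY : ℓ ≤ Y) (hℓge : c₁ * Y / (2 * Real.log Y) ≤ ℓ) :
    (⌈101 * Real.log ℓ⌉₊ : ℝ) ≤ 101 * Real.log Y + 1 ∧
    (⌈100 * (((4 * Y + 12 : ℕ) : ℝ) * Real.log 2) / ℓ⌉₊ : ℝ) ≤ 1000 / c₁ * Real.log Y + 1 := by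
  have hlogYpos : 0 < Real.log Y := by linarith
  have hlog2 := Real.log_pos (by norm_num : (1 : ℝ) < 2)
  have hlog2'' := Real.log_two_lt_d9
  have hℓ0 : 0 < ℓ := by linarith
  have hlogℓ0 : 0 ≤ Real.log ℓ := Real.log_nonneg hℓ1
  have hlogℓ : Real.log ℓ ≤ Real.log Y := Real.log_le_log hℓ0 hℓY
  constructor
  · have := Nat.ceil_lt_add_one (by positivity : 0 ≤ 101 * Real.log ℓ)
    linarith
  · have hTnn : 0 ≤ 100 * (((4 * Y + 12 : ℕ) : ℝ) * Real.log 2) / ℓ := by positivity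
    have h3 := Nat.ceil_lt_add_one hTnn
    have h4 : 100 * (((4 * Y + 12 : ℕ) : ℝ) * Real.log 2) / ℓ ≤ 1000 / c₁ * Real.log Y := by
      have h5 : ((4 * Y + 12 : ℕ) : ℝ) * Real.log 2 ≤ 5 * Y := by
        push_cast
        nlinarith
      rw [div_le_iff₀ hℓ0]
      have hY0 : (0 : ℝ) < Y := by linarith
      have h6 : 1000 / c₁ * Real.log Y * (c₁ * Y / (2 * Real.log Y)) = 500 * Y := by
        field_simp
        ring
      have h7 : 1000 / c₁ * Real.log Y * (c₁ * Y / (2 * Real.log Y)) ≤ 1000 / c₁ * Real.log Y * ℓ :=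
        mul_le_mul_of_nonneg_left hℓge (by positivity)
      linarith
    linarith

/-- `log Y ≤ 1 + log log b`, `1 ≤ log log b`. -/
lemma log_bounds {b Y : ℕ} (hb32 : (32 : ℝ) ≤ b) (hY : Y = Nat.log 2 b + 1) (hY0 : (0 : ℝ) < Y) :
    1 ≤ Real.log (Real.log b) ∧ Real.log Y ≤ 1 + Real.log (Real.log b) := by
  have hlog2' := Real.log_two_gt_d9
  have hlog2'' := Real.log_two_lt_d9
  have hbR : (0 : ℝ) < b := by linarith
  have hbpos : 0 < b := by exact_mod_cast hbR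
  have hlogb : 3 ≤ Real.log b := by
    have h3 : Real.log 32 ≤ Real.log b := Real.log_le_log (by norm_num) hb32
    have h4 : Real.log 32 = 5 * Real.log 2 := by
      rw [show (32 : ℝ) = 2 ^ 5 by norm_num, Real.log_pow]; norm_num
    linarith
  have hloglog : 1 ≤ Real.log (Real.log b) := by
    rw [Real.le_log_iff_exp_le (by linarith)]
    have := Real.exp_one_lt_d9
    linarith
  refine ⟨hloglog, ?_⟩
  have hYle : (Y : ℝ) ≤ 2 * Real.log b := by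
    have h3 : (2 : ℝ) ^ Nat.log 2 b ≤ b := by
      exact_mod_cast Nat.pow_log_le_self 2 hbpos.ne'
    have h4 := Real.log_le_log (by positivity) h3
    rw [Real.log_pow] at h4
    have hYc : (Y : ℝ) = (Nat.log 2 b : ℝ) + 1 := by rw [hY]; push_cast; ring
    have h5 : (Nat.log 2 b : ℝ) * 0.6 ≤ Real.log b := by
      have h6 : (0 : ℝ) ≤ (Nat.log 2 b : ℝ) := Nat.cast_nonneg _
      have h7 : (Nat.log 2 b : ℝ) * 0.6 ≤ (Nat.log 2 b : ℝ) * Real.log 2 :=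
        mul_le_mul_of_nonneg_left (by linarith) h6
      linarith
    rw [hYc]
    linarith
  have h3 : Real.log Y ≤ Real.log (2 * Real.log b) := Real.log_le_log hY0 hYle
  rw [Real.log_mul (by norm_num) (by linarith)] at h3
  linarith

/-- The algorithm: from the number-theoretic interface to the statement. -/
theorem egypt_of_good (hG : GoodStmt) :
    ∃ C : ℝ, ∃ b₀ : ℕ, ∀ (a b : ℕ), b₀ ≤ b → 1 ≤ a → a < b →
      ∃ S : Finset ℕ, (∀ n ∈ S, 2 ≤ n) ∧ (S.card : ℝ) ≤ C * Real.log (Real.log (b : ℝ)) ∧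
        ∑ n ∈ S, (1 : ℚ) / (n : ℚ) = (a : ℚ) / (b : ℚ) := by
  obtain ⟨τ₀, c₁, Y₀, hc₁, hτ₀, hgood⟩ := hG
  obtain ⟨τ₁, hτ₁⟩ : ∃ τ₁, τ₁ = max (2 * τ₀) ((2 : ℝ) ^ 200) := ⟨_, rfl⟩
  have h1 : (2 : ℝ) ^ 200 ≤ τ₁ := hτ₁ ▸ le_max_right _ _
  have h2 : 2 * τ₀ ≤ τ₁ := hτ₁ ▸ le_max_left _ _
  have hτ₁pos : 0 < τ₁ := window_pos h1
  obtain ⟨J, hJ⟩ := pow_unbounded_of_one_lt (τ₁ ^ 2) (by norm_num : (1 : ℝ) < 2)
  obtain ⟨cabs, hcabs⟩ : ∃ cabs : ℕ, cabs = ⌈τ₁ ^ 2⌉₊ := ⟨_, rfl⟩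
  have h5 : τ₁ ^ 2 ≤ cabs := hcabs ▸ Nat.le_ceil _
  obtain ⟨k, hk⟩ : ∃ k, k = Nat.log 2 cabs + 1 := ⟨_, rfl⟩
  have h6 : cabs < 2 ^ k := hk ▸ Nat.lt_pow_succ_log_self (by norm_num) _
  have hlogτ₁ := log_two_pow_two_hundred h1
  have hlog2 := Real.log_pos (by norm_num : (1 : ℝ) < 2)
  have hlτ : 0 ≤ Real.log τ₁ := by linarith
  obtain ⟨κ, hκ⟩ : ∃ κ, κ = Real.log τ₁ + Real.log 4 + 1 := ⟨_, rfl⟩
  obtain ⟨K₀, hK₀⟩ : ∃ K₀, K₀ = 101 + 1000 / c₁ := ⟨_, rfl⟩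
  have hK₀pos : 0 < K₀ := by rw [hK₀]; positivity
  obtain ⟨K₂, hK₂⟩ : ∃ K₂ : ℝ, K₂ = (J : ℝ) + k + 3 + 198 := ⟨_, rfl⟩
  have hK₂pos : 0 ≤ K₂ := by rw [hK₂]; positivity
  -- largeness of `Y`
  have hev : ∀ᶠ Y : ℕ in Filter.atTop, Y₀ ≤ Y ∧ 1 ≤ Real.log Y ∧ c₁ ≤ Real.log Y ∧
      (2 * κ / c₁) * Real.log Y ≤ Y ∧ (K₀ + 2) * Real.log Y ≤ Y ∧ J ≤ Y ∧ k ≤ Y ∧ 5 ≤ Y := by
    filter_upwards [Filter.eventually_ge_atTop Y₀, eventually_le_log 1, eventually_le_log c₁,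
      eventually_mul_log_le (2 * κ / c₁), eventually_mul_log_le (K₀ + 2),
      Filter.eventually_ge_atTop J, Filter.eventually_ge_atTop k, Filter.eventually_ge_atTop 5]
      with Y a1 a2 a3 a4 a5 a6 a7 a8
    exact ⟨a1, a2, a3, a4, a5, a6, a7, a8⟩
  obtain ⟨Y₁, hY₁⟩ := Filter.eventually_atTop.mp hev
  refine ⟨K₂ + 198 * K₀, 2 ^ (Y₁ + 5), ?_⟩
  intro a b hb ha hab
  obtain ⟨Y, hY⟩ : ∃ Y, Y = Nat.log 2 b + 1 := ⟨_, rfl⟩
  have hbpos : 0 < b := by omega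
  have hbY : b < 2 ^ Y := hY ▸ Nat.lt_pow_succ_log_self (by norm_num) _
  have hYlog : Y₁ + 5 ≤ Nat.log 2 b := Nat.le_log_of_pow_le (by norm_num) hb
  obtain ⟨e1, e2, e3, e4, e5, e6, e7, e8⟩ := hY₁ Y (by omega)
  have hGA : GoodAt Y τ₀ (Real.exp (c₁ * Y / Real.log Y)) := by
    intro τ h3 h4
    exact hgood Y e1 τ h3 h4
  have hlogYpos : 0 < Real.log Y := by linarith
  have hYR : (0 : ℝ) < Y := by
    have : 0 < Y := by omega
    exact_mod_cast this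
  have hY5 : (5 : ℝ) ≤ Y := by exact_mod_cast e8
  obtain ⟨hℓge, hℓ1, hℓ2, hℓY⟩ := ell_bounds hc₁ hlτ hκ e2 hYR e3 e4
  obtain ⟨hn₁ub, hn₂ub⟩ := steps_bound hc₁ e2 hY5 hℓ1 hℓY hℓge
  obtain ⟨n₁, hn₁⟩ : ∃ n₁, n₁ = ⌈101 * Real.log (c₁ * Y / Real.log Y - Real.log 4)⌉₊ := ⟨_, rfl⟩
  obtain ⟨n₂, hn₂⟩ : ∃ n₂, n₂ = ⌈100 * (((4 * Y + 12 : ℕ) : ℝ) * Real.log 2) /
      (c₁ * Y / Real.log Y - Real.log 4)⌉₊ := ⟨_, rfl⟩
  have hn₁le : 101 * Real.log (c₁ * Y / Real.log Y - Real.log 4) ≤ n₁ := hn₁ ▸ Nat.le_ceil _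
  have hn₂le : 100 * (((4 * Y + 12 : ℕ) : ℝ) * Real.log 2) /
      (c₁ * Y / Real.log Y - Real.log 4) ≤ n₂ := hn₂ ▸ Nat.le_ceil _
  rw [← hn₁] at hn₁ub
  rw [← hn₂] at hn₂ub
  have hKsplit : (K₀ + 2) * Real.log Y = 1000 / c₁ * Real.log Y + 101 * Real.log Y + 2 * Real.log Y := by
    rw [hK₀]; ring
  have hnY : n₂ + n₁ ≤ Y := by
    have h3 : ((n₂ + n₁ : ℕ) : ℝ) ≤ Y := by
      push_cast
      linarith
    exact_mod_cast h3
  obtain ⟨S, hS1, hS2, hS3⟩ := main_step (n₁ := n₁) (n₂ := n₂) (J := J) (k := k) (cabs := cabs)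
    hGA (by linarith) h1 h2 hJ.le h5 h6 (by omega) (by omega) hℓ1 hℓ2 hn₁le hn₂le hnY a b ha hab hbY
  refine ⟨S, hS1, ?_, hS3⟩
  -- the final estimate
  have hbge : (2 : ℝ) ^ (Y₁ + 5) ≤ b := by exact_mod_cast hb
  have hb32 : (32 : ℝ) ≤ b := by
    refine le_trans ?_ hbge
    rw [pow_add]
    have : (1 : ℝ) ≤ 2 ^ Y₁ := one_le_pow₀ (by norm_num)
    norm_num
    linarith
  obtain ⟨hloglog, hlogYub⟩ := log_bounds hb32 hY hYR
  have hcard : (S.card : ℝ) ≤ (J : ℝ) + 99 * ((n₂ : ℝ) + n₁) + (k + 3) := by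
    exact_mod_cast hS2
  have hn12 : (n₂ : ℝ) + n₁ ≤ K₀ * Real.log Y + 2 := by
    rw [hK₀]
    have : (101 + 1000 / c₁) * Real.log Y = 1000 / c₁ * Real.log Y + 101 * Real.log Y := by ring
    linarith
  have hfin : (S.card : ℝ) ≤ K₂ + 99 * (K₀ * Real.log Y) := by
    rw [hK₂]
    linarith
  have h3 : K₂ ≤ K₂ * Real.log (Real.log b) := le_mul_of_one_le_right hK₂pos hloglog
  have h4 : K₀ ≤ K₀ * Real.log (Real.log b) := le_mul_of_one_le_right hK₀pos.le hloglog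
  have h7 : K₀ * Real.log Y ≤ K₀ * (1 + Real.log (Real.log b)) :=
    mul_le_mul_of_nonneg_left hlogYub hK₀pos.le
  have h8 : (K₂ + 198 * K₀) * Real.log (Real.log b)
      = K₂ * Real.log (Real.log b) + 198 * (K₀ * Real.log (Real.log b)) := by ring
  have h9 : K₀ * (1 + Real.log (Real.log b)) = K₀ + K₀ * Real.log (Real.log b) := by ring
  rw [h8]
  rw [h9] at h7
  linarith

end Crest.Agent.Egypt
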