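import Crest.Agent.Lib.EgyptDefs

/-!
# Few bad moduli, for `S0025`

`rough_divisor_sum`: the sum of `q ^ (-1/20)` over the `y^40`-rough divisors `q > 1` of a number
`Δ ≤ 4^y` is at most `8 / y`.

`bad_bounds`: the moduli `q` where a set `A ⊆ [1, 4^y]` has many congruent pairs are few.
-/

set_option autoImplicit false

namespace Crest.Agent.Egypt

lemma IsRough.of_dvd {z q r : ℕ} (h : IsRough z q) (hr : r ∣ q) : IsRough z r :=
  fun p hp hpr => h p hp (hpr.trans hr)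

lemma isRough_one (z : ℕ) : IsRough z 1 := by
  intro p hp h
  exact absurd (Nat.dvd_one.mp h) hp.one_lt.ne'

open Classical in
/-- Sum over all `z`-rough divisors. -/
noncomputable def roughSum (z : ℕ) (σ : ℝ) (Δ : ℕ) : ℝ :=
  ∑ q ∈ (Nat.divisors Δ).filter (fun q => IsRough z q), (q : ℝ) ^ (-σ)

lemma roughSum_nonneg (z : ℕ) (σ : ℝ) (Δ : ℕ) : 0 ≤ roughSum z σ Δ := by
  unfold roughSum
  apply Finset.sum_nonneg
  intros
  positivity

lemma sum_union_le_of_nonneg {α : Type*} [DecidableEq α] (s t : Finset α) (f : α → ℝ)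
    (hf : ∀ x, 0 ≤ f x) : ∑ x ∈ s ∪ t, f x ≤ ∑ x ∈ s, f x + ∑ x ∈ t, f x := by
  have h := Finset.sum_union_inter (s₁ := s) (s₂ := t) (f := f)
  have h0 : 0 ≤ ∑ x ∈ s ∩ t, f x := Finset.sum_nonneg (fun x _ => hf x)
  linarith

open Classical in
lemma rough_aux (z : ℕ) (hz : 1 ≤ z) (σ : ℝ) (hσ : 0 ≤ σ) (Δ : ℕ) (hΔ : 0 < Δ) :
    ∃ k : ℕ, z ^ k ≤ Δ ∧ roughSum z σ Δ ≤ (1 + (z : ℝ) ^ (-σ)) ^ k := by
  induction Δ using induction_on_primes with
  | zero => exact absurd hΔ (lt_irrefl _)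
  | one =>
    refine ⟨0, by simp, ?_⟩
    unfold roughSum
    have : (Nat.divisors 1).filter (fun q => IsRough z q) = {1} := by
      rw [Nat.divisors_one, Finset.filter_singleton, if_pos (isRough_one z)]
    rw [this]
    simp
  | prime_mul p a hp ih =>
    have ha : 0 < a := by
      rcases Nat.eq_zero_or_pos a with h0 | h0
      · subst h0; simp at hΔ
      · exact h0
    obtain ⟨k, hk, hF⟩ := ih ha
    have hzpos : (0:ℝ) < (z:ℝ) := by exact_mod_cast hz
    have hFa := roughSum_nonneg z σ a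
    by_cases hpz : z < p
    · refine ⟨k + 1, ?_, ?_⟩
      · rw [pow_succ, mul_comm]
        exact Nat.mul_le_mul hpz.le hk
      · have hsub : (Nat.divisors (p * a)).filter (fun q => IsRough z q) ⊆
            (Nat.divisors a).filter (fun q => IsRough z q) ∪
              ((Nat.divisors a).filter (fun q => IsRough z q)).image (fun q => p * q) := by
          intro q hq
          simp only [Finset.mem_filter, Nat.mem_divisors, Finset.mem_union, Finset.mem_image] at hq ⊢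
          obtain ⟨⟨hqd, hne⟩, hqr⟩ := hq
          by_cases hpq : p ∣ q
          · obtain ⟨r, rfl⟩ := hpq
            right
            refine ⟨r, ⟨⟨Nat.dvd_of_mul_dvd_mul_left hp.pos hqd, ha.ne'⟩, hqr.of_dvd (dvd_mul_left r p)⟩, rfl⟩
          · left
            refine ⟨⟨?_, ha.ne'⟩, hqr⟩
            have : Nat.Coprime q p := ((Nat.Prime.coprime_iff_not_dvd hp).mpr hpq).symm
            exact this.dvd_of_dvd_mul_left hqd
        have hpr : (0:ℝ) < (p:ℝ) := by exact_mod_cast hp.pos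
        have himg : ∑ q ∈ ((Nat.divisors a).filter (fun q => IsRough z q)).image (fun q => p * q),
              (q : ℝ) ^ (-σ) ≤ (z : ℝ) ^ (-σ) * roughSum z σ a := by
          rw [Finset.sum_image (fun x _ y _ h => Nat.eq_of_mul_eq_mul_left hp.pos h)]
          unfold roughSum
          rw [Finset.mul_sum]
          apply Finset.sum_le_sum
          intro q _
          push_cast
          rw [Real.mul_rpow hpr.le (Nat.cast_nonneg q)]
          have hle : (p : ℝ) ^ (-σ) ≤ (z : ℝ) ^ (-σ) := by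
            apply Real.rpow_le_rpow_of_nonpos hzpos
            · exact_mod_cast hpz.le
            · linarith
          exact mul_le_mul_of_nonneg_right hle (by positivity)
        calc roughSum z σ (p * a)
            ≤ ∑ q ∈ (Nat.divisors a).filter (fun q => IsRough z q) ∪
              ((Nat.divisors a).filter (fun q => IsRough z q)).image (fun q => p * q),
                (q : ℝ) ^ (-σ) := by
              unfold roughSum
              apply Finset.sum_le_sum_of_subset_of_nonneg hsub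
              intros; positivity
          _ ≤ roughSum z σ a + (z : ℝ) ^ (-σ) * roughSum z σ a := by
              refine (sum_union_le_of_nonneg _ _ _ (fun x => by positivity)).trans ?_
              unfold roughSum at himg ⊢
              linarith
          _ = (1 + (z : ℝ) ^ (-σ)) * roughSum z σ a := by ring
          _ ≤ (1 + (z : ℝ) ^ (-σ)) * (1 + (z : ℝ) ^ (-σ)) ^ k := by
              apply mul_le_mul_of_nonneg_left hF
              positivity
          _ = _ := by ring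
    · refine ⟨k, hk.trans (Nat.le_mul_of_pos_left a hp.pos), ?_⟩
      refine le_trans ?_ hF
      unfold roughSum
      apply Finset.sum_le_sum_of_subset_of_nonneg
      · intro q hq
        simp only [Finset.mem_filter, Nat.mem_divisors] at hq ⊢
        obtain ⟨⟨hqd, hne⟩, hqr⟩ := hq
        refine ⟨⟨?_, ha.ne'⟩, hqr⟩
        have hpq : ¬ p ∣ q := fun h => hpz (hqr p hp h)
        have : Nat.Coprime q p := ((Nat.Prime.coprime_iff_not_dvd hp).mpr hpq).symm
        exact this.dvd_of_dvd_mul_left hqd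
      · intros; positivity

open Classical in
theorem rough_divisor_sum (y : ℕ) (hy : 3 ≤ y) (Δ : ℕ) (hΔ : 0 < Δ) (hΔle : Δ ≤ 4 ^ y) :
    ∑ q ∈ (Nat.divisors Δ).filter (fun q => 1 < q ∧ IsRough (y ^ 40) q),
      (q : ℝ) ^ (-(1 : ℝ) / 20) ≤ 8 / y := by
  have hy1 : 1 ≤ y ^ 40 := Nat.one_le_pow _ _ (by omega)
  obtain ⟨k, hk, hF⟩ := rough_aux (y ^ 40) hy1 (1/20) (by norm_num) Δ hΔ
  have hyr : (3:ℝ) ≤ y := by exact_mod_cast hy
  have hypos : (0:ℝ) < y := by linarith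
  -- the count
  have h31 : 31 * k ≤ y := by
    have h1 : (4 ^ 31) ^ k ≤ (y ^ 40) ^ k := by
      apply Nat.pow_le_pow_left
      calc 4 ^ 31 ≤ 3 ^ 40 := by norm_num
        _ ≤ y ^ 40 := Nat.pow_le_pow_left hy 40
    have h2 : 4 ^ (31 * k) ≤ 4 ^ y := by
      rw [pow_mul]
      exact h1.trans (hk.trans hΔle)
    exact (Nat.pow_le_pow_iff_right (by norm_num)).mp h2
  have hz : (((y ^ 40 : ℕ) : ℝ)) ^ (-(1/20 : ℝ)) = ((y:ℝ) ^ 2)⁻¹ := by
    push_cast
    rw [← Real.rpow_natCast (y:ℝ) 40, ← Real.rpow_mul hypos.le]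
    have : ((40:ℕ):ℝ) * (-(1/20:ℝ)) = -((2:ℕ):ℝ) := by norm_num
    rw [this, Real.rpow_neg hypos.le, Real.rpow_natCast]
  rw [hz] at hF
  -- exponential bound
  set x : ℝ := (k:ℝ) * ((y:ℝ) ^ 2)⁻¹ with hx
  have hx0 : 0 ≤ x := by positivity
  have h31r : 31 * (k:ℝ) ≤ y := by exact_mod_cast h31
  have hxle : 31 * x ≤ (y:ℝ)⁻¹ := by
    rw [hx]
    have : (y:ℝ)⁻¹ = (y:ℝ) * ((y:ℝ)^2)⁻¹ := by field_simp
    rw [this]
    have hpos : 0 ≤ ((y:ℝ)^2)⁻¹ := by positivity
    nlinarith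
  have hyinv : (y:ℝ)⁻¹ ≤ 1/3 := by
    rw [inv_eq_one_div]
    exact one_div_le_one_div_of_le (by norm_num) hyr
  have hxhalf : x ≤ 1/2 := by linarith
  have hexp : (1 + ((y:ℝ) ^ 2)⁻¹) ^ k ≤ Real.exp x := by
    have h1 : 1 + ((y:ℝ) ^ 2)⁻¹ ≤ Real.exp (((y:ℝ) ^ 2)⁻¹) := by
      have := Real.add_one_le_exp (((y:ℝ) ^ 2)⁻¹)
      linarith
    calc (1 + ((y:ℝ) ^ 2)⁻¹) ^ k ≤ (Real.exp (((y:ℝ) ^ 2)⁻¹)) ^ k :=
          pow_le_pow_left₀ (by positivity) h1 k
      _ = Real.exp x := by rw [← Real.exp_nat_mul]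
  have hexp2 : Real.exp x ≤ 1 + 2 * x := by
    have h1 : 1 - x ≤ Real.exp (-x) := by
      have := Real.add_one_le_exp (-x)
      linarith
    have h2 : Real.exp x * Real.exp (-x) = 1 := by
      rw [← Real.exp_add]; simp
    have hpos := Real.exp_pos x
    have h3 : Real.exp x * (1 - x) ≤ 1 := by
      calc Real.exp x * (1 - x) ≤ Real.exp x * Real.exp (-x) :=
            mul_le_mul_of_nonneg_left h1 hpos.le
        _ = 1 := h2
    nlinarith
  -- remove the term `q = 1`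
  have hsum : ∑ q ∈ (Nat.divisors Δ).filter (fun q => 1 < q ∧ IsRough (y ^ 40) q),
      (q : ℝ) ^ (-(1 : ℝ) / 20) + 1 ≤ roughSum (y ^ 40) (1/20) Δ := by
    have hneg : (-(1:ℝ)/20) = -(1/20) := by ring
    rw [hneg]
    unfold roughSum
    have hnot : (1:ℕ) ∉ (Nat.divisors Δ).filter (fun q => 1 < q ∧ IsRough (y ^ 40) q) := by
      simp
    have hins : insert 1 ((Nat.divisors Δ).filter (fun q => 1 < q ∧ IsRough (y ^ 40) q)) ⊆
        (Nat.divisors Δ).filter (fun q => IsRough (y ^ 40) q) := by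
      intro q hq
      rw [Finset.mem_insert] at hq
      rcases hq with rfl | hq
      · simp only [Finset.mem_filter, Nat.mem_divisors]
        exact ⟨⟨one_dvd _, hΔ.ne'⟩, isRough_one _⟩
      · simp only [Finset.mem_filter, Nat.mem_divisors] at hq ⊢
        exact ⟨hq.1, hq.2.2⟩
    have := Finset.sum_le_sum_of_subset_of_nonneg (f := fun q : ℕ => (q : ℝ) ^ (-(1/20 : ℝ))) hins
      (fun _ _ _ => by positivity)
    rw [Finset.sum_insert hnot] at this
    simp only [Nat.cast_one, Real.one_rpow] at this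
    linarith
  have hfinal : (8:ℝ) / y = 8 * (y:ℝ)⁻¹ := by rw [div_eq_mul_inv]
  rw [hfinal]
  have hyinvpos : 0 < (y:ℝ)⁻¹ := by positivity
  linarith

lemma ecount_le (A : Finset ℕ) (q : ℕ) :
    Ecount A q ≤ A.card + (A.offDiag.filter (fun p => (p.1 : ZMod q) = (p.2 : ZMod q))).card := by
  classical
  unfold Ecount
  have hsub : (A ×ˢ A).filter (fun p => (p.1 : ZMod q) = (p.2 : ZMod q)) ⊆
      A.diag ∪ A.offDiag.filter (fun p => (p.1 : ZMod q) = (p.2 : ZMod q)) := by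
    intro p hp
    simp only [Finset.mem_filter, Finset.mem_product, Finset.mem_union, Finset.mem_diag,
      Finset.mem_offDiag] at hp ⊢
    by_cases h : p.1 = p.2
    · exact Or.inl ⟨hp.1.1, h⟩
    · exact Or.inr ⟨⟨hp.1.1, hp.1.2, h⟩, hp.2⟩
  calc _ ≤ _ := Finset.card_le_card hsub
    _ ≤ _ := Finset.card_union_le _ _
    _ = _ := by rw [Finset.diag_card]

open Classical in
lemma pair_sum_le (y : ℕ) (hy : 3 ≤ y) (A : Finset ℕ) (hA : ∀ a ∈ A, 0 < a ∧ a ≤ 4 ^ y)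
    (B : Finset ℕ) (hB : ∀ q ∈ B, 1 < q ∧ IsRough (y ^ 40) q) (p : ℕ × ℕ) (hp : p ∈ A.offDiag) :
    ∑ q ∈ B, (if (p.1 : ZMod q) = (p.2 : ZMod q) then (q : ℝ) ^ (-(1 : ℝ) / 20) else 0) ≤ 8 / y := by
  rw [Finset.mem_offDiag] at hp
  obtain ⟨h1, h2, hne⟩ := hp
  set Δ : ℕ := ((p.1 : ℤ) - (p.2 : ℤ)).natAbs with hΔ
  have hΔpos : 0 < Δ := by
    rw [hΔ, Int.natAbs_pos]
    intro h
    apply hne
    omega
  have hΔle : Δ ≤ 4 ^ y := by
    have := (hA _ h1).2
    have := (hA _ h2).2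
    have := (hA _ h1).1
    have := (hA _ h2).1
    omega
  have hsum := rough_divisor_sum y hy Δ hΔpos hΔle
  refine le_trans ?_ hsum
  rw [← Finset.sum_filter]
  apply Finset.sum_le_sum_of_subset_of_nonneg
  · intro q hq
    simp only [Finset.mem_filter] at hq
    obtain ⟨hqB, hcong⟩ := hq
    obtain ⟨h1q, hrough⟩ := hB q hqB
    simp only [Finset.mem_filter, Nat.mem_divisors]
    refine ⟨⟨?_, hΔpos.ne'⟩, h1q, hrough⟩
    have h3 := (ZMod.natCast_eq_natCast_iff _ _ _).mp hcong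
    have h4 : (q : ℤ) ∣ (p.2 : ℤ) - (p.1 : ℤ) := (Nat.modEq_iff_dvd).mp h3
    have h5 : (q : ℤ) ∣ (p.1 : ℤ) - (p.2 : ℤ) := by
      have := (dvd_neg (a := (q:ℤ))).mpr h4
      simpa using this
    rw [hΔ]
    exact Int.natCast_dvd.mp h5
  · intros; positivity

lemma bad_key (y : ℕ) (hy : 3 ≤ y) (A : Finset ℕ) (hA : ∀ a ∈ A, 0 < a ∧ a ≤ 4 ^ y)
    (hW : 0 < A.card) (B : Finset ℕ)
    (hB : ∀ q ∈ B, 1 < q ∧ IsRough (y ^ 40) q ∧
      (A.card : ℝ) + (A.card : ℝ) ^ 2 * (q : ℝ) ^ (-(9 : ℝ) / 10) < Ecount A q) :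
    ∑ q ∈ B, (q : ℝ) ^ (-(19 : ℝ) / 20) ≤ 8 / y := by
  classical
  have hWr : (0:ℝ) < (A.card : ℝ) := by exact_mod_cast hW
  have hstep : ∀ q ∈ B, (A.card : ℝ) ^ 2 * (q : ℝ) ^ (-(19 : ℝ) / 20) ≤
      ∑ p ∈ A.offDiag, (if (p.1 : ZMod q) = (p.2 : ZMod q) then (q : ℝ) ^ (-(1 : ℝ) / 20) else 0) := by
    intro q hq
    obtain ⟨h1q, _, hE⟩ := hB q hq
    have hqpos : (0:ℝ) < (q:ℝ) := by
      have : 0 < q := by omega
      exact_mod_cast this
    have h1 := ecount_le A q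
    have h1r : (Ecount A q : ℝ) ≤ (A.card : ℝ) +
        ((A.offDiag.filter (fun p => (p.1 : ZMod q) = (p.2 : ZMod q))).card : ℝ) := by
      exact_mod_cast h1
    rw [← Finset.sum_filter, Finset.sum_const, nsmul_eq_mul]
    have hsplit : (q : ℝ) ^ (-(19 : ℝ) / 20) =
        (q : ℝ) ^ (-(9 : ℝ) / 10) * (q : ℝ) ^ (-(1 : ℝ) / 20) := by
      rw [← Real.rpow_add hqpos]
      norm_num
    rw [hsplit, ← mul_assoc]
    apply mul_le_mul_of_nonneg_right _ (by positivity)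
    have : (A.card : ℝ) ^ 2 * (q : ℝ) ^ (-(9 : ℝ) / 10) ≤
        ((A.offDiag.filter (fun p => (p.1 : ZMod q) = (p.2 : ZMod q))).card : ℝ) := by
      linarith
    convert this using 2
  have hsum : (A.card : ℝ) ^ 2 * ∑ q ∈ B, (q : ℝ) ^ (-(19 : ℝ) / 20) ≤
      (A.card : ℝ) ^ 2 * (8 / y) := by
    rw [Finset.mul_sum]
    refine (Finset.sum_le_sum hstep).trans ?_
    rw [Finset.sum_comm]
    have hpair := fun p hp => pair_sum_le y hy A hA B (fun q hq => ⟨(hB q hq).1, (hB q hq).2.1⟩) p hp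
    have h2 : ∑ p ∈ A.offDiag, ∑ q ∈ B,
        (if (p.1 : ZMod q) = (p.2 : ZMod q) then (q : ℝ) ^ (-(1 : ℝ) / 20) else 0) ≤
        ∑ _p ∈ A.offDiag, (8 / (y:ℝ)) := by
      apply Finset.sum_le_sum
      intro p hp
      convert hpair p hp using 2
    refine h2.trans ?_
    rw [Finset.sum_const, nsmul_eq_mul]
    apply mul_le_mul_of_nonneg_right _ (by positivity)
    rw [Finset.offDiag_card]
    have : A.card * A.card - A.card ≤ A.card ^ 2 := by
      rw [sq]; exact Nat.sub_le _ _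
    exact_mod_cast this
  exact le_of_mul_le_mul_left hsum (by positivity)

theorem bad_bounds (y Q : ℕ) (hy : 3 ≤ y) (A : Finset ℕ) (hA : ∀ a ∈ A, 0 < a ∧ a ≤ 4 ^ y)
    (hW : 0 < A.card) (B : Finset ℕ)
    (hB : ∀ q ∈ B, 1 < q ∧ IsRough (y ^ 40) q ∧ q ≤ Q ∧
      (A.card : ℝ) + (A.card : ℝ) ^ 2 * (q : ℝ) ^ (-(9 : ℝ) / 10) < Ecount A q) :
    (∑ q ∈ B, (1 : ℝ) / q ≤ 8 / y) ∧ ((B.card : ℝ) ≤ (Q : ℝ) ^ ((19 : ℝ) / 20) * (8 / y)) := by
  have hkey := bad_key y hy A hA hW B (fun q hq => ⟨(hB q hq).1, (hB q hq).2.1, (hB q hq).2.2.2⟩)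
  constructor
  · refine le_trans (Finset.sum_le_sum ?_) hkey
    intro q hq
    have h1q := (hB q hq).1
    have hq1 : (1:ℝ) ≤ q := by exact_mod_cast h1q.le
    have : (1:ℝ) / q = (q:ℝ) ^ (-(1:ℝ)) := by
      rw [Real.rpow_neg_one, one_div]
    rw [this]
    apply Real.rpow_le_rpow_of_exponent_le hq1
    norm_num
  · calc (B.card : ℝ) = ∑ _q ∈ B, (1:ℝ) := by simp
      _ ≤ ∑ q ∈ B, (Q : ℝ) ^ ((19 : ℝ) / 20) * (q : ℝ) ^ (-(19 : ℝ) / 20) := by
        apply Finset.sum_le_sum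
        intro q hq
        obtain ⟨h1q, _, hqQ, _⟩ := hB q hq
        have hq0 : (0:ℝ) < q := by
          have : 0 < q := by omega
          exact_mod_cast this
        have hqQr : (q:ℝ) ≤ Q := by exact_mod_cast hqQ
        have hneg : (-(19:ℝ)/20) = -((19:ℝ)/20) := by ring
        rw [hneg, Real.rpow_neg hq0.le]
        have h1 : (q:ℝ) ^ ((19:ℝ)/20) ≤ (Q:ℝ) ^ ((19:ℝ)/20) :=
          Real.rpow_le_rpow hq0.le hqQr (by norm_num)
        have h2 : (0:ℝ) < (q:ℝ) ^ ((19:ℝ)/20) := Real.rpow_pos_of_pos hq0 _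
        rw [← div_eq_mul_inv, one_le_div h2]
        exact h1
      _ = (Q : ℝ) ^ ((19 : ℝ) / 20) * ∑ q ∈ B, (q : ℝ) ^ (-(19 : ℝ) / 20) := by
        rw [Finset.mul_sum]
      _ ≤ _ := mul_le_mul_of_nonneg_left hkey (by positivity)

end Crest.Agent.Egypt
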