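import Mathlib

/-!
# Egyptian fractions with `O(log log b)` terms: definitions and the interface statement

`GoodStmt` is the number-theoretic core: in every short interval there is a modulus `D`
(coprime to 30) such that every residue class mod `D` is a sum of 49 distinct divisors of `MM Y`.
-/

set_option autoImplicit false

namespace Crest.Agent.Egypt

/-- Primes in `[7,y]`. -/
def primesIn (y : ℕ) : Finset ℕ := (Finset.Icc 7 y).filter Nat.Prime

/-- The product of the primes in `[7,y]`. -/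
def MM (y : ℕ) : ℕ := ∏ p ∈ primesIn y, p

/-- The interface between the number theory and the greedy algorithm. -/
def GoodStmt : Prop :=
  ∃ (τ₀ c₁ : ℝ) (Y₀ : ℕ), 0 < c₁ ∧ 1 ≤ τ₀ ∧ ∀ Y : ℕ, Y₀ ≤ Y → ∀ τ : ℝ, τ₀ ≤ τ →
    τ ≤ Real.exp (c₁ * Y / Real.log Y) →
    ∃ D : ℕ, τ ≤ D ∧ (D : ℝ) ≤ τ + τ ^ ((24 : ℝ) / 25) ∧ Nat.Coprime D 30 ∧
      ∀ ρ : ℤ, ∃ T : Fin 49 → ℕ, Function.Injective T ∧ (∀ i, T i ∣ MM Y) ∧
        ((D : ℤ) ∣ (∑ i, (T i : ℤ)) - ρ)


/-- Number of pairs in `A × A` congruent mod `q`. -/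
def Ecount (A : Finset ℕ) (q : ℕ) : ℕ :=
  ((A ×ˢ A).filter (fun p => (p.1 : ZMod q) = (p.2 : ZMod q))).card

/-- All prime factors of `q` exceed `z`. -/
def IsRough (z q : ℕ) : Prop := ∀ p : ℕ, p.Prime → p ∣ q → z < p

lemma primesIn_mono {y Y : ℕ} (h : y ≤ Y) : primesIn y ⊆ primesIn Y := by
  intro p hp
  simp only [primesIn, Finset.mem_filter, Finset.mem_Icc] at hp ⊢
  exact ⟨⟨hp.1.1, hp.1.2.trans h⟩, hp.2⟩

lemma MM_dvd_of_le {y Y : ℕ} (h : y ≤ Y) : MM y ∣ MM Y :=
  Finset.prod_dvd_prod_of_subset _ _ _ (primesIn_mono h)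

lemma prime_of_mem_primesIn {y p : ℕ} (hp : p ∈ primesIn y) : p.Prime := by
  simp only [primesIn, Finset.mem_filter] at hp; exact hp.2

lemma seven_le_of_mem_primesIn {y p : ℕ} (hp : p ∈ primesIn y) : 7 ≤ p := by
  simp only [primesIn, Finset.mem_filter, Finset.mem_Icc] at hp; exact hp.1.1

lemma le_of_mem_primesIn {y p : ℕ} (hp : p ∈ primesIn y) : p ≤ y := by
  simp only [primesIn, Finset.mem_filter, Finset.mem_Icc] at hp; exact hp.1.2

lemma MM_pos (y : ℕ) : 0 < MM y :=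
  Finset.prod_pos fun _ hp => (prime_of_mem_primesIn hp).pos

lemma coprime_thirty_of_mem {y p : ℕ} (hp : p ∈ primesIn y) : Nat.Coprime p 30 := by
  have hpp := prime_of_mem_primesIn hp
  have h7 := seven_le_of_mem_primesIn hp
  rw [Nat.Prime.coprime_iff_not_dvd hpp]
  intro h
  have : p ≤ 30 := Nat.le_of_dvd (by norm_num) h
  interval_cases p <;> revert hpp h <;> norm_num

lemma MM_coprime_thirty (y : ℕ) : Nat.Coprime (MM y) 30 :=
  Nat.Coprime.prod_left fun _ hp => coprime_thirty_of_mem hp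

lemma MM_le_four_pow (y : ℕ) : MM y ≤ 4 ^ y := by
  have h1 : MM y ∣ primorial y := by
    unfold MM primorial
    apply Finset.prod_dvd_prod_of_subset
    intro p hp
    simp only [Finset.mem_filter, Finset.mem_range]
    exact ⟨Nat.lt_succ_of_le (le_of_mem_primesIn hp), prime_of_mem_primesIn hp⟩
  exact (Nat.le_of_dvd (primorial_pos y) h1).trans (primorial_le_four_pow y)

end Crest.Agent.Egypt
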