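import Mathlib
import Crest.Agent.Lib.EgyptDefs

/-!
# Piece (F) of the Egyptian fraction proof: a Fourier covering lemma.

If every nontrivial divisor `q` of `D` is large and the additive energies of `A` and `B` modulo `q`
are small, then every residue class mod `D` is a sum of `49` distinct products `a * b`.
-/

set_option autoImplicit false

namespace Crest.Agent.Egypt

open Finset
open scoped ComplexConjugate

namespace FourierAux

section chi

variable {D : ℕ} [NeZero D] (t : ZMod D)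

/-- The character `n ↦ ψ(n t)` of `ℤ`. -/
noncomputable def chi (n : ℤ) : ℂ := ZMod.stdAddChar ((n : ZMod D) * t)

lemma chi_add (m n : ℤ) : chi t (m + n) = chi t m * chi t n := by
  simp [chi, add_mul, AddChar.map_add_eq_mul]

lemma chi_zero : chi t 0 = 1 := by simp [chi]

lemma norm_chi (n : ℤ) : ‖chi t n‖ = 1 := AddChar.norm_apply _ _

lemma chi_neg (n : ℤ) : chi t (-n) = conj (chi t n) := by
  simp only [chi, Int.cast_neg, neg_mul]
  exact AddChar.map_neg_eq_conj _ _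

lemma chi_eq_one_iff (n : ℤ) : chi t n = 1 ↔ (addOrderOf t : ℤ) ∣ n := by
  have h : chi t n = 1 ↔ (n : ZMod D) * t = 0 := by
    unfold chi
    rw [← (ZMod.stdAddChar (N := D)).map_zero_eq_one, ZMod.injective_stdAddChar.eq_iff]
  rw [h, ← zsmul_eq_mul]
  exact (addOrderOf_dvd_iff_zsmul_eq_zero).symm

lemma chi_nat_mul (c : ℕ) (m : ℤ) : chi t ((c : ℤ) * m) = chi t m ^ c := by
  induction c with
  | zero => simp [chi_zero]
  | succ c ih =>
    have : ((c + 1 : ℕ) : ℤ) * m = (c : ℤ) * m + m := by push_cast; ring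
    rw [this, chi_add, ih, pow_succ]

lemma chi_congr {m n : ℤ} (h : (addOrderOf t : ℤ) ∣ m - n) : chi t m = chi t n := by
  have h1 : chi t (m - n) = 1 := (chi_eq_one_iff t _).2 h
  have : m = (m - n) + n := by ring
  rw [this, chi_add, h1, one_mul]

lemma addOrderOf_pos' : 0 < addOrderOf t := addOrderOf_pos t

lemma sum_chi_range (m : ℤ) :
    ∑ c ∈ range (addOrderOf t), chi t ((c : ℤ) * m)
      = if (addOrderOf t : ℤ) ∣ m then (addOrderOf t : ℂ) else 0 := by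
  simp_rw [chi_nat_mul]
  split_ifs with h
  · have : chi t m = 1 := (chi_eq_one_iff t m).2 h
    simp [this]
  · have hne : chi t m ≠ 1 := fun h' => h ((chi_eq_one_iff t m).1 h')
    have hq : chi t m ^ addOrderOf t = 1 := by
      rw [← chi_nat_mul, chi_eq_one_iff]
      exact dvd_mul_right _ _
    have := mul_geom_sum (chi t m) (addOrderOf t)
    rw [hq, sub_self] at this
    exact (mul_eq_zero.1 this).resolve_left (sub_ne_zero.2 hne)

end chi

section energy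

lemma zmod_cast_eq_iff (a b q : ℕ) : ((a : ZMod q) = (b : ZMod q)) ↔ a % q = b % q := by
  rw [ZMod.natCast_eq_natCast_iff]; rfl

/-- The energy is the sum of squares of the fibre sizes. -/
lemma Ecount_eq_sum_sq (A : Finset ℕ) (q : ℕ) (hq : 0 < q) :
    (Ecount A q : ℝ) = ∑ c ∈ range q, (((A.filter (fun a => a % q = c)).card : ℝ)) ^ 2 := by
  have h1 : Ecount A q = ∑ c ∈ range q,
      (((A ×ˢ A).filter (fun p => (p.1 : ZMod q) = (p.2 : ZMod q))).filter
        (fun p => p.1 % q = c)).card := by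
    unfold Ecount
    apply Finset.card_eq_sum_card_fiberwise
    intro x _
    simp only [Finset.coe_range, Set.mem_Iio]
    exact Nat.mod_lt _ hq
  have h2 : ∀ c ∈ range q,
      (((A ×ˢ A).filter (fun p => (p.1 : ZMod q) = (p.2 : ZMod q))).filter
        (fun p => p.1 % q = c)) = (A.filter (fun a => a % q = c)) ×ˢ (A.filter (fun a => a % q = c)) := by
    intro c _
    ext ⟨a, b⟩
    simp only [mem_filter, mem_product, zmod_cast_eq_iff]
    constructor
    · rintro ⟨⟨⟨ha, hb⟩, hab⟩, hc⟩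
      exact ⟨⟨ha, hc⟩, hb, hab ▸ hc⟩
    · rintro ⟨⟨ha, hc⟩, hb, hc'⟩
      exact ⟨⟨⟨ha, hb⟩, hc.trans hc'.symm⟩, hc⟩
  rw [h1]
  push_cast
  apply Finset.sum_congr rfl
  intro c hc
  rw [h2 c hc, card_product]
  push_cast
  ring

end energy

section bilinear

variable {D : ℕ} [NeZero D] (t : ZMod D)

/-- The second moment of the inner sums. -/
lemma sum_norm_sq_inner (B : Finset ℕ) :
    ∑ c ∈ range (addOrderOf t), ‖∑ b ∈ B, chi t ((c : ℤ) * (b : ℤ))‖ ^ 2
      = (addOrderOf t : ℝ) * (Ecount B (addOrderOf t) : ℝ) := by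
  set q := addOrderOf t with hqdef
  have hq : 0 < q := addOrderOf_pos t
  have h1 : ∀ c : ℕ, ((‖∑ b ∈ B, chi t ((c : ℤ) * (b : ℤ))‖ ^ 2 : ℝ) : ℂ)
      = ∑ p ∈ B ×ˢ B, chi t ((c : ℤ) * ((p.1 : ℤ) - (p.2 : ℤ))) := by
    intro c
    rw [← Complex.normSq_eq_norm_sq, Complex.normSq_eq_conj_mul_self, map_sum, mul_comm,
      Finset.sum_mul_sum, Finset.sum_product]
    apply Finset.sum_congr rfl; intro a _
    apply Finset.sum_congr rfl; intro b _
    rw [← chi_neg, ← chi_add]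
    congr 1; ring
  have h2 : ((∑ c ∈ range q, ‖∑ b ∈ B, chi t ((c : ℤ) * (b : ℤ))‖ ^ 2 : ℝ) : ℂ)
      = (q : ℂ) * (Ecount B q : ℂ) := by
    push_cast
    have h3 : ∀ c ∈ range q, (‖∑ b ∈ B, chi t ((c : ℤ) * (b : ℤ))‖ : ℂ) ^ 2
        = ∑ p ∈ B ×ˢ B, chi t ((c : ℤ) * ((p.1 : ℤ) - (p.2 : ℤ))) := by
      intro c _
      have := h1 c
      push_cast at this
      exact this
    have hsum : ∀ m : ℤ, ∑ c ∈ range q, chi t ((c : ℤ) * m) = if (q : ℤ) ∣ m then (q : ℂ) else 0 :=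
      sum_chi_range t
    rw [Finset.sum_congr rfl h3, Finset.sum_comm]
    simp_rw [hsum]
    rw [Finset.sum_ite, Finset.sum_const_zero, add_zero, Finset.sum_const, nsmul_eq_mul, mul_comm]
    congr 2
    unfold Ecount
    congr 1
    ext p
    simp only [mem_filter, mem_product, and_congr_right_iff]
    intro _
    rw [zmod_cast_eq_iff]
    have : (q : ℤ) ∣ ((p.1 : ℤ) - (p.2 : ℤ)) ↔ p.2 ≡ p.1 [MOD q] := by
      rw [Nat.modEq_iff_dvd]
    rw [this]
    exact ⟨fun h => h.symm, fun h => h.symm⟩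
  exact_mod_cast h2

/-- The basic bilinear estimate. -/
theorem norm_sq_bilinear (A B : Finset ℕ) :
    ‖∑ a ∈ A, ∑ b ∈ B, chi t ((a : ℤ) * (b : ℤ))‖ ^ 2
      ≤ (addOrderOf t : ℝ) * (Ecount A (addOrderOf t) : ℝ) * (Ecount B (addOrderOf t) : ℝ) := by
  set q := addOrderOf t with hqdef
  have hq : 0 < q := addOrderOf_pos t
  set G : ℕ → ℂ := fun c => ∑ b ∈ B, chi t ((c : ℤ) * (b : ℤ)) with hG
  set n : ℕ → ℝ := fun c => ((A.filter (fun a => a % q = c)).card : ℝ) with hn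
  have hS : ∑ a ∈ A, ∑ b ∈ B, chi t ((a : ℤ) * (b : ℤ)) = ∑ c ∈ range q, (n c : ℂ) * G c := by
    have h1 : ∀ a ∈ A, ∑ b ∈ B, chi t ((a : ℤ) * (b : ℤ)) = G (a % q) := by
      intro a _
      apply Finset.sum_congr rfl
      intro b _
      apply chi_congr
      have : ((a : ℤ) * (b : ℤ)) - (((a % q : ℕ) : ℤ) * (b : ℤ)) = ((a : ℤ) - ((a % q : ℕ) : ℤ)) * b := by
        ring
      rw [this]
      apply Dvd.dvd.mul_right
      have hdvd : q ∣ a - a % q := Nat.dvd_sub_mod a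
      have hle : a % q ≤ a := Nat.mod_le a q
      have : ((a : ℤ) - ((a % q : ℕ) : ℤ)) = ((a - a % q : ℕ) : ℤ) := by
        push_cast [Nat.cast_sub hle]; ring
      rw [this]
      exact_mod_cast hdvd
    rw [Finset.sum_congr rfl h1]
    rw [← Finset.sum_fiberwise_of_maps_to (s := A) (t := range q) (g := fun a => a % q)
      (fun a _ => Finset.mem_range.2 (Nat.mod_lt a hq))]
    apply Finset.sum_congr rfl
    intro c _
    have : ∀ a ∈ A.filter (fun a => a % q = c), G (a % q) = G c := by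
      intro a ha
      rw [(Finset.mem_filter.1 ha).2]
    rw [Finset.sum_congr rfl this, Finset.sum_const, nsmul_eq_mul]
    simp [hn]
  have hnorm : ‖∑ c ∈ range q, (n c : ℂ) * G c‖ ≤ ∑ c ∈ range q, n c * ‖G c‖ := by
    refine (norm_sum_le _ _).trans (le_of_eq ?_)
    apply Finset.sum_congr rfl
    intro c _
    rw [norm_mul, Complex.norm_real, Real.norm_of_nonneg (by simp [hn])]
  have hCS := Finset.sum_mul_sq_le_sq_mul_sq (range q) n (fun c => ‖G c‖)
  have hA := Ecount_eq_sum_sq A q hq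
  have hB := sum_norm_sq_inner t B
  rw [hS]
  calc ‖∑ c ∈ range q, (n c : ℂ) * G c‖ ^ 2
      ≤ (∑ c ∈ range q, n c * ‖G c‖) ^ 2 := by
        apply pow_le_pow_left₀ (norm_nonneg _) hnorm
    _ ≤ (∑ c ∈ range q, n c ^ 2) * ∑ c ∈ range q, ‖G c‖ ^ 2 := hCS
    _ = (q : ℝ) * (Ecount A q : ℝ) * (Ecount B q : ℝ) := by
        rw [← hA]
        have : ∑ c ∈ range q, ‖G c‖ ^ 2 = (q : ℝ) * (Ecount B q : ℝ) := hB
        rw [this]; ring

end bilinear

section counting

variable {D : ℕ} [NeZero D]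

/-- The exponential sum over a set of pairs. -/
noncomputable def SS (P : Finset (ℕ × ℕ)) (t : ZMod D) : ℂ :=
  ∑ x ∈ P, chi t ((x.1 : ℤ) * (x.2 : ℤ))

lemma chi_pair (t : ZMod D) (x : ℕ × ℕ) :
    chi t ((x.1 : ℤ) * (x.2 : ℤ))
      = ZMod.stdAddChar (((x.1 : ZMod D) * (x.2 : ZMod D)) * t) := by
  simp [chi]

omit [NeZero D] in
lemma psi_sum {ι : Type*} (ψ : AddChar (ZMod D) ℂ) (s : Finset ι) (f : ι → ZMod D) :
    ψ (∑ i ∈ s, f i) = ∏ i ∈ s, ψ (f i) := by
  classical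
  induction s using Finset.induction_on with
  | empty => simp
  | insert a s ha ih => rw [Finset.sum_insert ha, Finset.prod_insert ha, AddChar.map_add_eq_mul, ih]

/-- The counting identity. -/
lemma count_identity (P : Finset (ℕ × ℕ)) (ρ : ZMod D) :
    (D : ℂ) * (((Fintype.piFinset (fun _ : Fin 49 => P)).filter
        (fun f => ∑ i, (((f i).1 : ZMod D) * ((f i).2 : ZMod D)) = ρ)).card : ℂ)
      = ∑ t : ZMod D, ZMod.stdAddChar (-(ρ * t)) * SS P t ^ 49 := by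
  classical
  have hψ := ZMod.isPrimitive_stdAddChar D
  have h1 : ∀ t : ZMod D, SS P t ^ 49
      = ∑ f ∈ Fintype.piFinset (fun _ : Fin 49 => P),
          ∏ i, ZMod.stdAddChar (((f i).1 : ZMod D) * ((f i).2 : ZMod D) * t) := by
    intro t
    have := Finset.prod_univ_sum (fun _ : Fin 49 => P)
      (fun _ x => ZMod.stdAddChar (((x.1 : ZMod D) * (x.2 : ZMod D)) * t))
    rw [← this]
    simp [SS, chi_pair]
  have h2 : ∀ t : ZMod D, ZMod.stdAddChar (-(ρ * t)) * SS P t ^ 49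
      = ∑ f ∈ Fintype.piFinset (fun _ : Fin 49 => P),
          ZMod.stdAddChar (t * ((∑ i, ((f i).1 : ZMod D) * ((f i).2 : ZMod D)) - ρ)) := by
    intro t
    rw [h1, Finset.mul_sum]
    apply Finset.sum_congr rfl
    intro f _
    rw [← psi_sum, ← AddChar.map_add_eq_mul]
    congr 1
    rw [← Finset.sum_mul]
    ring
  simp_rw [h2]
  rw [Finset.sum_comm]
  have h3 : ∀ f ∈ Fintype.piFinset (fun _ : Fin 49 => P),
      ∑ t : ZMod D, ZMod.stdAddChar (t * ((∑ i, ((f i).1 : ZMod D) * ((f i).2 : ZMod D)) - ρ))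
        = if (∑ i, ((f i).1 : ZMod D) * ((f i).2 : ZMod D)) = ρ then (D : ℂ) else 0 := by
    intro f _
    rw [AddChar.sum_mulShift _ hψ]
    simp [sub_eq_zero, ZMod.card]
  rw [Finset.sum_congr rfl h3, Finset.sum_ite, Finset.sum_const_zero, add_zero, Finset.sum_const,
    nsmul_eq_mul, mul_comm]

lemma SS_zero (P : Finset (ℕ × ℕ)) : SS P (0 : ZMod D) = (P.card : ℂ) := by
  simp [SS, chi]

lemma norm_SS_le (P : Finset (ℕ × ℕ)) (t : ZMod D) : ‖SS P t‖ ≤ P.card := by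
  unfold SS
  refine (norm_sum_le _ _).trans ?_
  simp [norm_chi]

/-- Main term minus error is a lower bound for the count. -/
lemma main_lower (P : Finset (ℕ × ℕ)) (ρ : ZMod D) :
    (P.card : ℝ) ^ 49 - ∑ t ∈ (univ : Finset (ZMod D)).erase 0, ‖SS P t‖ ^ 49
      ≤ (D : ℝ) * (((Fintype.piFinset (fun _ : Fin 49 => P)).filter
        (fun f => ∑ i, (((f i).1 : ZMod D) * ((f i).2 : ZMod D)) = ρ)).card : ℝ) := by
  classical
  set N := ((Fintype.piFinset (fun _ : Fin 49 => P)).filter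
        (fun f => ∑ i, (((f i).1 : ZMod D) * ((f i).2 : ZMod D)) = ρ)).card with hN
  have h := count_identity P ρ
  rw [← hN, ← Finset.add_sum_erase _ _ (Finset.mem_univ (0 : ZMod D))] at h
  simp only [mul_zero, neg_zero, AddChar.map_zero_eq_one, one_mul, SS_zero] at h
  have h2 : ‖((D : ℂ) * (N : ℂ)) - (P.card : ℂ) ^ 49‖
      ≤ ∑ t ∈ (univ : Finset (ZMod D)).erase 0, ‖SS P t‖ ^ 49 := by
    rw [h, add_sub_cancel_left]
    refine (norm_sum_le _ _).trans (le_of_eq ?_)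
    apply Finset.sum_congr rfl
    intro t _
    rw [norm_mul, AddChar.norm_apply, one_mul, norm_pow]
  have h3 : ((D : ℂ) * (N : ℂ)) - (P.card : ℂ) ^ 49 = (((D : ℝ) * (N : ℝ) - (P.card : ℝ) ^ 49 : ℝ) : ℂ) := by
    push_cast; ring
  rw [h3, Complex.norm_real, Real.norm_eq_abs] at h2
  have := neg_abs_le ((D : ℝ) * (N : ℝ) - (P.card : ℝ) ^ 49)
  linarith

end counting

section estimates

lemma energy_bound (W q : ℝ) (hW : 0 < W) (hq1 : 1 ≤ q) (hqW : q ^ 3 ≤ W ^ 4) :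
    W + W ^ 2 * q ^ (-(9 : ℝ) / 10) ≤ 2 * W ^ 2 * q ^ (-(3 : ℝ) / 4) := by
  have hq0 : 0 < q := by linarith
  set x := q ^ (-(3 : ℝ) / 4) with hx
  have hx0 : 0 < x := Real.rpow_pos_of_pos hq0 _
  have h1 : q ^ (-(9 : ℝ) / 10) ≤ x := Real.rpow_le_rpow_of_exponent_le hq1 (by norm_num)
  have hx4 : x ^ 4 * q ^ 3 = 1 := by
    have : x ^ 4 = q ^ (-(3 : ℝ)) := by
      rw [hx, ← Real.rpow_natCast, ← Real.rpow_mul hq0.le]
      norm_num
    rw [this, Real.rpow_neg hq0.le]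
    have : q ^ (3 : ℝ) = q ^ 3 := by norm_cast
    rw [this]
    field_simp
  have h2 : 1 ≤ W * x := by
    by_contra hcon
    push Not at hcon
    have hpos : 0 ≤ W * x := by positivity
    have h3 : (W * x) ^ 4 < 1 := pow_lt_one₀ hpos hcon (by norm_num)
    have h4 : (W * x) ^ 4 = W ^ 4 * x ^ 4 := by ring
    have h5 : 1 ≤ W ^ 4 * x ^ 4 := by
      calc (1 : ℝ) = x ^ 4 * q ^ 3 := hx4.symm
        _ ≤ x ^ 4 * W ^ 4 := by
            apply mul_le_mul_of_nonneg_left hqW (by positivity)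
        _ = W ^ 4 * x ^ 4 := by ring
    linarith
  have h6 : W ≤ W ^ 2 * x := by nlinarith
  have h7 : W ^ 2 * q ^ (-(9 : ℝ) / 10) ≤ W ^ 2 * x :=
    mul_le_mul_of_nonneg_left h1 (by positivity)
  linarith

lemma s4_bound (s W q : ℝ) (EA EB : ℝ) (hW : 0 < W) (hq1 : 1 ≤ q) (hqW : q ^ 3 ≤ W ^ 4)
    (hs : s ^ 2 ≤ q * EA * EB) (hEB0 : 0 ≤ EB)
    (hEA : EA ≤ W + W ^ 2 * q ^ (-(9 : ℝ) / 10)) (hEB : EB ≤ W + W ^ 2 * q ^ (-(9 : ℝ) / 10)) :
    s ^ 4 * q ≤ 16 * W ^ 8 := by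
  have hq0 : 0 < q := by linarith
  set x := q ^ (-(3 : ℝ) / 4) with hx
  have hx0 : 0 < x := Real.rpow_pos_of_pos hq0 _
  have hx4 : x ^ 4 * q ^ 3 = 1 := by
    have : x ^ 4 = q ^ (-(3 : ℝ)) := by
      rw [hx, ← Real.rpow_natCast, ← Real.rpow_mul hq0.le]
      norm_num
    rw [this, Real.rpow_neg hq0.le]
    have : q ^ (3 : ℝ) = q ^ 3 := by norm_cast
    rw [this]
    field_simp
  have hb := energy_bound W q hW hq1 hqW
  rw [← hx] at hb
  have h1 : EA * EB ≤ (2 * W ^ 2 * x) * (2 * W ^ 2 * x) :=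
    mul_le_mul (hEA.trans hb) (hEB.trans hb) hEB0 (by positivity)
  have h2 : s ^ 2 ≤ q * ((2 * W ^ 2 * x) * (2 * W ^ 2 * x)) := by
    calc s ^ 2 ≤ q * EA * EB := hs
      _ = q * (EA * EB) := by ring
      _ ≤ _ := mul_le_mul_of_nonneg_left h1 hq0.le
  have h3 : (s ^ 2) ^ 2 ≤ (q * ((2 * W ^ 2 * x) * (2 * W ^ 2 * x))) ^ 2 :=
    pow_le_pow_left₀ (by positivity) h2 2
  have h4 : (q * ((2 * W ^ 2 * x) * (2 * W ^ 2 * x))) ^ 2 * q = 16 * W ^ 8 * (x ^ 4 * q ^ 3) := by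
    ring
  calc s ^ 4 * q = (s ^ 2) ^ 2 * q := by ring
    _ ≤ (q * ((2 * W ^ 2 * x) * (2 * W ^ 2 * x))) ^ 2 * q :=
        mul_le_mul_of_nonneg_right h3 hq0.le
    _ = 16 * W ^ 8 := by rw [h4, hx4, mul_one]

lemma pow49_bound (s W q : ℝ) (hs0 : 0 ≤ s) (hsW : s ≤ W ^ 2) (h4 : s ^ 4 * q ≤ 16 * W ^ 8)
    (hq : 0 < q) : s ^ 49 ≤ 2 ^ 48 * W ^ 98 * (1 / q ^ 12) := by
  have hW2 : 0 ≤ W ^ 2 := by positivity
  have h1 : s ^ 4 ≤ 16 * W ^ 8 / q := by
    rw [le_div_iff₀ hq]; exact h4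
  have h2 : (s ^ 4) ^ 12 ≤ (16 * W ^ 8 / q) ^ 12 := pow_le_pow_left₀ (by positivity) h1 12
  calc s ^ 49 = (s ^ 4) ^ 12 * s := by ring
    _ ≤ (16 * W ^ 8 / q) ^ 12 * W ^ 2 :=
        mul_le_mul h2 hsW hs0 (by positivity)
    _ = 2 ^ 48 * W ^ 98 * (1 / q ^ 12) := by
        field_simp
        ring

end estimates

section sum

variable {D : ℕ} [NeZero D]

omit [NeZero D] in
lemma addOrder_dvd (t : ZMod D) : addOrderOf t ∣ D := by
  apply addOrderOf_dvd_of_nsmul_eq_zero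
  rw [nsmul_eq_mul, ZMod.natCast_self, zero_mul]

lemma sum_order_bound (z : ℕ) (hz : 0 < z) (hzD : z ≤ D)
    (hord : ∀ t : ZMod D, t ≠ 0 → z < addOrderOf t) :
    ∑ t ∈ (univ : Finset (ZMod D)).erase 0, (1 : ℝ) / (addOrderOf t : ℝ) ^ 12 ≤ 1 / (z : ℝ) ^ 10 := by
  classical
  have hmaps : ∀ t ∈ (univ : Finset (ZMod D)).erase 0, addOrderOf t ∈ Finset.Ioc z D := by
    intro t ht
    have ht0 : t ≠ 0 := (Finset.mem_erase.1 ht).1
    refine Finset.mem_Ioc.2 ⟨hord t ht0, ?_⟩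
    exact Nat.le_of_dvd (Nat.pos_of_ne_zero (NeZero.ne D)) (addOrder_dvd t)
  rw [← Finset.sum_fiberwise_of_maps_to hmaps]
  have hz0 : (0 : ℝ) < z := by exact_mod_cast hz
  have hfib : ∀ q ∈ Finset.Ioc z D,
      ∑ t ∈ ((univ : Finset (ZMod D)).erase 0).filter (fun t => addOrderOf t = q),
          (1 : ℝ) / (addOrderOf t : ℝ) ^ 12
        ≤ (1 / (z : ℝ) ^ 9) * ((q : ℝ) ^ 2)⁻¹ := by
    intro q hq
    have hqz : z < q := (Finset.mem_Ioc.1 hq).1
    have hq0 : 0 < q := by omega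
    have hq0' : (0 : ℝ) < q := by exact_mod_cast hq0
    have hzq : (z : ℝ) ≤ q := by exact_mod_cast hqz.le
    have h1 : ∀ t ∈ ((univ : Finset (ZMod D)).erase 0).filter (fun t => addOrderOf t = q),
        (1 : ℝ) / (addOrderOf t : ℝ) ^ 12 = 1 / (q : ℝ) ^ 12 := by
      intro t ht
      rw [(Finset.mem_filter.1 ht).2]
    rw [Finset.sum_congr rfl h1, Finset.sum_const, nsmul_eq_mul]
    have hcard : ((((univ : Finset (ZMod D)).erase 0).filter (fun t => addOrderOf t = q)).card : ℝ) ≤ q := by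
      have h2 : ((univ : Finset (ZMod D)).erase 0).filter (fun t => addOrderOf t = q)
          ⊆ (univ : Finset (ZMod D)).filter (fun a => q • a = 0) := by
        intro t ht
        have := (Finset.mem_filter.1 ht).2
        simp only [Finset.mem_filter, Finset.mem_univ, true_and]
        rw [← this]
        exact addOrderOf_nsmul_eq_zero t
      have h3 := (Finset.card_le_card h2).trans (IsAddCyclic.card_nsmul_eq_zero_le (α := ZMod D) hq0)
      exact_mod_cast h3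
    calc _ ≤ (q : ℝ) * (1 / (q : ℝ) ^ 12) :=
          mul_le_mul_of_nonneg_right hcard (by positivity)
      _ = (1 / (q : ℝ) ^ 9) * ((q : ℝ) ^ 2)⁻¹ := by
          field_simp
      _ ≤ (1 / (z : ℝ) ^ 9) * ((q : ℝ) ^ 2)⁻¹ := by
          apply mul_le_mul_of_nonneg_right _ (by positivity)
          apply one_div_le_one_div_of_le (by positivity)
          exact pow_le_pow_left₀ hz0.le hzq 9
  refine (Finset.sum_le_sum hfib).trans ?_
  rw [← Finset.mul_sum]
  have h4 := sum_Ioc_inv_sq_le_sub (α := ℝ) (k := z) (n := D) hz.ne' hzD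
  have h5 : (∑ i ∈ Finset.Ioc z D, ((i : ℝ) ^ 2)⁻¹) ≤ 1 / (z : ℝ) := by
    have : (0 : ℝ) ≤ (D : ℝ)⁻¹ := by positivity
    rw [one_div]
    linarith
  calc (1 / (z : ℝ) ^ 9) * ∑ i ∈ Finset.Ioc z D, ((i : ℝ) ^ 2)⁻¹
      ≤ (1 / (z : ℝ) ^ 9) * (1 / (z : ℝ)) := mul_le_mul_of_nonneg_left h5 (by positivity)
    _ = 1 / (z : ℝ) ^ 10 := by
        field_simp

end sum

section noninjective

variable {α : Type*} [DecidableEq α]

/-- Tuples with a prescribed coincidence. -/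
lemma card_coincidence (P : Finset α) (i j : Fin 49) (hij : i ≠ j) :
    ((Fintype.piFinset (fun _ : Fin 49 => P)).filter (fun f => f i = f j)).card ≤ P.card ^ 48 := by
  classical
  have hcard : (Fintype.piFinset (fun _ : {k : Fin 49 // k ≠ j} => P)).card = P.card ^ 48 := by
    rw [Fintype.card_piFinset, Finset.prod_const]
    simp [Fintype.card_subtype_compl]
  rw [← hcard]
  apply Finset.card_le_card_of_injOn (fun f k => f k.1)
  · intro f hf
    have hf' := (Finset.mem_filter.1 (Finset.mem_coe.1 hf)).1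
    have hf'' := Fintype.mem_piFinset.1 hf'
    simp only [Finset.mem_coe, Fintype.mem_piFinset]
    intro k
    exact hf'' _
  · intro f hf g hg hfg
    have hf' := (Finset.mem_filter.1 (Finset.mem_coe.1 hf)).2
    have hg' := (Finset.mem_filter.1 (Finset.mem_coe.1 hg)).2
    funext k
    by_cases hk : k = j
    · subst hk
      have h1 : f i = g i := congrFun hfg ⟨i, hij⟩
      rw [← hf', ← hg', h1]
    · exact congrFun hfg ⟨k, hk⟩

lemma card_not_injective (P : Finset α) :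
    ((Fintype.piFinset (fun _ : Fin 49 => P)).filter (fun f => ¬ Function.Injective f)).card
      ≤ 1176 * P.card ^ 48 := by
  classical
  set pairs := (univ : Finset (Fin 49 × Fin 49)).filter (fun p => p.1 < p.2) with hpairs
  have hp : pairs.card = 1176 := by decide +kernel
  have hsub : (Fintype.piFinset (fun _ : Fin 49 => P)).filter (fun f => ¬ Function.Injective f)
      ⊆ pairs.biUnion (fun p => (Fintype.piFinset (fun _ : Fin 49 => P)).filter
          (fun f => f p.1 = f p.2)) := by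
    intro f hf
    obtain ⟨hf1, hf2⟩ := Finset.mem_filter.1 hf
    rw [Function.Injective] at hf2
    push Not at hf2
    obtain ⟨a, b, hab, hne⟩ := hf2
    rw [Finset.mem_biUnion]
    rcases lt_or_gt_of_ne hne with h | h
    · exact ⟨(a, b), Finset.mem_filter.2 ⟨Finset.mem_univ _, h⟩, Finset.mem_filter.2 ⟨hf1, hab⟩⟩
    · exact ⟨(b, a), Finset.mem_filter.2 ⟨Finset.mem_univ _, h⟩, Finset.mem_filter.2 ⟨hf1, hab.symm⟩⟩
  calc _ ≤ _ := Finset.card_le_card hsub
    _ ≤ ∑ p ∈ pairs, ((Fintype.piFinset (fun _ : Fin 49 => P)).filter (fun f => f p.1 = f p.2)).card :=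
        Finset.card_biUnion_le
    _ ≤ ∑ _p ∈ pairs, P.card ^ 48 := by
        apply Finset.sum_le_sum
        intro p hp'
        exact card_coincidence P p.1 p.2 (ne_of_lt (Finset.mem_filter.1 hp').2)
    _ = 1176 * P.card ^ 48 := by
        rw [Finset.sum_const, hp, smul_eq_mul]

end noninjective

end FourierAux

open FourierAux in
/-- **The Fourier covering lemma.** -/
theorem fourier_cover (A B : Finset ℕ) (W : ℕ) (hA : A.card = W) (hB : B.card = W)
    (D z : ℕ) (hD : 1 < D) (hDW : (D : ℝ) ^ 3 ≤ (W : ℝ) ^ 4) (hWD : 2352 * D < W ^ 2)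
    (hz : 3 ^ 26 ≤ z)
    (hq : ∀ q : ℕ, q ∣ D → 1 < q → z < q ∧
      (Ecount A q : ℝ) ≤ W + W ^ 2 * (q : ℝ) ^ (-(9 : ℝ) / 10) ∧
      (Ecount B q : ℝ) ≤ W + W ^ 2 * (q : ℝ) ^ (-(9 : ℝ) / 10))
    (ρ : ZMod D) :
    ∃ f : Fin 49 → ℕ × ℕ, Function.Injective f ∧ (∀ i, (f i).1 ∈ A ∧ (f i).2 ∈ B) ∧
      ∑ i, (((f i).1 : ZMod D) * ((f i).2 : ZMod D)) = ρ := by
  classical
  have : NeZero D := ⟨by omega⟩
  set P := A ×ˢ B with hP
  have hPcard : P.card = W ^ 2 := by rw [hP, Finset.card_product, hA, hB]; ring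
  have hWpos : 0 < W := by
    by_contra h
    have : W = 0 := by omega
    subst this
    omega
  have hWR : (0 : ℝ) < W := by exact_mod_cast hWpos
  have hz0 : 0 < z := lt_of_lt_of_le (by norm_num) hz
  have hzD : z ≤ D := (hq D dvd_rfl hD).1.le
  have hzR : ((3 : ℝ) ^ 26) ≤ z := by exact_mod_cast hz
  -- the bound for each nonzero frequency
  have hord : ∀ t : ZMod D, t ≠ 0 → 1 < addOrderOf t := by
    intro t ht
    have h1 : addOrderOf t ≠ 1 := fun h => ht (AddMonoid.addOrderOf_eq_one_iff.1 h)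
    have h2 := addOrderOf_pos t
    omega
  have hbound : ∀ t ∈ (univ : Finset (ZMod D)).erase 0,
      ‖SS P t‖ ^ 49 ≤ 2 ^ 48 * (W : ℝ) ^ 98 * (1 / (addOrderOf t : ℝ) ^ 12) := by
    intro t ht
    have ht0 : t ≠ 0 := (Finset.mem_erase.1 ht).1
    have hq1 := hord t ht0
    have hdvd := addOrder_dvd t
    obtain ⟨-, hEA, hEB⟩ := hq _ hdvd hq1
    have hq1R : (1 : ℝ) ≤ (addOrderOf t : ℝ) := by exact_mod_cast hq1.le
    have hleD : (addOrderOf t : ℝ) ≤ D := by
      exact_mod_cast Nat.le_of_dvd (by omega) hdvd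
    have hq3 : (addOrderOf t : ℝ) ^ 3 ≤ (W : ℝ) ^ 4 :=
      (pow_le_pow_left₀ (by positivity) hleD 3).trans hDW
    have hSS : SS P t = ∑ a ∈ A, ∑ b ∈ B, chi t ((a : ℤ) * (b : ℤ)) := by
      unfold SS
      rw [hP, Finset.sum_product]
    have hs2 : ‖SS P t‖ ^ 2 ≤ (addOrderOf t : ℝ) * (Ecount A (addOrderOf t) : ℝ)
        * (Ecount B (addOrderOf t) : ℝ) := by
      rw [hSS]; exact norm_sq_bilinear t A B
    have h4 := s4_bound ‖SS P t‖ W (addOrderOf t) _ _ hWR hq1R hq3 hs2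
      (by positivity) hEA hEB
    have hle : ‖SS P t‖ ≤ (W : ℝ) ^ 2 := by
      have := norm_SS_le P t
      rw [hPcard] at this
      exact_mod_cast this
    exact pow49_bound _ _ _ (norm_nonneg _) hle h4 (by linarith)
  have hsum := sum_order_bound (D := D) z hz0 hzD
    (fun t ht => (hq _ (addOrder_dvd t) (hord t ht)).1)
  have herr : ∑ t ∈ (univ : Finset (ZMod D)).erase 0, ‖SS P t‖ ^ 49 ≤ (W : ℝ) ^ 98 / 2 := by
    calc _ ≤ ∑ t ∈ (univ : Finset (ZMod D)).erase 0,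
          2 ^ 48 * (W : ℝ) ^ 98 * (1 / (addOrderOf t : ℝ) ^ 12) := Finset.sum_le_sum hbound
      _ = 2 ^ 48 * (W : ℝ) ^ 98 * ∑ t ∈ (univ : Finset (ZMod D)).erase 0,
          (1 / (addOrderOf t : ℝ) ^ 12) := by rw [Finset.mul_sum]
      _ ≤ 2 ^ 48 * (W : ℝ) ^ 98 * (1 / (z : ℝ) ^ 10) :=
          mul_le_mul_of_nonneg_left hsum (by positivity)
      _ ≤ (W : ℝ) ^ 98 / 2 := by
          have hz10 : (2 : ℝ) ^ 49 ≤ (z : ℝ) ^ 10 := by
            calc (2 : ℝ) ^ 49 ≤ ((3 : ℝ) ^ 26) ^ 10 := by norm_num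
              _ ≤ (z : ℝ) ^ 10 := pow_le_pow_left₀ (by positivity) hzR 10
          have hzpos : (0 : ℝ) < (z : ℝ) ^ 10 := by positivity
          have hW98 : (0 : ℝ) < (W : ℝ) ^ 98 := by positivity
          rw [mul_one_div, div_le_iff₀ hzpos]
          nlinarith
  have hlow := main_lower P ρ
  rw [hPcard] at hlow
  push_cast at hlow
  by_contra hcon
  push Not at hcon
  -- every solution is non-injective
  have hsubset : (Fintype.piFinset (fun _ : Fin 49 => P)).filter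
        (fun f => ∑ i, (((f i).1 : ZMod D) * ((f i).2 : ZMod D)) = ρ)
      ⊆ (Fintype.piFinset (fun _ : Fin 49 => P)).filter (fun f => ¬ Function.Injective f) := by
    intro f hf
    obtain ⟨hf1, hf2⟩ := Finset.mem_filter.1 hf
    refine Finset.mem_filter.2 ⟨hf1, fun hinj => ?_⟩
    have hmem : ∀ i, (f i).1 ∈ A ∧ (f i).2 ∈ B := by
      intro i
      have := Fintype.mem_piFinset.1 hf1 i
      rw [hP, Finset.mem_product] at this
      exact this
    exact hcon f hinj hmem hf2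
  have hN := (Finset.card_le_card hsubset).trans (card_not_injective P)
  rw [hPcard] at hN
  have hN' : (((Fintype.piFinset (fun _ : Fin 49 => P)).filter
        (fun f => ∑ i, (((f i).1 : ZMod D) * ((f i).2 : ZMod D)) = ρ)).card : ℝ)
      ≤ 1176 * ((W : ℝ) ^ 2) ^ 48 := by exact_mod_cast hN
  have hDR : (0 : ℝ) < D := by exact_mod_cast (by omega : 0 < D)
  have h5 : ((W : ℝ) ^ 2) ^ 49 - (W : ℝ) ^ 98 / 2 ≤ (D : ℝ) * (1176 * ((W : ℝ) ^ 2) ^ 48) :=
    (by linarith : _ ≤ _).trans (hlow.trans (mul_le_mul_of_nonneg_left hN' hDR.le))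
  have hWD' : (2352 : ℝ) * D < (W : ℝ) ^ 2 := by exact_mod_cast hWD
  have hW96 : (0 : ℝ) < (W : ℝ) ^ 96 := by positivity
  have h6 : ((W : ℝ) ^ 2) ^ 49 - (W : ℝ) ^ 98 / 2 = (W : ℝ) ^ 96 * ((W : ℝ) ^ 2 / 2) := by ring
  have h7 : (D : ℝ) * (1176 * ((W : ℝ) ^ 2) ^ 48) = (W : ℝ) ^ 96 * (1176 * D) := by ring
  rw [h6, h7] at h5
  have h8 := le_of_mul_le_mul_left h5 hW96
  linarith

end Crest.Agent.Egypt
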