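import Crest.Agent.Lib.EgyptDefs

/-!
# Chebyshev-type estimates for `S0025`

`primesIn_card_ge`: `#primes in [7,y] ≥ c y / log y`.
`sum_one_div_primes_le`: `∑_{p ≤ y^40} 1/p ≤ log y / 10` for large `y` (a very weak Mertens bound).
-/

set_option autoImplicit false

namespace Crest.Agent.Egypt

open Real

lemma primeCounting_eq_card (y : ℕ) :
    Nat.primeCounting y = ((Finset.range (y+1)).filter Nat.Prime).card := by
  simp [Nat.primeCounting, Nat.primeCounting', Nat.count_eq_card_filter_range]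

lemma primeCounting_le_card_add (y : ℕ) : Nat.primeCounting y ≤ (primesIn y).card + 7 := by
  rw [primeCounting_eq_card]
  have hsub : (Finset.range (y+1)).filter Nat.Prime ⊆ primesIn y ∪ Finset.range 7 := by
    intro p hp
    simp only [Finset.mem_filter, Finset.mem_range, primesIn, Finset.mem_union,
      Finset.mem_Icc] at hp ⊢
    by_cases h7 : p < 7
    · right; exact h7
    · left; exact ⟨⟨by omega, by omega⟩, hp.2⟩
  calc _ ≤ (primesIn y ∪ Finset.range 7).card := Finset.card_le_card hsub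
    _ ≤ (primesIn y).card + (Finset.range 7).card := Finset.card_union_le _ _
    _ = _ := by simp

lemma eventually_log_le : ∀ᶠ x : ℝ in Filter.atTop, Real.log x ≤ (1/100) * x := by
  have := Real.isLittleO_log_id_atTop.bound (show (0:ℝ) < 1/100 by norm_num)
  filter_upwards [this, Filter.eventually_gt_atTop 1] with x hx hx1
  simp only [id, Real.norm_eq_abs] at hx
  rw [abs_of_pos (by linarith : (0:ℝ) < x)] at hx
  exact (le_abs_self _).trans hx

theorem primesIn_card_ge : ∃ (c : ℝ) (y₀ : ℕ), 0 < c ∧ ∀ y : ℕ, y₀ ≤ y →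
    c * y / Real.log y ≤ ((primesIn y).card : ℝ) := by
  obtain ⟨X, hX⟩ := Filter.eventually_atTop.mp eventually_log_le
  refine ⟨1/10, ⌈X⌉₊ + 2, by norm_num, ?_⟩
  intro y hy
  have hy2 : (2:ℝ) ≤ y := by
    have : 2 ≤ y := by omega
    exact_mod_cast this
  have hXy : X ≤ (y:ℝ) := by
    have h1 : X ≤ (⌈X⌉₊ : ℝ) := Nat.le_ceil X
    have h2 : ((⌈X⌉₊ : ℕ) : ℝ) ≤ (y:ℝ) := by
      have : ⌈X⌉₊ ≤ y := by omega
      exact_mod_cast this
    exact h1.trans h2
  have hl1 := hX y hXy
  have hl2 := hX (y+1) (by linarith)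
  have hlogpos : 0 < Real.log y := Real.log_pos (by linarith)
  have hpi := Chebyshev.pi_ge y
  have hcard : (Nat.primeCounting y : ℝ) ≤ ((primesIn y).card : ℝ) + 7 := by
    exact_mod_cast primeCounting_le_card_add y
  have h2 := Real.log_two_gt_d9
  have : (1/10 : ℝ) * y / Real.log y ≤ ((y:ℝ) * Real.log 2 - Real.log (y + 1)) / Real.log y - 7 := by
    rw [div_sub' (ne_of_gt hlogpos), div_le_div_iff_of_pos_right hlogpos]
    nlinarith
  linarith

/-- Partial sums of reciprocals of primes over dyadic ranges. -/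
noncomputable def dyadicS (K : ℕ) : ℝ :=
  ∑ p ∈ (Finset.range (2 ^ K)).filter Nat.Prime, (1 : ℝ) / p

lemma dyadicS_mono {K L : ℕ} (h : K ≤ L) : dyadicS K ≤ dyadicS L := by
  unfold dyadicS
  apply Finset.sum_le_sum_of_subset_of_nonneg
  · apply Finset.filter_subset_filter
    apply Finset.range_subset_range.mpr
    exact Nat.pow_le_pow_right (by norm_num) h
  · intros; positivity

lemma eventually_pi_two_pow :
    ∀ᶠ K : ℕ in Filter.atTop, (Nat.primeCounting (2 ^ (K+1)) : ℝ) ≤ (1/1000) * 2 ^ K := by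
  have h1 := Chebyshev.eventually_primeCounting_le (ε := 1) (by norm_num)
  have htend : Filter.Tendsto (fun K : ℕ => (2:ℝ) ^ (K+1)) Filter.atTop Filter.atTop := by
    have := tendsto_pow_atTop_atTop_of_one_lt (show (1:ℝ) < 2 by norm_num)
    exact this.comp (Filter.tendsto_add_atTop_nat 1)
  have h2 := htend.eventually h1
  filter_upwards [h2, Filter.eventually_ge_atTop 10000] with K hK hK2
  have hfloor : ⌊(2:ℝ) ^ (K+1)⌋₊ = 2 ^ (K+1) := by
    have : (2:ℝ) ^ (K+1) = ((2 ^ (K+1) : ℕ) : ℝ) := by push_cast; rfl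
    rw [this, Nat.floor_natCast]
  rw [hfloor] at hK
  refine hK.trans ?_
  have hlog2 := Real.log_two_gt_d9
  have hlog2' := Real.log_two_lt_d9
  have hlog4 : Real.log 4 = 2 * Real.log 2 := by
    rw [show (4:ℝ) = 2 ^ 2 by norm_num, Real.log_pow]; norm_num
  have hlogx : Real.log ((2:ℝ) ^ (K+1)) = (K+1) * Real.log 2 := by
    rw [Real.log_pow]; push_cast; ring
  rw [hlogx, hlog4]
  have hKr : (10000:ℝ) ≤ K := by exact_mod_cast hK2
  have hpos : (0:ℝ) < (K+1) * Real.log 2 := by positivity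
  rw [div_le_iff₀ hpos, pow_succ]
  have hp : (0:ℝ) < 2 ^ K := by positivity
  have : (2 * Real.log 2 + 1) * 2 ≤ 1 / 1000 * ((K+1) * Real.log 2) := by nlinarith
  nlinarith

lemma dyadicS_step (K : ℕ) :
    dyadicS (K+1) ≤ dyadicS K + (Nat.primeCounting (2 ^ (K+1)) : ℝ) / 2 ^ K := by
  unfold dyadicS
  have hsub : (Finset.range (2 ^ (K+1))).filter Nat.Prime ⊆
      (Finset.range (2 ^ K)).filter Nat.Prime ∪ (Finset.Ico (2 ^ K) (2 ^ (K+1))).filter Nat.Prime := by
    intro p hp
    simp only [Finset.mem_filter, Finset.mem_range, Finset.mem_union, Finset.mem_Ico] at hp ⊢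
    by_cases h : p < 2 ^ K
    · exact Or.inl ⟨h, hp.2⟩
    · exact Or.inr ⟨⟨by omega, hp.1⟩, hp.2⟩
  have h1 : ∑ p ∈ (Finset.range (2 ^ (K+1))).filter Nat.Prime, (1 : ℝ) / p ≤
      ∑ p ∈ (Finset.range (2 ^ K)).filter Nat.Prime ∪
        (Finset.Ico (2 ^ K) (2 ^ (K+1))).filter Nat.Prime, (1 : ℝ) / p := by
    apply Finset.sum_le_sum_of_subset_of_nonneg hsub
    intros; positivity
  have hdisj : Disjoint ((Finset.range (2 ^ K)).filter Nat.Prime)
      ((Finset.Ico (2 ^ K) (2 ^ (K+1))).filter Nat.Prime) := by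
    rw [Finset.disjoint_left]
    intro p hp hp'
    simp only [Finset.mem_filter, Finset.mem_range, Finset.mem_Ico] at hp hp'
    omega
  rw [Finset.sum_union hdisj] at h1
  refine h1.trans ?_
  gcongr
  have h2 : ∑ p ∈ (Finset.Ico (2 ^ K) (2 ^ (K+1))).filter Nat.Prime, (1 : ℝ) / p ≤
      ∑ p ∈ (Finset.Ico (2 ^ K) (2 ^ (K+1))).filter Nat.Prime, (1 : ℝ) / 2 ^ K := by
    apply Finset.sum_le_sum
    intro p hp
    simp only [Finset.mem_filter, Finset.mem_Ico] at hp
    apply one_div_le_one_div_of_le (by positivity)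
    exact_mod_cast hp.1.1
  refine h2.trans ?_
  rw [Finset.sum_const, nsmul_eq_mul, mul_one_div]
  gcongr
  rw [primeCounting_eq_card]
  norm_cast
  apply Finset.card_le_card
  intro p hp
  simp only [Finset.mem_filter, Finset.mem_Ico, Finset.mem_range] at hp ⊢
  exact ⟨by omega, hp.2⟩

theorem sum_one_div_primes_le : ∃ y₀ : ℕ, ∀ y : ℕ, y₀ ≤ y →
    ∑ p ∈ (Finset.range (y ^ 40 + 1)).filter Nat.Prime, (1 : ℝ) / p ≤ Real.log y / 10 := by
  obtain ⟨k₀, hk₀⟩ := Filter.eventually_atTop.mp eventually_pi_two_pow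
  set A := dyadicS k₀ with hA
  have hA0 : 0 ≤ A := by
    unfold dyadicS at hA
    rw [hA]
    apply Finset.sum_nonneg
    intros; positivity
  have hS : ∀ K : ℕ, dyadicS K ≤ A + K * (1/1000) := by
    intro K
    induction K with
    | zero =>
      have := dyadicS_mono (Nat.zero_le k₀)
      simp only [Nat.cast_zero, zero_mul, add_zero]
      exact this
    | succ K ih =>
      push_cast
      by_cases h : K + 1 ≤ k₀
      · have := dyadicS_mono h
        have hK0 : (0:ℝ) ≤ K := Nat.cast_nonneg K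
        nlinarith
      · have hKk : k₀ ≤ K := by omega
        have h1 := dyadicS_step K
        have h2 := hk₀ K hKk
        have hp : (0:ℝ) < 2 ^ K := by positivity
        have h3 : (Nat.primeCounting (2 ^ (K+1)) : ℝ) / 2 ^ K ≤ 1/1000 := by
          rw [div_le_iff₀ hp]; exact h2
        linarith
  refine ⟨⌈Real.exp (30 * (A + 1))⌉₊ + 1, ?_⟩
  intro y hy
  have hypos : 0 < y := by omega
  have hyr : (0:ℝ) < y := by exact_mod_cast hypos
  have hyexp : Real.exp (30 * (A + 1)) ≤ (y:ℝ) := by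
    have h1 : Real.exp (30 * (A + 1)) ≤ (⌈Real.exp (30 * (A + 1))⌉₊ : ℝ) := Nat.le_ceil _
    have h2 : ((⌈Real.exp (30 * (A + 1))⌉₊ : ℕ) : ℝ) ≤ (y:ℝ) := by
      have : ⌈Real.exp (30 * (A + 1))⌉₊ ≤ y := by omega
      exact_mod_cast this
    exact h1.trans h2
  have hlogy : 30 * (A + 1) ≤ Real.log y := by
    rw [Real.le_log_iff_exp_le hyr]; exact hyexp
  set K := 40 * (Nat.log 2 y + 1) with hK
  have hsub : (Finset.range (y ^ 40 + 1)).filter Nat.Prime ⊆
      (Finset.range (2 ^ K)).filter Nat.Prime := by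
    apply Finset.filter_subset_filter
    apply Finset.range_subset_range.mpr
    have hlt : y < 2 ^ (Nat.log 2 y + 1) := Nat.lt_pow_succ_log_self (by norm_num) y
    have : y ^ 40 < 2 ^ K := by
      rw [hK, mul_comm, pow_mul]
      exact Nat.pow_lt_pow_left hlt (by norm_num)
    omega
  have h1 : ∑ p ∈ (Finset.range (y ^ 40 + 1)).filter Nat.Prime, (1 : ℝ) / p ≤ dyadicS K := by
    unfold dyadicS
    apply Finset.sum_le_sum_of_subset_of_nonneg hsub
    intros; positivity
  have hlogbound : (Nat.log 2 y : ℝ) * Real.log 2 ≤ Real.log y := by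
    have h : 2 ^ Nat.log 2 y ≤ y := Nat.pow_log_le_self 2 (by omega)
    have h' : (2:ℝ) ^ Nat.log 2 y ≤ y := by exact_mod_cast h
    have := Real.log_le_log (by positivity) h'
    rwa [Real.log_pow] at this
  have hlog2 := Real.log_two_gt_d9
  have hL : (Nat.log 2 y : ℝ) ≤ Real.log y / 0.69 := by
    rw [le_div_iff₀ (by norm_num)]
    have hn : (0:ℝ) ≤ Nat.log 2 y := Nat.cast_nonneg _
    nlinarith
  have h2 := hS K
  have hKcast : (K:ℝ) = 40 * ((Nat.log 2 y : ℝ) + 1) := by
    rw [hK]; push_cast; ring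
  rw [hKcast] at h2
  have : A + 40 * ((Nat.log 2 y : ℝ) + 1) * (1/1000) ≤ Real.log y / 10 := by
    have h3 : (Nat.log 2 y : ℝ) ≤ Real.log y * (100/69) := by
      calc (Nat.log 2 y : ℝ) ≤ Real.log y / 0.69 := hL
        _ = Real.log y * (100/69) := by ring
    nlinarith
  linarith

end Crest.Agent.Egypt
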