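import Mathlib
import Crest.Agent.Lib.EgyptDefs

/-!
# Bonferroni sieve lower bound in an interval (piece (S) of S0025)
-/

set_option autoImplicit false

open Finset

namespace Crest.Agent.Egypt

/-- Truncated inclusion–exclusion sum. -/
noncomputable def truncSum (w : ℕ → ℝ) (S : Finset ℕ) (L : ℕ) : ℝ :=
  ∑ T ∈ S.powerset, if T.card < L then (-1 : ℝ) ^ T.card * ∏ p ∈ T, w p else 0

lemma truncSum_insert (w : ℕ → ℝ) (S : Finset ℕ) (p : ℕ) (hp : p ∉ S) (L : ℕ) :
    truncSum w (insert p S) (L + 1) = truncSum w S (L + 1) - w p * truncSum w S L := by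
  unfold truncSum
  rw [Finset.sum_powerset_insert hp, sub_eq_add_neg, Finset.mul_sum, ← Finset.sum_neg_distrib]
  congr 1
  apply Finset.sum_congr rfl
  intro T hT
  have hpT : p ∉ T := fun h => hp (Finset.mem_powerset.mp hT h)
  rw [Finset.card_insert_of_notMem hpT, Finset.prod_insert hpT]
  by_cases h : T.card < L
  · rw [if_pos (Nat.succ_lt_succ h), if_pos h]
    ring
  · rw [if_neg (fun h' => h (Nat.lt_of_succ_lt_succ h')), if_neg h]
    ring

lemma prod_one_sub_bound (w : ℕ → ℝ) (S : Finset ℕ) (hw : ∀ p ∈ S, 0 ≤ w p ∧ w p ≤ 1) :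
    |∏ p ∈ S, (1 - w p)| ≤ 1 := by
  rw [Finset.abs_prod]
  apply Finset.prod_le_one
  · intro p _
    exact abs_nonneg _
  · intro p hp
    have := hw p hp
    rw [abs_le]
    constructor <;> linarith [this.1, this.2]

lemma add_pow_ge_aux (s w : ℝ) (hs : 0 ≤ s) (hw : 0 ≤ w) (K : ℕ) :
    s ^ (K + 1) + (K + 1) * w * s ^ K ≤ (s + w) ^ (K + 1) := by
  induction K with
  | zero => simp
  | succ K ih =>
    have h1 : 0 ≤ s + w := add_nonneg hs hw
    have h2 : 0 ≤ w * s ^ K := by positivity
    calc s ^ (K + 1 + 1) + ((K + 1 : ℕ) + 1) * w * s ^ (K + 1)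
        ≤ (s + w) * (s ^ (K + 1) + (K + 1) * w * s ^ K) := by
          push_cast
          have : (s + w) * (s ^ (K + 1) + (K + 1) * w * s ^ K)
              = s ^ (K + 1 + 1) + ((K : ℝ) + 1 + 1) * w * s ^ (K + 1)
                + (K + 1) * w * w * s ^ K := by ring
          rw [this]
          have h3 : 0 ≤ ((K : ℝ) + 1) * w * w * s ^ K := by positivity
          linarith
      _ ≤ (s + w) * (s + w) ^ (K + 1) := by
          exact mul_le_mul_of_nonneg_left ih h1
      _ = (s + w) ^ (K + 1 + 1) := by ring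

/-- `|∏(1-w) - truncated inclusion-exclusion| ≤ s^L/L!`. -/
lemma truncSum_bound (w : ℕ → ℝ) (S : Finset ℕ) (hw : ∀ p ∈ S, 0 ≤ w p ∧ w p ≤ 1) (L : ℕ) :
    |∏ p ∈ S, (1 - w p) - truncSum w S L| ≤ (∑ p ∈ S, w p) ^ L / (L.factorial : ℝ) := by
  induction S using Finset.induction_on generalizing L with
  | empty =>
    cases L with
    | zero => simp [truncSum]
    | succ L => simp [truncSum]
  | insert p S hp ih =>
    have hw' : ∀ q ∈ S, 0 ≤ w q ∧ w q ≤ 1 := fun q hq => hw q (Finset.mem_insert_of_mem hq)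
    have hwp := hw p (Finset.mem_insert_self p S)
    cases L with
    | zero =>
      have : truncSum w (insert p S) 0 = 0 := by simp [truncSum]
      rw [this, sub_zero]
      simpa using prod_one_sub_bound w (insert p S) hw
    | succ K =>
      rw [truncSum_insert w S p hp, Finset.prod_insert hp, Finset.sum_insert hp]
      set P := ∏ q ∈ S, (1 - w q)
      set s := ∑ q ∈ S, w q
      have hs : 0 ≤ s := Finset.sum_nonneg fun q hq => (hw' q hq).1
      have h1 := ih hw' (K + 1)
      have h2 := ih hw' K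
      have hid : (1 - w p) * P - (truncSum w S (K + 1) - w p * truncSum w S K)
          = (P - truncSum w S (K + 1)) - w p * (P - truncSum w S K) := by ring
      rw [hid]
      have h3 : |(P - truncSum w S (K + 1)) - w p * (P - truncSum w S K)|
          ≤ s ^ (K + 1) / ((K + 1).factorial : ℝ) + w p * (s ^ K / (K.factorial : ℝ)) := by
        refine (abs_sub _ _).trans ?_
        refine add_le_add h1 ?_
        rw [abs_mul, abs_of_nonneg hwp.1]
        exact mul_le_mul_of_nonneg_left h2 hwp.1
      refine h3.trans ?_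
      have hfac : ((K + 1).factorial : ℝ) = (K + 1) * (K.factorial : ℝ) := by
        rw [Nat.factorial_succ]; push_cast; ring
      have hfpos : (0 : ℝ) < (K.factorial : ℝ) := by exact_mod_cast Nat.factorial_pos K
      have hk : (0 : ℝ) < (K : ℝ) + 1 := by positivity
      have haux := add_pow_ge_aux s (w p) hs hwp.1 K
      rw [hfac, add_comm (w p) s]
      rw [le_div_iff₀ (by positivity)]
      have : (s ^ (K + 1) / (((K : ℝ) + 1) * (K.factorial : ℝ)) + w p * (s ^ K / (K.factorial : ℝ)))
            * (((K : ℝ) + 1) * (K.factorial : ℝ))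
          = s ^ (K + 1) + (K + 1) * w p * s ^ K := by
        field_simp
      rw [this]
      exact haux

/-- The number of small subsets. -/
lemma card_small_subsets (S : Finset ℕ) (L : ℕ) :
    ((S.powerset.filter (fun T => T.card < L)).card : ℝ) ≤ ((S.card : ℝ) + 1) ^ L := by
  have h1 : (S.powerset.filter (fun T => T.card < L)).card ≤ (S.card + 1) ^ L := by
    have hcard : (S.powerset.filter (fun T => T.card < L)).card
        = ∑ j ∈ Finset.range L, (S.card).choose j := by
      rw [Finset.card_filter, Finset.sum_powerset_apply_card (fun k => if k < L then 1 else 0) (x := S)]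
      simp only [smul_eq_mul, mul_ite, mul_one, mul_zero]
      rw [← Finset.sum_filter]
      have : (Finset.range (S.card + 1)).filter (fun a => a < L)
          = (Finset.range L).filter (fun a => a < S.card + 1) := by
        ext a; simp only [Finset.mem_filter, Finset.mem_range]; omega
      rw [this, Finset.sum_filter]
      apply Finset.sum_congr rfl
      intro j _
      split_ifs with h
      · rfl
      · rw [Nat.choose_eq_zero_of_lt (by omega)]
    rw [hcard, add_pow]
    calc ∑ j ∈ Finset.range L, (S.card).choose j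
        ≤ ∑ j ∈ Finset.range L, S.card ^ j * 1 ^ (L - j) * (L.choose j) := by
          apply Finset.sum_le_sum
          intro j hj
          have hj' : j ≤ L := (Finset.mem_range.mp hj).le
          have h2 : (S.card).choose j ≤ S.card ^ j := Nat.choose_le_pow _ _
          have h3 : 1 ≤ L.choose j := Nat.choose_pos hj'
          simp only [one_pow, mul_one]
          exact h2.trans (Nat.le_mul_of_pos_right _ h3)
      _ ≤ ∑ j ∈ Finset.range (L + 1), S.card ^ j * 1 ^ (L - j) * (L.choose j) := by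
          apply Finset.sum_le_sum_of_subset_of_nonneg
          · intro a ha; simp only [Finset.mem_range] at ha ⊢; omega
          · intros; positivity
  exact_mod_cast h1

/-- Pointwise Bonferroni inequality. -/
lemma bonferroni_int (F : Finset ℕ) (L : ℕ) (hL : Even L) :
    (∑ T ∈ F.powerset, if T.card < L then (-1 : ℤ) ^ T.card else 0) ≤ if F = ∅ then 1 else 0 := by
  rcases F.eq_empty_or_nonempty with rfl | hF
  · simp only [Finset.powerset_empty, Finset.sum_singleton, Finset.card_empty, pow_zero, if_true]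
    split_ifs <;> omega
  · rw [if_neg hF.ne_empty]
    rw [Finset.sum_powerset_apply_card (fun k => if k < L then (-1 : ℤ) ^ k else 0) (x := F)]
    obtain ⟨k, hk⟩ : ∃ k, F.card = k + 1 := ⟨F.card - 1, by have := hF.card_pos; omega⟩
    rw [hk]
    cases L with
    | zero => simp
    | succ K =>
      have hKodd : Odd K := by
        have : ¬ Even K := fun h => by
          have := (Nat.even_add_one.mp hL); exact this h
        exact Nat.not_even_iff_odd.mp this
      have key : ∑ m ∈ Finset.range (k + 1 + 1),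
            ((k + 1).choose m) • (if m < K + 1 then (-1 : ℤ) ^ m else 0)
          = ∑ m ∈ Finset.range (K + 1), ((-1 : ℤ) ^ m * ((k + 1).choose m : ℤ)) := by
        have h1 : ∑ m ∈ Finset.range (k + 1 + 1),
              ((k + 1).choose m) • (if m < K + 1 then (-1 : ℤ) ^ m else 0)
            = ∑ m ∈ Finset.range (k + 2 + K + 1),
              ((k + 1).choose m) • (if m < K + 1 then (-1 : ℤ) ^ m else 0) := by
          apply Finset.sum_subset
          · intro a ha; simp only [Finset.mem_range] at ha ⊢; omega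
          · intro x _ hx
            simp only [Finset.mem_range, not_lt] at hx
            rw [Nat.choose_eq_zero_of_lt (by omega)]
            simp
        have h2 : ∑ m ∈ Finset.range (K + 1), ((-1 : ℤ) ^ m * ((k + 1).choose m : ℤ))
            = ∑ m ∈ Finset.range (k + 2 + K + 1),
              ((k + 1).choose m) • (if m < K + 1 then (-1 : ℤ) ^ m else 0) := by
          have h3 : ∑ m ∈ Finset.range (K + 1), ((-1 : ℤ) ^ m * ((k + 1).choose m : ℤ))
              = ∑ m ∈ Finset.range (K + 1),
                ((k + 1).choose m) • (if m < K + 1 then (-1 : ℤ) ^ m else 0) := by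
            apply Finset.sum_congr rfl
            intro m hm
            rw [if_pos (Finset.mem_range.mp hm)]
            simp [mul_comm]
          rw [h3]
          apply Finset.sum_subset
          · intro a ha; simp only [Finset.mem_range] at ha ⊢; omega
          · intro x _ hx
            simp only [Finset.mem_range] at hx
            rw [if_neg hx]
            simp
        rw [h1, h2]
      rw [key, Int.alternating_sum_range_choose_eq_choose, hKodd.neg_one_pow]
      have : (0 : ℤ) ≤ (k.choose K : ℤ) := by positivity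
      linarith

/-- Counting multiples in an interval. -/
lemma count_dvd_bound (d u X : ℕ) (hd : 0 < d) :
    |(((Finset.Ico u (u + X)).filter (fun n => d ∣ n)).card : ℝ) - (X : ℝ) / d| ≤ 1 := by
  have h0 : (Finset.Ico u (u + X)).filter (fun n => d ∣ n)
      = (Finset.Ico u (u + X)).filter (fun n => n ≡ 0 [MOD d]) := by
    apply Finset.filter_congr
    intro n _
    rw [Nat.modEq_zero_iff_dvd]
  have h1 := Nat.Ico_filter_modEq_card u (u + X) hd 0
  rw [← h0] at h1
  have hdq : (0 : ℚ) < (d : ℚ) := by exact_mod_cast hd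
  have hmono : ⌈(((u : ℕ) : ℚ) - ((0 : ℕ) : ℚ)) / (d : ℚ)⌉ ≤
      ⌈(((u + X : ℕ) : ℚ) - ((0 : ℕ) : ℚ)) / (d : ℚ)⌉ := by
    apply Int.ceil_le_ceil
    apply div_le_div_of_nonneg_right _ hdq.le
    push_cast
    have : (0 : ℚ) ≤ (X : ℚ) := by positivity
    linarith
  rw [max_eq_left (sub_nonneg.mpr hmono)] at h1
  set A : ℤ := ⌈(((u + X : ℕ) : ℚ) - ((0 : ℕ) : ℚ)) / (d : ℚ)⌉ with hA
  set B : ℤ := ⌈(((u : ℕ) : ℚ) - ((0 : ℕ) : ℚ)) / (d : ℚ)⌉ with hB
  have hA1 : (((u + X : ℕ) : ℚ) - ((0 : ℕ) : ℚ)) / (d : ℚ) ≤ (A : ℚ) := Int.le_ceil _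
  have hA2 : (A : ℚ) < (((u + X : ℕ) : ℚ) - ((0 : ℕ) : ℚ)) / (d : ℚ) + 1 := Int.ceil_lt_add_one _
  have hB1 : (((u : ℕ) : ℚ) - ((0 : ℕ) : ℚ)) / (d : ℚ) ≤ (B : ℚ) := Int.le_ceil _
  have hB2 : (B : ℚ) < (((u : ℕ) : ℚ) - ((0 : ℕ) : ℚ)) / (d : ℚ) + 1 := Int.ceil_lt_add_one _
  have hsplit : (((u + X : ℕ) : ℚ) - ((0 : ℕ) : ℚ)) / (d : ℚ)
      = ((u : ℚ) - ((0 : ℕ) : ℚ)) / (d : ℚ) + (X : ℚ) / (d : ℚ) := by
    push_cast; ring
  rw [hsplit] at hA1 hA2
  have hcast : (((Finset.Ico u (u + X)).filter (fun n => d ∣ n)).card : ℤ) = A - B := h1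
  have hq : (((Finset.Ico u (u + X)).filter (fun n => d ∣ n)).card : ℚ) = (A : ℚ) - (B : ℚ) := by
    have := congrArg (fun z : ℤ => (z : ℚ)) hcast
    simpa using this
  have hbound : |(((Finset.Ico u (u + X)).filter (fun n => d ∣ n)).card : ℚ) - (X : ℚ) / d| ≤ 1 := by
    rw [hq, abs_le]
    constructor <;> linarith
  have := (Rat.cast_le (K := ℝ)).mpr hbound
  push_cast at this
  exact this

theorem sieve_lower (S : Finset ℕ) (hS : ∀ p ∈ S, p.Prime) (L : ℕ) (hL : Even L) (u X : ℕ) :
    (X : ℝ) * (∏ p ∈ S, (1 - (1 : ℝ) / p) - (∑ p ∈ S, (1 : ℝ) / p) ^ L / (L.factorial : ℝ))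
        - ((S.card : ℝ) + 1) ^ L
      ≤ (((Finset.Ico u (u + X)).filter (fun n => ∀ p ∈ S, ¬ p ∣ n)).card : ℝ) := by
  classical
  set I := Finset.Ico u (u + X) with hI
  set w : ℕ → ℝ := fun p => (1 : ℝ) / p with hw
  have hwS : ∀ p ∈ S, 0 ≤ w p ∧ w p ≤ 1 := by
    intro p hp
    have hpp := hS p hp
    have h1 : (1 : ℝ) ≤ (p : ℝ) := by exact_mod_cast hpp.one_lt.le
    refine ⟨by simp only [hw]; positivity, ?_⟩
    simp only [hw]
    rw [div_le_one (by linarith)]
    exact h1
  -- Step 1: pointwise Bonferroni, summed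
  have hprodT : ∀ T ∈ S.powerset, ∀ n : ℕ, ((∀ p ∈ T, p ∣ n) ↔ (∏ p ∈ T, p) ∣ n) := by
    intro T hT n
    constructor
    · intro h
      apply Finset.prod_primes_dvd
      · intro p hp
        exact (hS p (Finset.mem_powerset.mp hT hp)).prime
      · exact h
    · intro h p hp
      exact (Finset.dvd_prod_of_mem _ hp).trans h
  have hstep1 : ∀ n : ℕ,
      (∑ T ∈ S.powerset, if T.card < L ∧ (∏ p ∈ T, p) ∣ n then (-1 : ℝ) ^ T.card else 0)
        ≤ if (∀ p ∈ S, ¬ p ∣ n) then (1 : ℝ) else 0 := by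
    intro n
    have hb := bonferroni_int (S.filter (fun p => p ∣ n)) L hL
    have hfilt : (S.filter (fun p => p ∣ n) = ∅) ↔ (∀ p ∈ S, ¬ p ∣ n) := by
      rw [Finset.filter_eq_empty_iff]
    have hb' : (((∑ T ∈ (S.filter (fun p => p ∣ n)).powerset,
        if T.card < L then (-1 : ℤ) ^ T.card else 0 : ℤ)) : ℝ)
        ≤ (((if S.filter (fun p => p ∣ n) = ∅ then 1 else 0 : ℤ)) : ℝ) := by
      exact_mod_cast hb
    have hleft : (∑ T ∈ S.powerset, if T.card < L ∧ (∏ p ∈ T, p) ∣ n then (-1 : ℝ) ^ T.card else 0)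
        = (((∑ T ∈ (S.filter (fun p => p ∣ n)).powerset,
          if T.card < L then (-1 : ℤ) ^ T.card else 0 : ℤ)) : ℝ) := by
      push_cast
      have hsub : (S.filter (fun p => p ∣ n)).powerset ⊆ S.powerset := by
        apply Finset.powerset_mono.mpr
        exact Finset.filter_subset _ _
      rw [← Finset.sum_subset hsub]
      · apply Finset.sum_congr rfl
        intro T hT
        have hT' : T ⊆ S.filter (fun p => p ∣ n) := Finset.mem_powerset.mp hT
        have hTS : T ∈ S.powerset := hsub hT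
        have hdvd : (∏ p ∈ T, p) ∣ n := by
          rw [← hprodT T hTS n]
          intro p hp
          exact (Finset.mem_filter.mp (hT' hp)).2
        by_cases hc : T.card < L
        · simp [hc, hdvd]
        · simp [hc]
      · intro T hT hT'
        have hndvd : ¬ (∏ p ∈ T, p) ∣ n := by
          intro h
          apply hT'
          rw [Finset.mem_powerset]
          intro p hp
          refine Finset.mem_filter.mpr ⟨Finset.mem_powerset.mp hT hp, ?_⟩
          exact (hprodT T hT n).mpr h p hp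
        simp [hndvd]
    rw [hleft]
    refine hb'.trans (le_of_eq ?_)
    by_cases h : ∀ p ∈ S, ¬ p ∣ n
    · rw [if_pos (hfilt.mpr h), if_pos h]; simp
    · rw [if_neg (fun h' => h (hfilt.mp h')), if_neg h]; simp
  -- Step 2: sum over n, swap
  have hcount : (((I.filter (fun n => ∀ p ∈ S, ¬ p ∣ n)).card : ℝ))
      = ∑ n ∈ I, if (∀ p ∈ S, ¬ p ∣ n) then (1 : ℝ) else 0 := by
    rw [Finset.card_filter]
    push_cast
    rfl
  have hswap : (∑ n ∈ I, ∑ T ∈ S.powerset,
        if T.card < L ∧ (∏ p ∈ T, p) ∣ n then (-1 : ℝ) ^ T.card else 0)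
      = ∑ T ∈ S.powerset, if T.card < L then
          (-1 : ℝ) ^ T.card * ((I.filter (fun n => (∏ p ∈ T, p) ∣ n)).card : ℝ) else 0 := by
    rw [Finset.sum_comm]
    apply Finset.sum_congr rfl
    intro T _
    by_cases hc : T.card < L
    · simp only [hc, true_and, if_true]
      rw [Finset.card_filter]
      push_cast
      rw [Finset.mul_sum]
      apply Finset.sum_congr rfl
      intro n _
      split_ifs <;> simp
    · simp [hc]
  -- Step 3: termwise estimate
  have hterm : ∀ T ∈ S.powerset,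
      (if T.card < L then ((-1 : ℝ) ^ T.card * ∏ p ∈ T, w p) * X - 1 else 0)
        ≤ if T.card < L then
          (-1 : ℝ) ^ T.card * ((I.filter (fun n => (∏ p ∈ T, p) ∣ n)).card : ℝ) else 0 := by
    intro T hT
    by_cases hc : T.card < L
    · simp only [hc, if_true]
      have hdpos : 0 < ∏ p ∈ T, p :=
        Finset.prod_pos fun p hp => (hS p (Finset.mem_powerset.mp hT hp)).pos
      have hb := count_dvd_bound (∏ p ∈ T, p) u X hdpos
      have hprodw : (∏ p ∈ T, w p) * X = (X : ℝ) / ((∏ p ∈ T, p : ℕ) : ℝ) := by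
        simp only [hw]
        rw [Finset.prod_div_distrib]
        push_cast
        simp
        ring
      have hsgn : |(-1 : ℝ) ^ T.card| = 1 := by simp
      have hdiff : (-1 : ℝ) ^ T.card * (((I.filter (fun n => (∏ p ∈ T, p) ∣ n)).card : ℝ)
          - (X : ℝ) / ((∏ p ∈ T, p : ℕ) : ℝ)) ≥ -1 := by
        have : |(-1 : ℝ) ^ T.card * (((I.filter (fun n => (∏ p ∈ T, p) ∣ n)).card : ℝ)
          - (X : ℝ) / ((∏ p ∈ T, p : ℕ) : ℝ))| ≤ 1 := by
          rw [abs_mul, hsgn, one_mul]
          exact hb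
        exact (abs_le.mp this).1
      have : ((-1 : ℝ) ^ T.card * ∏ p ∈ T, w p) * X
          = (-1 : ℝ) ^ T.card * ((X : ℝ) / ((∏ p ∈ T, p : ℕ) : ℝ)) := by
        rw [mul_assoc, hprodw]
      rw [this]
      have e : (-1 : ℝ) ^ T.card * (((I.filter (fun n => (∏ p ∈ T, p) ∣ n)).card : ℝ)
          - (X : ℝ) / ((∏ p ∈ T, p : ℕ) : ℝ))
          = (-1 : ℝ) ^ T.card * ((I.filter (fun n => (∏ p ∈ T, p) ∣ n)).card : ℝ)
            - (-1 : ℝ) ^ T.card * ((X : ℝ) / ((∏ p ∈ T, p : ℕ) : ℝ)) := by ring
      rw [e] at hdiff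
      linarith
    · simp [hc]
  -- Step 4: combine
  have hsumterm : (∑ T ∈ S.powerset,
      if T.card < L then ((-1 : ℝ) ^ T.card * ∏ p ∈ T, w p) * X - 1 else 0)
      = truncSum w S L * X - ((S.powerset.filter (fun T => T.card < L)).card : ℝ) := by
    unfold truncSum
    rw [Finset.sum_mul, Finset.card_filter]
    push_cast
    rw [← Finset.sum_sub_distrib]
    apply Finset.sum_congr rfl
    intro T _
    by_cases hc : T.card < L <;> simp [hc]
  have hbound := truncSum_bound w S hwS L
  have hlow : ∏ p ∈ S, (1 - w p) - (∑ p ∈ S, w p) ^ L / (L.factorial : ℝ) ≤ truncSum w S L := by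
    have := (abs_le.mp hbound).2
    linarith
  have hXnn : (0 : ℝ) ≤ (X : ℝ) := by positivity
  have hfinal : (X : ℝ) * (∏ p ∈ S, (1 - w p) - (∑ p ∈ S, w p) ^ L / (L.factorial : ℝ))
      ≤ truncSum w S L * X := by
    rw [mul_comm]
    exact mul_le_mul_of_nonneg_right hlow hXnn
  have hsmall := card_small_subsets S L
  have hchain1 : truncSum w S L * X - ((S.powerset.filter (fun T => T.card < L)).card : ℝ)
      ≤ ∑ T ∈ S.powerset, if T.card < L then
          (-1 : ℝ) ^ T.card * ((I.filter (fun n => (∏ p ∈ T, p) ∣ n)).card : ℝ) else 0 := by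
    rw [← hsumterm]
    exact Finset.sum_le_sum hterm
  have hchain2 : (∑ T ∈ S.powerset, if T.card < L then
          (-1 : ℝ) ^ T.card * ((I.filter (fun n => (∏ p ∈ T, p) ∣ n)).card : ℝ) else 0)
      ≤ ((I.filter (fun n => ∀ p ∈ S, ¬ p ∣ n)).card : ℝ) := by
    rw [← hswap, hcount]
    exact Finset.sum_le_sum fun n _ => hstep1 n
  linarith

end Crest.Agent.Egypt
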