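import Mathlib
import Crest.Agent.Lib.EgyptDefs
import Crest.Agent.Lib.EgyptSieve
import Crest.Agent.Lib.EgyptFourier
import Crest.Agent.Lib.EgyptBad
import Crest.Agent.Lib.EgyptPrimes

/-!
# Piece (A) of S0025: existence of the good modulus `D`.
-/

set_option autoImplicit false

open Finset

namespace Crest.Agent.Egypt

/-- All subset products of `P`. -/
def subProd (P : Finset ℕ) : Finset ℕ := P.powerset.image (fun X => ∏ p ∈ X, p)

lemma prod_injOn_powerset (P : Finset ℕ) (hP : ∀ p ∈ P, p.Prime) :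
    Set.InjOn (fun X : Finset ℕ => ∏ p ∈ X, p) (P.powerset : Set (Finset ℕ)) := by
  intro X hX Y hY h
  have hX' := Finset.mem_powerset.mp (Finset.mem_coe.mp hX)
  have hY' := Finset.mem_powerset.mp (Finset.mem_coe.mp hY)
  have h1 : (∏ p ∈ X, p).primeFactors = X := Nat.primeFactors_prod (fun p hp => hP p (hX' hp))
  have h2 : (∏ p ∈ Y, p).primeFactors = Y := Nat.primeFactors_prod (fun p hp => hP p (hY' hp))
  have h' : (∏ p ∈ X, p) = (∏ p ∈ Y, p) := h
  rw [← h1, ← h2, h']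

lemma subProd_card (P : Finset ℕ) (hP : ∀ p ∈ P, p.Prime) : (subProd P).card = 2 ^ P.card := by
  unfold subProd
  rw [Finset.card_image_of_injOn (prod_injOn_powerset P hP), Finset.card_powerset]

lemma mem_subProd {P : Finset ℕ} {a : ℕ} (ha : a ∈ subProd P) :
    ∃ X, X ⊆ P ∧ a = ∏ p ∈ X, p := by
  obtain ⟨X, hX, rfl⟩ := Finset.mem_image.mp ha
  exact ⟨X, Finset.mem_powerset.mp hX, rfl⟩

lemma pair_inj {PA PB : Finset ℕ} (hA : ∀ p ∈ PA, p.Prime) (hB : ∀ p ∈ PB, p.Prime)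
    (hd : Disjoint PA PB) {a a' b b' : ℕ} (ha : a ∈ subProd PA) (ha' : a' ∈ subProd PA)
    (hb : b ∈ subProd PB) (hb' : b' ∈ subProd PB) (h : a * b = a' * b') : a = a' ∧ b = b' := by
  obtain ⟨X, hX, rfl⟩ := mem_subProd ha
  obtain ⟨X', hX', rfl⟩ := mem_subProd ha'
  obtain ⟨Y, hY, rfl⟩ := mem_subProd hb
  obtain ⟨Y', hY', rfl⟩ := mem_subProd hb'
  have hXY : Disjoint X Y := Finset.disjoint_of_subset_left hX (Finset.disjoint_of_subset_right hY hd)
  have hXY' : Disjoint X' Y' :=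
    Finset.disjoint_of_subset_left hX' (Finset.disjoint_of_subset_right hY' hd)
  rw [← Finset.prod_union hXY, ← Finset.prod_union hXY'] at h
  have hU : X ∪ Y = X' ∪ Y' := by
    have h1 : (∏ p ∈ X ∪ Y, p).primeFactors = X ∪ Y := Nat.primeFactors_prod (by
      intro p hp
      rcases Finset.mem_union.mp hp with hp | hp
      · exact hA p (hX hp)
      · exact hB p (hY hp))
    have h2 : (∏ p ∈ X' ∪ Y', p).primeFactors = X' ∪ Y' := Nat.primeFactors_prod (by
      intro p hp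
      rcases Finset.mem_union.mp hp with hp | hp
      · exact hA p (hX' hp)
      · exact hB p (hY' hp))
    rw [← h1, ← h2, h]
  have hdis : ∀ p, p ∈ PA → p ∈ PB → False := fun p h1 h2 =>
    (Finset.disjoint_left.mp hd h1) h2
  have hX_eq : X = X' := by
    ext p
    constructor
    · intro hp
      have : p ∈ X' ∪ Y' := hU ▸ Finset.mem_union_left _ hp
      rcases Finset.mem_union.mp this with h3 | h3
      · exact h3
      · exact (hdis p (hX hp) (hY' h3)).elim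
    · intro hp
      have : p ∈ X ∪ Y := hU ▸ Finset.mem_union_left _ hp
      rcases Finset.mem_union.mp this with h3 | h3
      · exact h3
      · exact (hdis p (hX' hp) (hY h3)).elim
  have hY_eq : Y = Y' := by
    ext p
    constructor
    · intro hp
      have : p ∈ X' ∪ Y' := hU ▸ Finset.mem_union_right _ hp
      rcases Finset.mem_union.mp this with h3 | h3
      · exact (hdis p (hX' h3) (hY hp)).elim
      · exact h3
    · intro hp
      have : p ∈ X ∪ Y := hU ▸ Finset.mem_union_right _ hp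
      rcases Finset.mem_union.mp this with h3 | h3
      · exact (hdis p (hX h3) (hY' hp)).elim
      · exact h3
  subst hX_eq hY_eq
  exact ⟨rfl, rfl⟩

lemma pair_dvd {PA PB Q : Finset ℕ} (hAQ : PA ⊆ Q) (hBQ : PB ⊆ Q) (hd : Disjoint PA PB)
    {a b : ℕ} (ha : a ∈ subProd PA) (hb : b ∈ subProd PB) : a * b ∣ ∏ p ∈ Q, p := by
  obtain ⟨X, hX, rfl⟩ := mem_subProd ha
  obtain ⟨Y, hY, rfl⟩ := mem_subProd hb
  have hXY : Disjoint X Y := Finset.disjoint_of_subset_left hX (Finset.disjoint_of_subset_right hY hd)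
  rw [← Finset.prod_union hXY]
  apply Finset.prod_dvd_prod_of_subset
  intro p hp
  rcases Finset.mem_union.mp hp with hp | hp
  · exact hAQ (hX hp)
  · exact hBQ (hY hp)

lemma exists_split (P : Finset ℕ) :
    ∃ PA PB : Finset ℕ, PA ⊆ P ∧ PB ⊆ P ∧ Disjoint PA PB ∧
      PA.card = P.card / 2 ∧ PB.card = P.card / 2 := by
  obtain ⟨PA, hPA, hcA⟩ := Finset.exists_subset_card_eq (s := P) (n := P.card / 2) (by omega)
  obtain ⟨PB, hPB, hcB⟩ := Finset.exists_subset_card_eq (s := P \ PA) (n := P.card / 2) (by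
    rw [Finset.card_sdiff_of_subset hPA, hcA]; omega)
  refine ⟨PA, PB, hPA, hPB.trans Finset.sdiff_subset, ?_, hcA, hcB⟩
  exact Finset.disjoint_of_subset_right hPB Finset.disjoint_sdiff

lemma exp_neg_two_mul_le (x : ℝ) (h0 : 0 ≤ x) (h1 : x ≤ 1 / 2) : Real.exp (-(2 * x)) ≤ 1 - x := by
  have h := Real.add_one_le_exp (2 * x)
  rw [Real.exp_neg, inv_eq_one_div, div_le_iff₀ (Real.exp_pos _)]
  have h2 : 0 ≤ 1 - x := by linarith
  have h3 : (1 - x) * (2 * x + 1) ≤ (1 - x) * Real.exp (2 * x) :=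
    mul_le_mul_of_nonneg_left h h2
  nlinarith

lemma prod_lower (S : Finset ℕ) (hS : ∀ p ∈ S, p.Prime) :
    Real.exp (-(2 * ∑ p ∈ S, (1 : ℝ) / p)) ≤ ∏ p ∈ S, (1 - (1 : ℝ) / p) := by
  rw [Finset.mul_sum, ← Finset.sum_neg_distrib, Real.exp_sum]
  apply Finset.prod_le_prod
  · intro _ _; exact (Real.exp_pos _).le
  · intro p hp
    have hpp := hS p hp
    have h2 : (2 : ℝ) ≤ (p : ℝ) := by exact_mod_cast hpp.two_le
    apply exp_neg_two_mul_le
    · positivity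
    · rw [div_le_iff₀ (by linarith)]
      linarith

lemma pow_fact_bound (s : ℝ) (L : ℕ) (hs : 0 ≤ s) :
    s ^ L / (L.factorial : ℝ) ≤ Real.exp (3 * s - L) := by
  have he : 0 < Real.exp 1 := Real.exp_pos 1
  have h1 : (Real.exp 1 * s) ^ L / (L.factorial : ℝ) ≤ Real.exp (Real.exp 1 * s) := by
    refine le_trans ?_ (Real.sum_le_exp_of_nonneg (mul_nonneg he.le hs) (L + 1))
    exact Finset.single_le_sum (f := fun i => (Real.exp 1 * s) ^ i / (i.factorial : ℝ))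
      (fun i _ => by positivity) (Finset.self_mem_range_succ L)
  have h2 : Real.exp 1 ^ L = Real.exp (L : ℝ) := by
    rw [← Real.exp_nat_mul]; simp
  have h3 : (Real.exp 1 * s) ^ L / (L.factorial : ℝ)
      = Real.exp (L : ℝ) * (s ^ L / (L.factorial : ℝ)) := by
    rw [mul_pow, h2]; ring
  rw [h3] at h1
  have h4 : s ^ L / (L.factorial : ℝ) ≤ Real.exp (Real.exp 1 * s) * Real.exp (-(L : ℝ)) := by
    rw [Real.exp_neg]
    rw [← div_eq_mul_inv, le_div_iff₀ (Real.exp_pos _)]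
    linarith
  refine h4.trans ?_
  rw [← Real.exp_add]
  apply Real.exp_le_exp.mpr
  have h5 : Real.exp 1 ≤ 3 := by
    have := Real.exp_one_lt_d9
    linarith
  have h6 : Real.exp 1 * s ≤ 3 * s := mul_le_mul_of_nonneg_right h5 hs
  linarith

/-- The selection of `D`: rough, in the short interval, and avoiding a prescribed sparse set of
divisors. -/
lemma select_D (y : ℕ) (hℓ : 2000 ≤ Real.log y) (τ : ℝ) (hτ : 1 ≤ τ)
    (ht : (Real.log y) ^ 3 ≤ Real.log τ)
    (hs : ∑ p ∈ (Finset.range (y ^ 40 + 1)).filter Nat.Prime, (1 : ℝ) / p ≤ Real.log y / 10)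
    (B : Finset ℕ) (hB0 : ∀ q ∈ B, 0 < q) (hB1 : ∑ q ∈ B, (1 : ℝ) / q ≤ 16 / y)
    (hB2 : (B.card : ℝ) ≤ ((⌊2 * τ⌋₊ : ℕ) : ℝ) ^ ((19 : ℝ) / 20) * (16 / y)) :
    ∃ D : ℕ, τ ≤ D ∧ (D : ℝ) ≤ τ + τ ^ ((24 : ℝ) / 25) ∧
      (∀ p ∈ (Finset.range (y ^ 40 + 1)).filter Nat.Prime, ¬ p ∣ D) ∧ ∀ q ∈ B, ¬ q ∣ D := by
  classical
  set ℓ := Real.log y with hℓdef
  set t := Real.log τ with htdef
  set S := (Finset.range (y ^ 40 + 1)).filter Nat.Prime with hSdef
  have hSprime : ∀ p ∈ S, p.Prime := fun p hp => (Finset.mem_filter.mp hp).2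
  have hypos : (0 : ℝ) < (y : ℝ) := by
    by_contra h
    have : (y : ℝ) = 0 := le_antisymm (not_lt.mp h) (Nat.cast_nonneg _)
    rw [hℓdef, this, Real.log_zero] at hℓ
    linarith
  have hyexp : (y : ℝ) = Real.exp ℓ := (Real.exp_log hypos).symm
  have hτexp : τ = Real.exp t := (Real.exp_log (by linarith)).symm
  have hℓ3 : ℓ ≤ t := by nlinarith [sq_nonneg ℓ, sq_nonneg (ℓ - 1)]
  have ht2000 : 2000 ≤ t := by linarith
  have hℓcube : 8000000000 ≤ t := by
    have : (2000 : ℝ) ^ 3 ≤ ℓ ^ 3 := pow_le_pow_left₀ (by norm_num) hℓ 3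
    norm_num at this
    linarith
  -- the exponent parameters
  set a := τ ^ ((24 : ℝ) / 25) with ha
  have ha_exp : a = Real.exp (t * (24 / 25)) := by
    rw [ha, Real.rpow_def_of_pos (by linarith : (0 : ℝ) < τ)]
  set b := τ ^ ((1 : ℝ) / 10) with hb
  have hb_exp : b = Real.exp (t * (1 / 10)) := by
    rw [hb, Real.rpow_def_of_pos (by linarith : (0 : ℝ) < τ)]
  set E := Real.exp (-(ℓ / 5)) with hE
  have hEpos : 0 < E := Real.exp_pos _
  set r : ℝ := 1 / (y : ℝ) with hr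
  have hrpos : 0 < r := by positivity
  have hr_exp : r = Real.exp (-ℓ) := by
    rw [hr, hyexp, Real.exp_neg, inv_eq_one_div]
  -- fact (1)
  have h162 : 162 * r ≤ E := by
    rw [hr_exp, hE]
    have h1 : Real.exp (-(ℓ / 5)) = Real.exp (-ℓ) * Real.exp (4 / 5 * ℓ) := by
      rw [← Real.exp_add]; congr 1; ring
    rw [h1]
    have h2 : (162 : ℝ) ≤ Real.exp (4 / 5 * ℓ) := by
      have := Real.add_one_le_exp (4 / 5 * ℓ)
      linarith
    have h3 := Real.exp_pos (-ℓ)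
    nlinarith
  -- X
  set X := ⌊a⌋₊ with hX
  have haposs : 0 < a := by rw [ha_exp]; exact Real.exp_pos _
  have hXle : (X : ℝ) ≤ a := Nat.floor_le haposs.le
  have hXgt : a < (X : ℝ) + 1 := Nat.lt_floor_add_one a
  have ha2 : 2 ≤ a := by
    rw [ha_exp]
    have := Real.add_one_le_exp (t * (24 / 25))
    linarith
  have haX : a ≤ 2 * (X : ℝ) := by linarith
  have hXnn : (0 : ℝ) ≤ (X : ℝ) := Nat.cast_nonneg _
  -- fact (3)
  have h4b : 4 * b < a * E := by
    rw [ha_exp, hb_exp, hE, ← Real.exp_add]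
    have h1 : Real.exp (t * (24 / 25) + -(ℓ / 5))
        = Real.exp (t * (1 / 10)) * Real.exp (t * (24 / 25 - 1 / 10) - ℓ / 5) := by
      rw [← Real.exp_add]; congr 1; ring
    rw [h1]
    have h2 : (5 : ℝ) ≤ Real.exp (t * (24 / 25 - 1 / 10) - ℓ / 5) := by
      have := Real.add_one_le_exp (t * (24 / 25 - 1 / 10) - ℓ / 5)
      nlinarith
    have h3 := Real.exp_pos (t * (1 / 10))
    nlinarith
  -- fact (2)
  set Q := ⌊2 * τ⌋₊ with hQ
  have hQle : (Q : ℝ) ≤ 2 * τ := Nat.floor_le (by linarith)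
  have hQp : (Q : ℝ) ^ ((19 : ℝ) / 20) ≤ 2 * a := by
    have h1 : (Q : ℝ) ^ ((19 : ℝ) / 20) ≤ (2 * τ) ^ ((19 : ℝ) / 20) :=
      Real.rpow_le_rpow (Nat.cast_nonneg _) hQle (by norm_num)
    have h2 : (2 * τ) ^ ((19 : ℝ) / 20) = 2 ^ ((19 : ℝ) / 20) * τ ^ ((19 : ℝ) / 20) :=
      Real.mul_rpow (by norm_num) (by linarith)
    have h3 : (2 : ℝ) ^ ((19 : ℝ) / 20) ≤ 2 := by
      calc (2 : ℝ) ^ ((19 : ℝ) / 20) ≤ (2 : ℝ) ^ (1 : ℝ) :=
            Real.rpow_le_rpow_of_exponent_le (by norm_num) (by norm_num)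
        _ = 2 := by simp
    have h4 : τ ^ ((19 : ℝ) / 20) ≤ a := by
      rw [ha]
      exact Real.rpow_le_rpow_of_exponent_le hτ (by norm_num)
    have h5 : 0 ≤ τ ^ ((19 : ℝ) / 20) := by positivity
    calc (Q : ℝ) ^ ((19 : ℝ) / 20) ≤ 2 ^ ((19 : ℝ) / 20) * τ ^ ((19 : ℝ) / 20) := h2 ▸ h1
      _ ≤ 2 * a := mul_le_mul h3 h4 h5 (by norm_num)
  -- the parameter L
  set L := 2 * ⌈ℓ⌉₊ with hL
  have hLeven : Even L := even_two_mul _
  have hLge : 2 * ℓ ≤ (L : ℝ) := by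
    rw [hL]; push_cast
    have := Nat.le_ceil ℓ
    linarith
  have hLle : (L : ℝ) ≤ 2 * ℓ + 2 := by
    rw [hL]; push_cast
    have := Nat.ceil_lt_add_one (by linarith : (0 : ℝ) ≤ ℓ)
    linarith
  -- sum and product
  set s := ∑ p ∈ S, (1 : ℝ) / p with hsdef
  have hs0 : 0 ≤ s := Finset.sum_nonneg fun p _ => by positivity
  have hprod : E ≤ ∏ p ∈ S, (1 - (1 : ℝ) / p) := by
    refine le_trans ?_ (prod_lower S hSprime)
    rw [hE]
    apply Real.exp_le_exp.mpr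
    linarith
  have hfact : s ^ L / (L.factorial : ℝ) ≤ r := by
    refine (pow_fact_bound s L hs0).trans ?_
    rw [hr_exp]
    apply Real.exp_le_exp.mpr
    linarith
  have hcardS : ((S.card : ℝ) + 1) ^ L ≤ b := by
    have hcard : S.card ≤ y ^ 40 + 1 := by
      refine (Finset.card_filter_le _ _).trans ?_
      rw [Finset.card_range]
    have hcard' : (S.card : ℝ) ≤ (y : ℝ) ^ 40 + 1 := by exact_mod_cast hcard
    have hy2 : (2 : ℝ) ≤ (y : ℝ) := by
      rw [hyexp]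
      have := Real.add_one_le_exp ℓ
      linarith
    have hy40 : (2 : ℝ) ≤ (y : ℝ) ^ 40 := hy2.trans (le_self_pow₀ (by linarith) (by norm_num))
    have h41 : (S.card : ℝ) + 1 ≤ (y : ℝ) ^ 41 := by
      have h1 : (y : ℝ) ^ 41 = (y : ℝ) ^ 40 * y := pow_succ _ _
      have h2 : (y : ℝ) ^ 40 * 2 ≤ (y : ℝ) ^ 40 * y :=
        mul_le_mul_of_nonneg_left hy2 (by linarith)
      rw [h1]
      linarith
    have h1 : ((S.card : ℝ) + 1) ^ L ≤ ((y : ℝ) ^ 41) ^ L :=
      pow_le_pow_left₀ (by have : (0 : ℝ) ≤ (S.card : ℝ) := Nat.cast_nonneg _; linarith) h41 L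
    refine h1.trans ?_
    rw [hb_exp, hyexp, ← pow_mul, ← Real.exp_nat_mul]
    apply Real.exp_le_exp.mpr
    push_cast
    have h2 : (41 : ℝ) * (L : ℝ) * ℓ ≤ 41 * (2 * ℓ + 2) * ℓ := by
      apply mul_le_mul_of_nonneg_right _ (by linarith)
      linarith
    have h3 : 41 * (2 * ℓ + 2) * ℓ ≤ ℓ ^ 3 * (1 / 10) := by
      have : ℓ ^ 3 = ℓ * ℓ * ℓ := by ring
      rw [this]
      have hh : 41 * (2 * ℓ + 2) ≤ ℓ * ℓ * (1 / 10) := by nlinarith
      nlinarith
    have h4 : ℓ ^ 3 * (1 / 10) ≤ t * (1 / 10) := by linarith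
    linarith
  -- sieve
  have hsieve := sieve_lower S hSprime L hLeven ⌈τ⌉₊ X
  set I := Finset.Ico ⌈τ⌉₊ (⌈τ⌉₊ + X) with hI
  set R := I.filter (fun n => ∀ p ∈ S, ¬ p ∣ n) with hR
  have hRlow : (X : ℝ) * (E - r) - b ≤ (R.card : ℝ) := by
    refine le_trans ?_ hsieve
    have h1 : E - r ≤ ∏ p ∈ S, (1 - (1 : ℝ) / p) - s ^ L / (L.factorial : ℝ) := by linarith
    have h2 := mul_le_mul_of_nonneg_left h1 hXnn
    linarith
  -- union bound
  by_contra hcon
  have hcover : R ⊆ B.biUnion (fun q => I.filter (fun n => q ∣ n)) := by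
    intro n hn
    have hnI := (Finset.mem_filter.mp hn).1
    have hnS := (Finset.mem_filter.mp hn).2
    rw [Finset.mem_biUnion]
    by_contra hno
    push Not at hno
    apply hcon
    refine ⟨n, ?_, ?_, hnS, ?_⟩
    · have := (Finset.mem_Ico.mp hnI).1
      exact (Nat.le_ceil τ).trans (by exact_mod_cast this)
    · have h2 := (Finset.mem_Ico.mp hnI).2
      have h3 : (n : ℝ) + 1 ≤ (⌈τ⌉₊ : ℝ) + X := by exact_mod_cast h2
      have h4 := Nat.ceil_lt_add_one (by linarith : (0 : ℝ) ≤ τ)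
      linarith
    · intro q hq hqn
      have := hno q hq
      exact this (Finset.mem_filter.mpr ⟨hnI, hqn⟩)
  have hRup : (R.card : ℝ) ≤ ∑ q ∈ B, (((I.filter (fun n => q ∣ n)).card : ℝ)) := by
    have h1 := (Finset.card_le_card hcover).trans Finset.card_biUnion_le
    exact_mod_cast h1
  have hterm : ∀ q ∈ B, (((I.filter (fun n => q ∣ n)).card : ℝ)) ≤ (X : ℝ) * ((1 : ℝ) / q) + 1 := by
    intro q hq
    have := count_dvd_bound q ⌈τ⌉₊ X (hB0 q hq)
    have h2 := (abs_le.mp this).2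
    have h3 : (X : ℝ) * ((1 : ℝ) / q) = (X : ℝ) / q := by ring
    rw [h3]
    linarith
  have hRup2 : (R.card : ℝ) ≤ (X : ℝ) * (16 * r) + (Q : ℝ) ^ ((19 : ℝ) / 20) * (16 * r) := by
    refine hRup.trans ((Finset.sum_le_sum hterm).trans ?_)
    rw [Finset.sum_add_distrib, ← Finset.mul_sum]
    simp only [Finset.sum_const, nsmul_eq_mul, mul_one]
    have h16 : (16 : ℝ) / y = 16 * r := by rw [hr]; ring
    rw [h16] at hB1 hB2
    have h1 := mul_le_mul_of_nonneg_left hB1 hXnn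
    linarith
  -- contradiction
  have hQ16 : (Q : ℝ) ^ ((19 : ℝ) / 20) * (16 * r) ≤ 64 * (X : ℝ) * r := by
    have h1 : (Q : ℝ) ^ ((19 : ℝ) / 20) ≤ 4 * (X : ℝ) := by linarith
    have h2 := mul_le_mul_of_nonneg_right h1 (by positivity : 0 ≤ 16 * r)
    nlinarith
  have hfinal : (X : ℝ) * (E - r) - b ≤ (X : ℝ) * (16 * r) + 64 * (X : ℝ) * r := by
    linarith
  have hXE : (X : ℝ) * (E / 2) ≤ (X : ℝ) * (E - 81 * r) := by
    apply mul_le_mul_of_nonneg_left _ hXnn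
    linarith
  have hXE2 : a * E ≤ 2 * (X : ℝ) * E := mul_le_mul_of_nonneg_right haX hEpos.le
  nlinarith

open Classical in
/-- Existence of the good modulus for `y` in the natural range. (The hypothesis `1 ≤ τ` is
necessary: `Real.log` is even.) -/
theorem good_core : ∃ (c₂ : ℝ) (y₀ : ℕ), 0 < c₂ ∧ ∀ y : ℕ, y₀ ≤ y → ∀ τ : ℝ, 1 ≤ τ →
    (Real.log y) ^ 3 ≤ Real.log τ → Real.log τ ≤ c₂ * y / Real.log y →
    ∃ D : ℕ, τ ≤ D ∧ (D : ℝ) ≤ τ + τ ^ ((24 : ℝ) / 25) ∧ Nat.Coprime D 30 ∧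
      ∀ ρ : ℤ, ∃ T : Fin 49 → ℕ, Function.Injective T ∧ (∀ i, T i ∣ MM y) ∧
        ((D : ℤ) ∣ (∑ i, (T i : ℤ)) - ρ) := by
  obtain ⟨c, y1, hc, hPc⟩ := primesIn_card_ge
  obtain ⟨y2, hsum⟩ := sum_one_div_primes_le
  refine ⟨c / 100, max (max y1 y2) (max ⌈Real.exp 2000⌉₊ 9), by positivity, ?_⟩
  intro y hy τ hτ ht htu
  have hy1 : y1 ≤ y := (le_max_left _ _).trans ((le_max_left _ _).trans hy)
  have hy2 : y2 ≤ y := (le_max_right _ _).trans ((le_max_left _ _).trans hy)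
  have hy3 : ⌈Real.exp 2000⌉₊ ≤ y := (le_max_left _ _).trans ((le_max_right _ _).trans hy)
  have hy9 : 9 ≤ y := (le_max_right _ _).trans ((le_max_right _ _).trans hy)
  have hyreal : Real.exp 2000 ≤ (y : ℝ) := (Nat.le_ceil _).trans (by exact_mod_cast hy3)
  have hypos : (0 : ℝ) < (y : ℝ) := lt_of_lt_of_le (Real.exp_pos _) hyreal
  have hℓ : (2000 : ℝ) ≤ Real.log y := (Real.le_log_iff_exp_le hypos).mpr hyreal
  set ℓ := Real.log y with hℓdef
  set t := Real.log τ with htdef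
  have hτpos : 0 < τ := by linarith
  have ht8 : (8000000000 : ℝ) ≤ t := by
    have : (2000 : ℝ) ^ 3 ≤ ℓ ^ 3 := pow_le_pow_left₀ (by norm_num) hℓ 3
    norm_num at this
    linarith
  have hτexp : τ = Real.exp t := (Real.exp_log hτpos).symm
  -- prime sets
  set P := primesIn y with hP
  have hPprime : ∀ p ∈ P, p.Prime := fun p hp => prime_of_mem_primesIn hp
  obtain ⟨PA, PB, hPA, hPB, hdisj, hcA, hcB⟩ := exists_split P
  have hPAprime : ∀ p ∈ PA, p.Prime := fun p hp => hPprime p (hPA hp)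
  have hPBprime : ∀ p ∈ PB, p.Prime := fun p hp => hPprime p (hPB hp)
  set m := P.card / 2 with hm
  set A := subProd PA with hAdef
  set B := subProd PB with hBdef
  have hAcard : A.card = 2 ^ m := by rw [hAdef, subProd_card PA hPAprime, hcA]
  have hBcard : B.card = 2 ^ m := by rw [hBdef, subProd_card PB hPBprime, hcB]
  have hA4 : ∀ a ∈ A, 0 < a ∧ a ≤ 4 ^ y := by
    intro a ha
    obtain ⟨X, hX, rfl⟩ := mem_subProd ha
    refine ⟨Finset.prod_pos fun p hp => (hPAprime p (hX hp)).pos, ?_⟩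
    refine le_trans (Nat.le_of_dvd (MM_pos y) ?_) (MM_le_four_pow y)
    exact Finset.prod_dvd_prod_of_subset _ _ _ (hX.trans hPA)
  have hB4 : ∀ a ∈ B, 0 < a ∧ a ≤ 4 ^ y := by
    intro a ha
    obtain ⟨X, hX, rfl⟩ := mem_subProd ha
    refine ⟨Finset.prod_pos fun p hp => (hPBprime p (hX hp)).pos, ?_⟩
    refine le_trans (Nat.le_of_dvd (MM_pos y) ?_) (MM_le_four_pow y)
    exact Finset.prod_dvd_prod_of_subset _ _ _ (hX.trans hPB)
  have hAW : 0 < A.card := by rw [hAcard]; positivity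
  have hBW : 0 < B.card := by rw [hBcard]; positivity
  -- the bad sets
  set Q := ⌊2 * τ⌋₊ with hQ
  set z := y ^ 40 with hz
  set BA := (Finset.Icc 2 Q).filter (fun q => IsRough z q ∧
      (A.card : ℝ) + (A.card : ℝ) ^ 2 * (q : ℝ) ^ (-(9 : ℝ) / 10) < Ecount A q) with hBA
  set BB := (Finset.Icc 2 Q).filter (fun q => IsRough z q ∧
      (B.card : ℝ) + (B.card : ℝ) ^ 2 * (q : ℝ) ^ (-(9 : ℝ) / 10) < Ecount B q) with hBB
  obtain ⟨hA1, hA2⟩ := bad_bounds y Q (by omega) A hA4 hAW BA (by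
    intro q hq
    have h := Finset.mem_filter.mp hq
    have h1 := Finset.mem_Icc.mp h.1
    exact ⟨by omega, h.2.1, h1.2, h.2.2⟩)
  obtain ⟨hB1, hB2⟩ := bad_bounds y Q (by omega) B hB4 hBW BB (by
    intro q hq
    have h := Finset.mem_filter.mp hq
    have h1 := Finset.mem_Icc.mp h.1
    exact ⟨by omega, h.2.1, h1.2, h.2.2⟩)
  set U := BA ∪ BB with hU
  have hU0 : ∀ q ∈ U, 0 < q := by
    intro q hq
    rcases Finset.mem_union.mp hq with h | h
    · have := Finset.mem_Icc.mp (Finset.mem_filter.mp h).1; omega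
    · have := Finset.mem_Icc.mp (Finset.mem_filter.mp h).1; omega
  have hU1 : ∑ q ∈ U, (1 : ℝ) / q ≤ 16 / y := by
    have h := Finset.sum_union_inter (s₁ := BA) (s₂ := BB) (f := fun q : ℕ => (1 : ℝ) / q)
    have h0 : 0 ≤ ∑ q ∈ BA ∩ BB, (1 : ℝ) / q := Finset.sum_nonneg fun _ _ => by positivity
    have h16 : (16 : ℝ) / y = 8 / y + 8 / y := by ring
    rw [h16]
    linarith
  have hU2 : (U.card : ℝ) ≤ (Q : ℝ) ^ ((19 : ℝ) / 20) * (16 / y) := by
    have h : (U.card : ℝ) ≤ (BA.card : ℝ) + (BB.card : ℝ) := by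
      exact_mod_cast Finset.card_union_le _ _
    have h16 : (Q : ℝ) ^ ((19 : ℝ) / 20) * (16 / y)
        = (Q : ℝ) ^ ((19 : ℝ) / 20) * (8 / y) + (Q : ℝ) ^ ((19 : ℝ) / 20) * (8 / y) := by ring
    rw [h16]
    linarith
  obtain ⟨D, hD1, hD2, hD3, hD4⟩ := select_D y hℓ τ hτ ht (hsum y hy2) U hU0 hU1 hU2
  -- size of D
  have hτle : τ ^ ((24 : ℝ) / 25) ≤ τ := by
    calc τ ^ ((24 : ℝ) / 25) ≤ τ ^ (1 : ℝ) :=
          Real.rpow_le_rpow_of_exponent_le hτ (by norm_num)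
      _ = τ := Real.rpow_one τ
  have hD2τ : (D : ℝ) ≤ 2 * τ := by linarith
  have hDQ : D ≤ Q := Nat.le_floor hD2τ
  have hτbig : (2 : ℝ) ≤ τ := by
    rw [hτexp]
    have := Real.add_one_le_exp t
    linarith
  have hD1' : 1 < D := by
    have : (1 : ℝ) < (D : ℝ) := by linarith
    exact_mod_cast this
  -- roughness of D
  have hrough : IsRough z D := by
    intro p hp hpD
    by_contra hle
    have hpS : p ∈ (Finset.range (y ^ 40 + 1)).filter Nat.Prime := by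
      refine Finset.mem_filter.mpr ⟨Finset.mem_range.mpr ?_, hp⟩
      have : p ≤ z := not_lt.mp hle
      rw [← hz]
      omega
    exact hD3 p hpS hpD
  have hz5 : 3 ^ 26 ≤ z := by
    have hy3' : 3 ≤ y := by omega
    calc 3 ^ 26 ≤ 3 ^ 40 := Nat.pow_le_pow_right (by norm_num) (by norm_num)
      _ ≤ y ^ 40 := Nat.pow_le_pow_left hy3' 40
  have hcop : Nat.Coprime D 30 := by
    have hp : ∀ p : ℕ, p.Prime → p ≤ 5 → Nat.Coprime D p := by
      intro p hp hp5
      rw [Nat.coprime_comm, Nat.Prime.coprime_iff_not_dvd hp]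
      intro hpD
      have := hrough p hp hpD
      have h3 : 5 < 3 ^ 26 := by norm_num
      omega
    have h30 : (30 : ℕ) = 2 * (3 * 5) := by norm_num
    rw [h30]
    exact Nat.Coprime.mul_right (hp 2 (by norm_num) (by norm_num))
      (Nat.Coprime.mul_right (hp 3 (by norm_num) (by norm_num)) (hp 5 (by norm_num) (by norm_num)))
  -- size of W
  have hlogpos : 0 < ℓ := by linarith
  have hP100 : 100 * t ≤ (P.card : ℝ) := by
    have h1 := hPc y hy1
    have h2 : c / 100 * (y : ℝ) / ℓ = (c * y / ℓ) / 100 := by ring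
    rw [h2] at htu
    linarith
  have hm49 : 49 * t ≤ (m : ℝ) := by
    have h1 : P.card ≤ 2 * m + 1 := by rw [hm]; omega
    have h2 : (P.card : ℝ) ≤ 2 * (m : ℝ) + 1 := by exact_mod_cast h1
    linarith
  have hW33 : Real.exp (33 * t) ≤ ((2 ^ m : ℕ) : ℝ) := by
    push_cast
    have h1 : (2 : ℝ) = Real.exp (Real.log 2) := (Real.exp_log (by norm_num)).symm
    have h2 : (2 : ℝ) ^ m = Real.exp ((m : ℝ) * Real.log 2) := by
      rw [Real.exp_nat_mul, ← h1]
    rw [h2]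
    apply Real.exp_le_exp.mpr
    have h3 := Real.log_two_gt_d9
    have h4 : (49 * t) * 0.6931471803 ≤ (m : ℝ) * Real.log 2 :=
      mul_le_mul hm49 h3.le (by norm_num) (by positivity)
    nlinarith
  have hDexp : (D : ℝ) ≤ Real.exp (t + 1) := by
    rw [Real.exp_add, ← hτexp]
    have h1 : (2 : ℝ) ≤ Real.exp 1 := by
      have := Real.exp_one_gt_d9
      linarith
    nlinarith
  have hD0 : (0 : ℝ) ≤ (D : ℝ) := Nat.cast_nonneg _
  have hDW : (D : ℝ) ^ 3 ≤ (((2 ^ m : ℕ)) : ℝ) ^ 4 := by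
    have h1 : (D : ℝ) ^ 3 ≤ Real.exp (t + 1) ^ 3 := pow_le_pow_left₀ hD0 hDexp 3
    have h2 : Real.exp (33 * t) ^ 4 ≤ (((2 ^ m : ℕ)) : ℝ) ^ 4 :=
      pow_le_pow_left₀ (Real.exp_pos _).le hW33 4
    refine h1.trans (le_trans ?_ h2)
    rw [← Real.exp_nat_mul, ← Real.exp_nat_mul]
    apply Real.exp_le_exp.mpr
    push_cast
    linarith
  have hWD : 2352 * D < (2 ^ m) ^ 2 := by
    have h1 : (2352 : ℝ) * (D : ℝ) < (((2 ^ m : ℕ)) : ℝ) ^ 2 := by
      have h2 : Real.exp (33 * t) ^ 2 ≤ (((2 ^ m : ℕ)) : ℝ) ^ 2 :=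
        pow_le_pow_left₀ (Real.exp_pos _).le hW33 2
      have h3 : (2352 : ℝ) ≤ Real.exp t := by
        have := Real.add_one_le_exp t
        linarith
      have h4 : (2352 : ℝ) * (D : ℝ) ≤ Real.exp t * Real.exp (t + 1) :=
        mul_le_mul h3 hDexp hD0 (Real.exp_pos _).le
      have h5 : Real.exp t * Real.exp (t + 1) < Real.exp (33 * t) ^ 2 := by
        rw [← Real.exp_add, ← Real.exp_nat_mul]
        apply Real.exp_lt_exp.mpr
        push_cast
        linarith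
      linarith
    exact_mod_cast h1
  have hq : ∀ q : ℕ, q ∣ D → 1 < q → z < q ∧
      (Ecount A q : ℝ) ≤ ((2 ^ m : ℕ) : ℝ) + ((2 ^ m : ℕ) : ℝ) ^ 2 * (q : ℝ) ^ (-(9 : ℝ) / 10) ∧
      (Ecount B q : ℝ) ≤ ((2 ^ m : ℕ) : ℝ) + ((2 ^ m : ℕ) : ℝ) ^ 2 * (q : ℝ) ^ (-(9 : ℝ) / 10) := by
    intro q hqD hq1
    have hqrough : IsRough z q := fun p hp hpq => hrough p hp (hpq.trans hqD)
    have hqle : q ≤ Q := (Nat.le_of_dvd (by omega) hqD).trans hDQ
    have hzq : z < q := by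
      obtain ⟨p, hp, hpq⟩ := Nat.exists_prime_and_dvd (show q ≠ 1 by omega)
      exact lt_of_lt_of_le (hqrough p hp hpq) (Nat.le_of_dvd (by omega) hpq)
    refine ⟨hzq, ?_, ?_⟩
    · by_contra hcon
      rw [not_le, ← hAcard] at hcon
      refine hD4 q (Finset.mem_union_left _ (Finset.mem_filter.mpr ⟨?_, hqrough, hcon⟩)) hqD
      exact Finset.mem_Icc.mpr ⟨by omega, hqle⟩
    · by_contra hcon
      rw [not_le, ← hBcard] at hcon
      refine hD4 q (Finset.mem_union_right _ (Finset.mem_filter.mpr ⟨?_, hqrough, hcon⟩)) hqD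
      exact Finset.mem_Icc.mpr ⟨by omega, hqle⟩
  refine ⟨D, hD1, hD2, hcop, ?_⟩
  intro ρ
  obtain ⟨f, hfinj, hfmem, hfsum⟩ := fourier_cover A B (2 ^ m) hAcard hBcard D z hD1' hDW hWD hz5 hq
    (ρ : ZMod D)
  refine ⟨fun i => (f i).1 * (f i).2, ?_, ?_, ?_⟩
  · intro i j hij
    have h := pair_inj hPAprime hPBprime hdisj (hfmem i).1 (hfmem j).1 (hfmem i).2 (hfmem j).2 hij
    exact hfinj (Prod.ext h.1 h.2)
  · intro i
    exact pair_dvd hPA hPB hdisj (hfmem i).1 (hfmem i).2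
  · rw [← ZMod.intCast_eq_intCast_iff_dvd_sub]
    push_cast
    exact hfsum.symm

/-- The interface theorem. -/
theorem good : GoodStmt := by
  obtain ⟨c₂, y₀, hc₂, hcore⟩ := good_core
  -- eventual facts
  have h1 : ∀ᶠ t : ℝ in Filter.atTop, ‖Real.log t ^ 3‖ ≤ (1 / 27) * ‖id t‖ :=
    (Real.isLittleO_pow_log_id_atTop (n := 3)).def (by norm_num)
  have h2 : ∀ᶠ t : ℝ in Filter.atTop, ‖Real.log t‖ ≤ (c₂ / 3) * ‖id t‖ :=
    Real.isLittleO_log_id_atTop.def (by positivity)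
  have h3 : ∀ᶠ t : ℝ in Filter.atTop, (1 : ℝ) ≤ Real.log t :=
    Real.tendsto_log_atTop.eventually_ge_atTop 1
  have h4 : ∀ᶠ t : ℝ in Filter.atTop, (y₀ : ℝ) + 1 ≤ t := Filter.eventually_ge_atTop _
  have h5 : ∀ᶠ t : ℝ in Filter.atTop, (1 : ℝ) ≤ t := Filter.eventually_ge_atTop _
  obtain ⟨t₀, ht₀⟩ := Filter.eventually_atTop.mp (h1.and (h2.and (h3.and (h4.and h5))))
  have h6 : ∀ᶠ Y : ℕ in Filter.atTop, ‖Real.log (Y : ℝ) ^ 6‖ ≤ 1 * ‖id (Y : ℝ)‖ :=
    tendsto_natCast_atTop_atTop.eventually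
      ((Real.isLittleO_pow_log_id_atTop (n := 6)).def (by norm_num))
  obtain ⟨Y₁, hY₁⟩ := Filter.eventually_atTop.mp h6
  refine ⟨Real.exp (max t₀ 1), c₂, max (max Y₁ y₀) 1, hc₂, ?_, ?_⟩
  · apply Real.one_le_exp
    exact le_trans (by norm_num) (le_max_right _ _)
  intro Y hY τ hτ hτu
  have hY1 : Y₁ ≤ Y := (le_max_left _ _).trans ((le_max_left _ _).trans hY)
  have hY2 : y₀ ≤ Y := (le_max_right _ _).trans ((le_max_left _ _).trans hY)
  have hY3 : 1 ≤ Y := (le_max_right _ _).trans hY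
  have hτ1 : 1 ≤ τ := le_trans (Real.one_le_exp (le_trans (by norm_num) (le_max_right _ _))) hτ
  have hτpos : 0 < τ := by linarith
  set t := Real.log τ with htdef
  have htge : max t₀ 1 ≤ t := by
    rw [htdef]
    exact (Real.le_log_iff_exp_le hτpos).mpr hτ
  have ht₀' : t₀ ≤ t := (le_max_left _ _).trans htge
  have ht1 : 1 ≤ t := (le_max_right _ _).trans htge
  have htu : t ≤ c₂ * Y / Real.log Y := by
    have := Real.log_le_log hτpos hτu
    rwa [Real.log_exp] at this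
  by_cases hcase : (Real.log Y) ^ 3 ≤ t
  · exact hcore Y hY2 τ hτ1 hcase htu
  · push Not at hcase
    obtain ⟨e1, e2, e3, e4, e5⟩ := ht₀ t ht₀'
    have hlogt : 1 ≤ Real.log t := e3
    have htpos : 0 < t := by linarith
    have e1' : Real.log t ^ 3 ≤ t / 27 := by
      have h := (le_abs_self _).trans e1
      rw [id, Real.norm_of_nonneg htpos.le] at h
      linarith
    have e2' : Real.log t ≤ c₂ / 3 * t := by
      have h := (le_abs_self _).trans e2
      rw [id, Real.norm_of_nonneg htpos.le] at h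
      exact h
    have hY1' := hY₁ Y hY1
    have hlogY : 0 ≤ Real.log (Y : ℝ) := Real.log_natCast_nonneg Y
    have hlog6 : Real.log (Y : ℝ) ^ 6 ≤ (Y : ℝ) := by
      have h := (le_abs_self _).trans hY1'
      rw [id, one_mul, Real.norm_of_nonneg (Nat.cast_nonneg _)] at h
      exact h
    set y := ⌈t ^ 2⌉₊ with hy
    have hyge : t ^ 2 ≤ (y : ℝ) := Nat.le_ceil _
    have hyle : (y : ℝ) < t ^ 2 + 1 := Nat.ceil_lt_add_one (by positivity)
    have hyY : y ≤ Y := by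
      apply Nat.ceil_le.mpr
      have : t ^ 2 ≤ (Real.log (Y : ℝ) ^ 3) ^ 2 := pow_le_pow_left₀ htpos.le hcase.le 2
      calc t ^ 2 ≤ (Real.log (Y : ℝ) ^ 3) ^ 2 := this
        _ = Real.log (Y : ℝ) ^ 6 := by ring
        _ ≤ Y := hlog6
    have hty : t ≤ t ^ 2 := by nlinarith
    have hyy₀ : y₀ ≤ y := by
      have : (y₀ : ℝ) ≤ (y : ℝ) := by linarith
      exact_mod_cast this
    have hypos : (0 : ℝ) < (y : ℝ) := by nlinarith
    have hlogyup : Real.log (y : ℝ) ≤ 3 * Real.log t := by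
      have h1 : (y : ℝ) ≤ Real.exp 1 * t ^ 2 := by
        have h2 : (2 : ℝ) ≤ Real.exp 1 := by
          have := Real.exp_one_gt_d9
          linarith
        have h3 : 1 ≤ t ^ 2 := by nlinarith
        nlinarith
      have h2 := Real.log_le_log hypos h1
      rw [Real.log_mul (Real.exp_pos _).ne' (by positivity), Real.log_exp, Real.log_pow] at h2
      push_cast at h2
      linarith
    have htlarge : Real.exp 1 ≤ t := by
      rw [← Real.exp_log htpos]
      exact Real.exp_le_exp.mpr hlogt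
    have hy2 : (2 : ℝ) ≤ (y : ℝ) := by
      have h2 : (2 : ℝ) ≤ Real.exp 1 := by
        have := Real.exp_one_gt_d9
        linarith
      nlinarith
    have hlogy0 : 0 < Real.log (y : ℝ) := Real.log_pos (by linarith)
    have hc3 : Real.log (y : ℝ) ^ 3 ≤ t := by
      have h1 : Real.log (y : ℝ) ^ 3 ≤ (3 * Real.log t) ^ 3 :=
        pow_le_pow_left₀ hlogy0.le hlogyup 3
      have h2 : (3 * Real.log t) ^ 3 = 27 * Real.log t ^ 3 := by ring
      rw [h2] at h1
      linarith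
    have hc4 : t ≤ c₂ * y / Real.log y := by
      rw [le_div_iff₀ hlogy0]
      have h1 : Real.log (y : ℝ) ≤ c₂ * t := by linarith
      have h2 : t * Real.log (y : ℝ) ≤ t * (c₂ * t) := mul_le_mul_of_nonneg_left h1 htpos.le
      have h3 : c₂ * t ^ 2 ≤ c₂ * y := mul_le_mul_of_nonneg_left hyge hc₂.le
      nlinarith
    obtain ⟨D, hD1, hD2, hD3, hD4⟩ := hcore y hyy₀ τ hτ1 hc3 hc4
    refine ⟨D, hD1, hD2, hD3, ?_⟩
    intro ρ
    obtain ⟨T, hT1, hT2, hT3⟩ := hD4 ρ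
    exact ⟨T, hT1, fun i => (hT2 i).trans (MM_dvd_of_le hyY), hT3⟩

end Crest.Agent.Egypt
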