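import Crest.Agent.Lib.EgyptPhase3

set_option autoImplicit false

namespace Crest.Agent.Egypt

open Finset

/-- Numeric part of a step of phase II. -/
lemma phase2_step {Y b A N k cabs : ℕ} {τ₀ τ₁ τm τM : ℝ}
    (P : Params Y b A N k cabs τ₀ τ₁ τm τM) {c f U R : ℕ} {x : ℝ}
    (hU1 : 147 * 2 ^ Y * MM Y ≤ U) (hU2 : N = U * 2 ^ R) (hRA : R ≤ A) (hUc : U < c)
    (hf : f ≤ Y) (hfA : f ≤ A) (hx : 2 * Real.log τ₁ ≤ x) (hcx : (c : ℝ) * Real.exp x ≤ N) :
    ∃ (n c₁ : ℕ) (W : Finset ℕ), 0 < n ∧ padicValNat 3 n = 0 ∧ W.card ≤ 49 ∧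
      (∀ m ∈ W, 0 < m ∧ padicValNat 3 m + 1 = padicValNat 3 N ∧
        padicValNat 2 m + f = padicValNat 2 N) ∧
      ((c₁ : ℚ) / N < 1 / n) ∧ ((c₁ : ℝ) * Real.exp (nxt (Real.log τm) x) ≤ N) ∧
      (1 / (n : ℚ) + ∑ m ∈ W, (1 : ℚ) / (m : ℚ) + (c₁ : ℚ) / N = (c : ℚ) / N) := by
  have hτ₁pos : 0 < τ₁ := window_pos P.h1
  have hτmpos : 0 < τm := lt_of_lt_of_le hτ₁pos P.h3
  have hlogτ₁ := log_two_pow_two_hundred P.h1
  have hlog2 := Real.log_pos (by norm_num : (1 : ℝ) < 2)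
  have hlogm : Real.log τ₁ ≤ Real.log τm := Real.log_le_log hτ₁pos P.h3
  have hNpos := NN_pos P.hb P.hN
  have hNR : (0 : ℝ) < N := by exact_mod_cast hNpos
  have hcpos : 0 < c := lt_of_le_of_lt (Nat.zero_le _) hUc
  have hcR : (0 : ℝ) < c := by exact_mod_cast hcpos
  -- the scale
  obtain ⟨t, htdef⟩ : ∃ t, t = min (x / 2) (Real.log τm) := ⟨_, rfl⟩
  have ht1 : Real.log τ₁ ≤ t := by rw [htdef]; exact le_min (by linarith) hlogm
  have ht2 : t ≤ x / 2 := by rw [htdef]; exact min_le_left _ _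
  have ht3 : t ≤ Real.log τm := by rw [htdef]; exact min_le_right _ _
  obtain ⟨τ, hτdef⟩ : ∃ τ, τ = Real.exp t := ⟨_, rfl⟩
  have hτpos : 0 < τ := hτdef ▸ Real.exp_pos _
  have hτ₁τ : τ₁ ≤ τ := by
    rw [hτdef, ← Real.exp_log hτ₁pos]; exact Real.exp_le_exp.mpr ht1
  have hτm : τ ≤ τm := by
    rw [hτdef, ← Real.exp_log hτmpos]; exact Real.exp_le_exp.mpr ht3
  have hτ200 : (2 : ℝ) ^ 200 ≤ τ := P.h1.trans hτ₁τ
  have h2200 : (1 : ℝ) ≤ 2 ^ 200 := one_le_pow₀ (by norm_num)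
  have hτ1 : 1 ≤ τ := h2200.trans hτ200
  have hτsq : τ * τ ≤ Real.exp x := by
    rw [hτdef, ← Real.exp_add]; exact Real.exp_le_exp.mpr (by linarith)
  -- `s = N/c`
  obtain ⟨s, hsdef⟩ : ∃ s : ℝ, s = N / c := ⟨_, rfl⟩
  have hsc : s * c = N := by rw [hsdef]; field_simp
  have hsx : Real.exp x ≤ s := by
    rw [hsdef, le_div_iff₀ hcR]; linarith
  obtain ⟨g, hgdef⟩ : ∃ g : ℝ, g = s / τ := ⟨_, rfl⟩
  have hgτ : g * τ = s := by rw [hgdef]; field_simp
  have hg1 : τ ≤ g := by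
    rw [hgdef, le_div_iff₀ hτpos]; linarith
  have hg2 : g ≤ s := by
    rw [hgdef]; exact div_le_self (le_trans (Real.exp_pos _).le hsx) hτ1
  obtain ⟨e, he1, he2⟩ := exists_dyadic (hτ1.trans hg1)
  have hgpos : 0 < g := lt_of_lt_of_le hτpos hg1
  have h2epos : (0 : ℝ) < 2 ^ e := by positivity
  -- `e ≤ A`
  have heA : e ≤ A := by
    have h1 : s < 2 ^ R := by
      have hUR : (U : ℝ) * 2 ^ R = N := by exact_mod_cast hU2.symm
      have hUlt : (U : ℝ) < c := by exact_mod_cast hUc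
      have h2R : (0 : ℝ) < 2 ^ R := by positivity
      rw [hsdef, div_lt_iff₀ hcR, ← hUR, mul_comm]
      exact mul_lt_mul_of_pos_left hUlt h2R
    have h2 : (2 : ℝ) ^ e < 2 ^ R := lt_of_le_of_lt he1 (lt_of_le_of_lt hg2 h1)
    have := (pow_lt_pow_iff_right₀ (by norm_num : (1 : ℝ) < 2)).mp h2
    omega
  -- the window
  obtain ⟨X, hXdef⟩ : ∃ X : ℝ, X = s / 2 ^ e := ⟨_, rfl⟩
  have hX2e : X * 2 ^ e = s := by rw [hXdef]; field_simp
  have hτX : τ ≤ X := by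
    rw [hXdef, le_div_iff₀ h2epos]
    calc τ * 2 ^ e ≤ τ * g := mul_le_mul_of_nonneg_left he1 hτpos.le
      _ = s := by rw [mul_comm]; exact hgτ
  have hX2τ : X ≤ 2 * τ := by
    rw [hXdef, div_le_iff₀ h2epos]
    have h2 : (2 : ℝ) ^ (e + 1) = 2 * 2 ^ e := by ring
    rw [h2] at he2
    rw [← hgτ]
    have : g * τ ≤ (2 * 2 ^ e) * τ := mul_le_mul_of_nonneg_right he2.le hτpos.le
    linarith
  have hX200 : (2 : ℝ) ^ 200 ≤ X := hτ200.trans hτX
  have hXpos : 0 < X := window_pos hX200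
  have hXeq : X * ((c : ℝ) * 2 ^ e) = N := by
    rw [← hsc, ← hX2e]; ring
  have h0 : τ₀ ≤ X := by
    have := P.h2; have := P.hτ₀
    linarith
  obtain ⟨n, c₁, W, hn, hn3, hW, hWm, hc₁n, hc₁X, hsum⟩ := step2 P.hG P.hb P.hN (c := c) (e := e)
    (f := f) (x := X) heA hf hfA (hU1.trans hUc.le) hXeq hX200 h0
    (by have := P.h4; linarith)
  refine ⟨n, c₁, W, hn, hn3, hW, hWm, hc₁n, ?_, hsum⟩
  -- the size estimate
  have hc₁τ : (c₁ : ℝ) * Real.exp (t * ((3 : ℝ) / 100)) ≤ 2 * c := by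
    refine le_trans (mul_le_mul_of_nonneg_left ?_ (Nat.cast_nonneg _)) hc₁X
    rw [Real.exp_mul, ← hτdef]
    exact Real.rpow_le_rpow hτpos.le hτX (by norm_num)
  have ht0 : 100 * Real.log 2 ≤ t := by linarith
  have hmin : min x (Real.log τm) ≤ 2 * t := by
    have hnn : 0 ≤ Real.log τm := by linarith
    rcases min_cases (x / 2) (Real.log τm) with ⟨h1, _⟩ | ⟨h1, _⟩
    · rw [htdef, h1]; exact (min_le_left _ _).trans (by linarith)
    · rw [htdef, h1]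
      refine (min_le_right _ _).trans ?_
      linarith
  have hexp1 : Real.exp (nxt (Real.log τm) x) * 2 ≤ Real.exp x * Real.exp (t * ((3 : ℝ) / 100)) := by
    rw [← Real.exp_add]
    have h2 : (2 : ℝ) = Real.exp (Real.log 2) := (Real.exp_log (by norm_num)).symm
    nth_rw 1 [h2]
    rw [← Real.exp_add]
    apply Real.exp_le_exp.mpr
    unfold nxt
    linarith
  have hc₁nn : (0 : ℝ) ≤ c₁ := Nat.cast_nonneg _
  have hfin : (c₁ : ℝ) * Real.exp (nxt (Real.log τm) x) * 2 ≤ N * 2 := by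
    calc (c₁ : ℝ) * Real.exp (nxt (Real.log τm) x) * 2
        = (c₁ : ℝ) * (Real.exp (nxt (Real.log τm) x) * 2) := by ring
      _ ≤ (c₁ : ℝ) * (Real.exp x * Real.exp (t * ((3 : ℝ) / 100))) :=
          mul_le_mul_of_nonneg_left hexp1 hc₁nn
      _ = ((c₁ : ℝ) * Real.exp (t * ((3 : ℝ) / 100))) * Real.exp x := by ring
      _ ≤ (2 * c) * Real.exp x := mul_le_mul_of_nonneg_right hc₁τ (Real.exp_pos _).le
      _ = 2 * ((c : ℝ) * Real.exp x) := by ring
      _ ≤ N * 2 := by linarith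
  linarith

/-- Phase II of the algorithm. -/
lemma claim2 {Y b A N k cabs : ℕ} {τ₀ τ₁ τm τM : ℝ}
    (P : Params Y b A N k cabs τ₀ τ₁ τm τM) {U R B : ℕ}
    (hU1 : 147 * 2 ^ Y * MM Y ≤ U) (hU2 : N = U * 2 ^ R) (hRA : R ≤ A) (hYA : Y ≤ A)
    (hIII : ∀ c : ℕ, c ≤ U → ∃ S : Finset ℕ, S.card ≤ B ∧
      (∀ m ∈ S, 0 < m ∧ padicValNat 3 N ≤ padicValNat 3 m) ∧
      ∑ m ∈ S, (1 : ℚ) / (m : ℚ) = (c : ℚ) / N) (i : ℕ) :
    ∀ (c f : ℕ) (x : ℝ), 2 * Real.log τ₁ ≤ x → (c : ℝ) * Real.exp x ≤ N → f + i ≤ Y →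
      (R : ℝ) * Real.log 2 ≤ (nxt (Real.log τm))^[i] x →
      ∃ S : Finset ℕ, S.card ≤ 50 * i + B ∧
        (∀ m ∈ S, 0 < m ∧ (padicValNat 3 m + 1 = padicValNat 3 N →
          padicValNat 2 m + f ≤ padicValNat 2 N)) ∧
        ∑ m ∈ S, (1 : ℚ) / (m : ℚ) = (c : ℚ) / N := by
  classical
  have hτ₁pos : 0 < τ₁ := window_pos P.h1
  have hlogτ₁ := log_two_pow_two_hundred P.h1
  have hlog2 := Real.log_pos (by norm_num : (1 : ℝ) < 2)
  have hlogm : 0 ≤ Real.log τm := by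
    have := Real.log_le_log hτ₁pos P.h3
    linarith
  have hNpos := NN_pos P.hb P.hN
  have hv3 := two_le_val3 P.hb P.hN
  have small : ∀ (c f i : ℕ), c ≤ U → ∃ S : Finset ℕ, S.card ≤ 50 * i + B ∧
        (∀ m ∈ S, 0 < m ∧ (padicValNat 3 m + 1 = padicValNat 3 N →
          padicValNat 2 m + f ≤ padicValNat 2 N)) ∧
        ∑ m ∈ S, (1 : ℚ) / (m : ℚ) = (c : ℚ) / N := by
    intro c f i hc
    obtain ⟨S, h1, h2, h3⟩ := hIII c hc
    refine ⟨S, by omega, ?_, h3⟩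
    intro m hm
    obtain ⟨h4, h5⟩ := h2 m hm
    exact ⟨h4, fun h => by omega⟩
  induction i with
  | zero =>
    intro c f x hx hcx hf hT
    by_cases hcU : c ≤ U
    · exact small c f 0 hcU
    · exfalso
      push Not at hcU
      simp only [Function.iterate_zero, id_eq] at hT
      have h1 : (2 : ℝ) ^ R ≤ Real.exp x := by
        have h2 : Real.exp ((R : ℝ) * Real.log 2) = 2 ^ R := by
          rw [Real.exp_nat_mul, Real.exp_log (by norm_num)]
        rw [← h2]; exact Real.exp_le_exp.mpr hT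
      have h3 : (c : ℝ) * 2 ^ R ≤ N :=
        le_trans (mul_le_mul_of_nonneg_left h1 (Nat.cast_nonneg _)) hcx
      have h4 : c * 2 ^ R ≤ U * 2 ^ R := by
        rw [← hU2]; exact_mod_cast h3
      have h5 := Nat.le_of_mul_le_mul_right h4 (by positivity)
      omega
  | succ i ih =>
    intro c f x hx hcx hf hT
    by_cases hcU : c ≤ U
    · exact small c f (i + 1) hcU
    · push Not at hcU
      obtain ⟨n, c₁, W, hn, hn3, hW, hWm, hc₁n, hc₁x, hsum⟩ := phase2_step P (f := f) (x := x)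
        hU1 hU2 hRA hcU (by omega) (by omega) hx hcx
      rw [Function.iterate_succ_apply] at hT
      have hxnxt : x ≤ nxt (Real.log τm) x := le_nxt hlogm (by linarith)
      obtain ⟨S₁, hS₁, hS₁m, hS₁sum⟩ := ih c₁ (f + 1) (nxt (Real.log τm) x) (by linarith) hc₁x
        (by omega) hT
      have hNq : (0 : ℚ) < N := by exact_mod_cast hNpos
      have hdisj : Disjoint W S₁ := by
        rw [Finset.disjoint_left]
        intro m hm hm1
        obtain ⟨_, h5, h6⟩ := hWm m hm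
        obtain ⟨_, h8⟩ := hS₁m m hm1
        have := h8 h5
        omega
      have hnW : n ∉ W ∪ S₁ := by
        intro hmem
        rcases Finset.mem_union.mp hmem with h | h
        · obtain ⟨_, h5, _⟩ := hWm n h
          omega
        · have h1 : (1 : ℚ) / (n : ℚ) ≤ ∑ m ∈ S₁, (1 : ℚ) / (m : ℚ) :=
            Finset.single_le_sum (f := fun m : ℕ => (1 : ℚ) / (m : ℚ))
              (fun m _ => by positivity) h
          rw [hS₁sum] at h1
          linarith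
      refine ⟨insert n (W ∪ S₁), ?_, ?_, ?_⟩
      · refine (Finset.card_insert_le _ _).trans ?_
        have h1 := Finset.card_union_le W S₁
        have : 50 * (i + 1) + B = 50 + (50 * i + B) := by ring
        omega
      · intro m hm
        rcases Finset.mem_insert.mp hm with rfl | hm
        · exact ⟨hn, fun h => by omega⟩
        · rcases Finset.mem_union.mp hm with hm | hm
          · obtain ⟨h4, h5, h6⟩ := hWm m hm
            exact ⟨h4, fun _ => by omega⟩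
          · obtain ⟨h4, h5⟩ := hS₁m m hm
            exact ⟨h4, fun h => by have := h5 h; omega⟩
      · rw [Finset.sum_insert hnW, Finset.sum_union hdisj, hS₁sum, ← hsum]
        ring

/-! ### Growth of `nxt` -/

lemma iterate_nxt_ge_min {ℓ x : ℝ} (hℓ : 0 ≤ ℓ) (hx : 0 ≤ x) (i : ℕ) :
    min ℓ (x * (101 / 100 : ℝ) ^ i) ≤ (nxt ℓ)^[i] x := by
  induction i with
  | zero => simp
  | succ i ih =>
    rw [Function.iterate_succ_apply']
    obtain ⟨y, hy⟩ : ∃ y, y = (nxt ℓ)^[i] x := ⟨_, rfl⟩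
    rw [← hy] at ih ⊢
    have hy0 : 0 ≤ y := hy ▸ hx.trans (le_iterate_nxt hℓ hx i)
    have hynxt : y ≤ nxt ℓ y := le_nxt hℓ hy0
    by_cases h : ℓ ≤ y
    · exact (min_le_left _ _).trans (h.trans hynxt)
    · push Not at h
      have h1 : x * (101 / 100 : ℝ) ^ i ≤ y := by
        rcases min_choice ℓ (x * (101 / 100 : ℝ) ^ i) with h2 | h2
        · rw [h2] at ih; linarith
        · rw [h2] at ih; exact ih
      have h3 : nxt ℓ y = y * (101 / 100) := by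
        unfold nxt
        rw [min_eq_left h.le]; ring
      rw [h3]
      refine (min_le_right _ _).trans ?_
      rw [pow_succ, ← mul_assoc]
      exact mul_le_mul_of_nonneg_right h1 (by norm_num)

lemma iterate_nxt_linear {ℓ y : ℝ} (hℓ : 0 ≤ ℓ) (hy : ℓ ≤ y) (j : ℕ) :
    ℓ + j * (ℓ / 100) ≤ (nxt ℓ)^[j] y := by
  induction j with
  | zero => simpa using hy
  | succ j ih =>
    rw [Function.iterate_succ_apply']
    obtain ⟨z, hz⟩ : ∃ z, z = (nxt ℓ)^[j] y := ⟨_, rfl⟩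
    rw [← hz] at ih ⊢
    have hz0 : ℓ ≤ z := by
      have : (0 : ℝ) ≤ j * (ℓ / 100) := by positivity
      linarith
    unfold nxt
    rw [min_eq_right hz0]
    push_cast
    linarith

/-- Number of steps needed: exponential growth up to `ℓ`, then linear. -/
lemma iterate_nxt_ge {ℓ x T : ℝ} (hℓ : 1 ≤ ℓ) (hx : 1 ≤ x) (n₁ n₂ : ℕ)
    (h1 : 101 * Real.log ℓ ≤ n₁) (h2 : 100 * T / ℓ ≤ n₂) :
    T ≤ (nxt ℓ)^[n₂ + n₁] x := by
  have hℓ0 : 0 < ℓ := by linarith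
  rw [Function.iterate_add_apply]
  have h3 : ℓ ≤ (101 / 100 : ℝ) ^ n₁ := by
    have h4 : (1 : ℝ) / 101 ≤ Real.log (101 / 100) := by
      have := Real.one_sub_inv_le_log_of_pos (by norm_num : (0 : ℝ) < 101 / 100)
      norm_num at this ⊢
      linarith
    have h5 : Real.log ℓ ≤ Real.log ((101 / 100 : ℝ) ^ n₁) := by
      rw [Real.log_pow]
      have h6 : (0 : ℝ) ≤ n₁ := Nat.cast_nonneg _
      nlinarith
    exact (Real.log_le_log_iff hℓ0 (by positivity)).mp h5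
  have h7 : ℓ ≤ (nxt ℓ)^[n₁] x := by
    have h8 := iterate_nxt_ge_min hℓ0.le (by linarith : 0 ≤ x) n₁
    refine le_trans ?_ h8
    apply le_min le_rfl
    have h9 : (1 : ℝ) ≤ (101 / 100 : ℝ) ^ n₁ := one_le_pow₀ (by norm_num)
    nlinarith
  have h10 := iterate_nxt_linear hℓ0.le h7 n₂
  refine le_trans ?_ h10
  rw [div_le_iff₀ hℓ0] at h2
  have : (0 : ℝ) ≤ n₂ := Nat.cast_nonneg _
  nlinarith

end Crest.Agent.Egypt
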