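import Crest.Agent.Lib.EgyptStep

set_option autoImplicit false

namespace Crest.Agent.Egypt

open Finset

/-! ### Binary digits -/

lemma bits (k c : ℕ) (hc : c < 2 ^ k) : ∃ J : Finset ℕ, J ⊆ Finset.range k ∧ ∑ j ∈ J, 2 ^ j = c := by
  induction k generalizing c with
  | zero =>
    refine ⟨∅, by simp, ?_⟩
    have : c = 0 := by simpa using hc
    simp [this]
  | succ k ih =>
    by_cases h : c < 2 ^ k
    · obtain ⟨J, hJ, hs⟩ := ih c h
      exact ⟨J, hJ.trans (Finset.range_subset_range.mpr (Nat.le_succ k)), hs⟩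
    · have h2 : c - 2 ^ k < 2 ^ k := by
        rw [pow_succ] at hc; omega
      obtain ⟨J, hJ, hs⟩ := ih (c - 2 ^ k) h2
      have hk : k ∉ J := fun hk => by simpa using hJ hk
      refine ⟨insert k J, ?_, ?_⟩
      · intro j hj
        rcases Finset.mem_insert.mp hj with rfl | hj
        · simp
        · have := Finset.mem_range.mp (hJ hj)
          exact Finset.mem_range.mpr (by omega)
      · rw [Finset.sum_insert hk, hs]; omega

/-- Binary expansion of `q / 2^J`. -/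
lemma binary_expansion (J q : ℕ) (hq : q < 2 ^ J) :
    ∃ K : Finset ℕ, K ⊆ Finset.Icc 1 J ∧ ∑ k ∈ K, (1 : ℚ) / ((2 ^ k : ℕ) : ℚ) = (q : ℚ) / ((2 ^ J : ℕ) : ℚ) := by
  classical
  obtain ⟨J', hJ', hs⟩ := bits J q hq
  refine ⟨J'.image (fun j => J - j), ?_, ?_⟩
  · intro k hk
    obtain ⟨j, hj, rfl⟩ := Finset.mem_image.mp hk
    have := Finset.mem_range.mp (hJ' hj)
    exact Finset.mem_Icc.mpr ⟨by omega, by omega⟩
  · rw [Finset.sum_image]
    · rw [← hs]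
      push_cast
      rw [Finset.sum_div]
      apply Finset.sum_congr rfl
      intro j hj
      have hj2 := Finset.mem_range.mp (hJ' hj)
      have : (2 : ℚ) ^ J = 2 ^ (J - j) * 2 ^ j := by
        rw [← pow_add]; congr 1; omega
      rw [this]
      field_simp
    · intro i hi j hj hij
      have h1 := Finset.mem_range.mp (hJ' hi)
      have h2 := Finset.mem_range.mp (hJ' hj)
      simp only at hij
      omega

lemma one_div_of_mul_eq {m d N : ℕ} (hm : 0 < m) (hN : 0 < N) (h : m * d = N) :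
    (1 : ℚ) / (m : ℚ) = (d : ℚ) / (N : ℚ) := by
  have hm' : (m : ℚ) ≠ 0 := by exact_mod_cast hm.ne'
  have hN' : (N : ℚ) ≠ 0 := by exact_mod_cast hN.ne'
  have : (m : ℚ) * d = N := by exact_mod_cast h
  field_simp
  linarith

/-- **Phase IV**: small numerators are written with binary digits. -/
lemma phase4 {Y b A N k c : ℕ} (hb : 0 < b) (hN : N = 45 * b * MM Y * 2 ^ A) (hk : k ≤ A)
    (hA : 3 ≤ A) (hc : c < 2 ^ k) :
    ∃ S : Finset ℕ, S.card ≤ k + 3 ∧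
      (∀ m ∈ S, 0 < m ∧ padicValNat 3 N ≤ padicValNat 3 m ∧
        (padicValNat 5 N ≤ padicValNat 5 m → padicValNat 2 N ≤ padicValNat 2 m + 2)) ∧
      ∑ m ∈ S, (1 : ℚ) / (m : ℚ) = (c : ℚ) / N := by
  classical
  have hNpos := NN_pos hb hN
  obtain ⟨J₁, hJ₁, hs₁⟩ := bits k (c / 5) (lt_of_le_of_lt (Nat.div_le_self _ _) hc)
  obtain ⟨J₀, hJ₀, hs₀⟩ := bits 3 (c % 5) (by have := Nat.mod_lt c (by norm_num : 5 > 0); omega)
  -- terms
  have hd₁ : ∀ j, j ≤ A → ∃ Q, Q * (5 * 2 ^ j) = N := by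
    intro j hj
    obtain ⟨s, rfl⟩ := Nat.exists_eq_add_of_le hj
    refine ⟨9 * b * MM Y * 2 ^ s, ?_⟩
    rw [hN, pow_add]; ring
  have hd₀ : ∀ j, j ≤ A → ∃ Q, Q * 2 ^ j = N := by
    intro j hj
    obtain ⟨s, rfl⟩ := Nat.exists_eq_add_of_le hj
    refine ⟨45 * b * MM Y * 2 ^ s, ?_⟩
    rw [hN, pow_add]; ring
  let t₁ : ℕ → ℕ := fun j => N / (5 * 2 ^ j)
  let t₀ : ℕ → ℕ := fun j => N / 2 ^ j
  have ht₁ : ∀ j, j ≤ A → t₁ j * (5 * 2 ^ j) = N := by
    intro j hj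
    obtain ⟨Q, hQ⟩ := hd₁ j hj
    exact Nat.div_mul_cancel ⟨Q, by rw [← hQ]; ring⟩
  have ht₀ : ∀ j, j ≤ A → t₀ j * 2 ^ j = N := by
    intro j hj
    obtain ⟨Q, hQ⟩ := hd₀ j hj
    exact Nat.div_mul_cancel ⟨Q, by rw [← hQ]; ring⟩
  have ht₁pos : ∀ j, j ≤ A → 0 < t₁ j := by
    intro j hj
    rcases Nat.eq_zero_or_pos (t₁ j) with h0 | h0
    · have := ht₁ j hj; rw [h0, zero_mul] at this; omega
    · exact h0
  have ht₀pos : ∀ j, j ≤ A → 0 < t₀ j := by
    intro j hj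
    rcases Nat.eq_zero_or_pos (t₀ j) with h0 | h0
    · have := ht₀ j hj; rw [h0, zero_mul] at this; omega
    · exact h0
  have hJ₁A : ∀ j ∈ J₁, j ≤ A := fun j hj => by
    have := Finset.mem_range.mp (hJ₁ hj); omega
  have hJ₀A : ∀ j ∈ J₀, j ≤ A := fun j hj => by
    have := Finset.mem_range.mp (hJ₀ hj); omega
  have hJ₀2 : ∀ j ∈ J₀, j ≤ 2 := fun j hj => by
    have := Finset.mem_range.mp (hJ₀ hj); omega
  -- valuations
  have p5 : ∀ j, padicValNat 5 (2 ^ j) = 0 := fun j =>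
    padicValNat.eq_zero_of_not_dvd (fun hd => by
      have := ((by norm_num : Nat.Prime 5).dvd_of_dvd_pow hd); omega)
  have p3 : ∀ j, padicValNat 3 (2 ^ j) = 0 := fun j =>
    padicValNat.eq_zero_of_not_dvd (fun hd => by
      have := (Nat.prime_three.dvd_of_dvd_pow hd); omega)
  have v₁ : ∀ j, j ≤ A → padicValNat 3 (t₁ j) = padicValNat 3 N ∧
      padicValNat 5 (t₁ j) + 1 = padicValNat 5 N := by
    intro j hj
    have e3 := congrArg (padicValNat 3) (ht₁ j hj)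
    have e5 := congrArg (padicValNat 5) (ht₁ j hj)
    rw [padicValNat.mul (ht₁pos j hj).ne' (by positivity), padicValNat.mul (by norm_num) (by positivity),
      p3] at e3
    rw [padicValNat.mul (ht₁pos j hj).ne' (by positivity), padicValNat.mul (by norm_num) (by positivity),
      p5, padicValNat_self] at e5
    have : padicValNat 3 5 = 0 := padicValNat.eq_zero_of_not_dvd (by norm_num)
    exact ⟨by omega, by omega⟩
  have v₀ : ∀ j, j ≤ A → padicValNat 3 (t₀ j) = padicValNat 3 N ∧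
      padicValNat 5 (t₀ j) = padicValNat 5 N ∧ padicValNat 2 (t₀ j) + j = padicValNat 2 N := by
    intro j hj
    have e3 := congrArg (padicValNat 3) (ht₀ j hj)
    have e5 := congrArg (padicValNat 5) (ht₀ j hj)
    have e2 := congrArg (padicValNat 2) (ht₀ j hj)
    rw [padicValNat.mul (ht₀pos j hj).ne' (by positivity), p3] at e3
    rw [padicValNat.mul (ht₀pos j hj).ne' (by positivity), p5] at e5
    rw [padicValNat.mul (ht₀pos j hj).ne' (by positivity), padicValNat.prime_pow] at e2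
    exact ⟨by omega, by omega, by omega⟩
  have hinj₁ : Set.InjOn t₁ (J₁ : Set ℕ) := by
    intro i hi j hj hij
    have h1 := ht₁ i (hJ₁A i hi)
    have h2 := ht₁ j (hJ₁A j hj)
    rw [hij] at h1
    have h3 : t₁ j * (5 * 2 ^ i) = t₁ j * (5 * 2 ^ j) := by rw [h1, h2]
    have h4 := Nat.eq_of_mul_eq_mul_left (ht₁pos j (hJ₁A j hj)) h3
    have h5 : 2 ^ i = 2 ^ j := by omega
    exact Nat.pow_right_injective (le_refl 2) h5
  have hinj₀ : Set.InjOn t₀ (J₀ : Set ℕ) := by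
    intro i hi j hj hij
    have h1 := ht₀ i (hJ₀A i hi)
    have h2 := ht₀ j (hJ₀A j hj)
    rw [hij] at h1
    have h3 : t₀ j * 2 ^ i = t₀ j * 2 ^ j := by rw [h1, h2]
    have h4 := Nat.eq_of_mul_eq_mul_left (ht₀pos j (hJ₀A j hj)) h3
    exact Nat.pow_right_injective (le_refl 2) h4
  have hdisj : Disjoint (J₁.image t₁) (J₀.image t₀) := by
    rw [Finset.disjoint_left]
    intro m hm1 hm0
    obtain ⟨i, hi, rfl⟩ := Finset.mem_image.mp hm1
    obtain ⟨j, hj, hij⟩ := Finset.mem_image.mp hm0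
    have h1 := (v₁ i (hJ₁A i hi)).2
    have h2 := (v₀ j (hJ₀A j hj)).2.1
    rw [hij] at h2
    omega
  refine ⟨J₁.image t₁ ∪ J₀.image t₀, ?_, ?_, ?_⟩
  · refine (Finset.card_union_le _ _).trans ?_
    have h1 : (J₁.image t₁).card ≤ k := Finset.card_image_le.trans
      ((Finset.card_le_card hJ₁).trans (by simp))
    have h2 : (J₀.image t₀).card ≤ 3 := Finset.card_image_le.trans
      ((Finset.card_le_card hJ₀).trans (by simp))
    omega
  · intro m hm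
    rcases Finset.mem_union.mp hm with hm | hm
    · obtain ⟨i, hi, rfl⟩ := Finset.mem_image.mp hm
      have h1 := v₁ i (hJ₁A i hi)
      exact ⟨ht₁pos i (hJ₁A i hi), by omega, fun h => by omega⟩
    · obtain ⟨i, hi, rfl⟩ := Finset.mem_image.mp hm
      have h1 := v₀ i (hJ₀A i hi)
      have h2 := hJ₀2 i hi
      exact ⟨ht₀pos i (hJ₀A i hi), by omega, fun h => by omega⟩
  · rw [Finset.sum_union hdisj, Finset.sum_image hinj₁, Finset.sum_image hinj₀]
    have s₁ : ∑ j ∈ J₁, (1 : ℚ) / (t₁ j : ℚ) = (5 * ((c / 5 : ℕ) : ℚ)) / N := by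
      rw [← hs₁]
      push_cast
      rw [Finset.mul_sum, Finset.sum_div]
      apply Finset.sum_congr rfl
      intro j hj
      rw [one_div_of_mul_eq (ht₁pos j (hJ₁A j hj)) hNpos (ht₁ j (hJ₁A j hj))]
      push_cast
      ring
    have s₀ : ∑ j ∈ J₀, (1 : ℚ) / (t₀ j : ℚ) = ((c % 5 : ℕ) : ℚ) / N := by
      rw [← hs₀]
      push_cast
      rw [Finset.sum_div]
      apply Finset.sum_congr rfl
      intro j hj
      rw [one_div_of_mul_eq (ht₀pos j (hJ₀A j hj)) hNpos (ht₀ j (hJ₀A j hj))]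
      push_cast
      ring
    rw [s₁, s₀, ← add_div]
    congr 1
    have : 5 * (c / 5) + c % 5 = c := Nat.div_add_mod c 5
    exact_mod_cast this

/-! ### The recursion -/

/-- The growth function. -/
noncomputable def nxt (ℓ x : ℝ) : ℝ := x + min x ℓ / 100

lemma le_nxt {ℓ x : ℝ} (hℓ : 0 ≤ ℓ) (hx : 0 ≤ x) : x ≤ nxt ℓ x := by
  unfold nxt
  have : 0 ≤ min x ℓ := le_min hx hℓ
  linarith

lemma le_iterate_nxt {ℓ x : ℝ} (hℓ : 0 ≤ ℓ) (hx : 0 ≤ x) (i : ℕ) : x ≤ (nxt ℓ)^[i] x := by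
  induction i with
  | zero => simp
  | succ i ih =>
    rw [Function.iterate_succ_apply']
    exact ih.trans (le_nxt hℓ (hx.trans ih))

/-- The function governing the size of the multiplier in phase III. -/
noncomputable def gg (τm : ℝ) (c : ℕ) : ℝ := max (√(c : ℝ)) ((c : ℝ) / τm)

lemma gg_half {τm : ℝ} (hτ : 0 < τm) {c₁ c : ℕ} (h : c₁ * 64 ≤ c) : gg τm c₁ * 2 ≤ gg τm c := by
  have hR : (c₁ : ℝ) * 64 ≤ c := by exact_mod_cast h
  have h1 : √(c₁ : ℝ) * 2 ≤ √(c : ℝ) := by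
    apply Real.le_sqrt_of_sq_le
    rw [mul_pow, Real.sq_sqrt (Nat.cast_nonneg _)]
    have : (0 : ℝ) ≤ c₁ := Nat.cast_nonneg _
    nlinarith
  have h2 : (c₁ : ℝ) / τm * 2 ≤ (c : ℝ) / τm := by
    rw [div_mul_eq_mul_div]
    apply div_le_div_of_nonneg_right _ hτ.le
    have : (0 : ℝ) ≤ c₁ := Nat.cast_nonneg _
    nlinarith
  unfold gg
  by_cases hc : √(c₁ : ℝ) ≤ (c₁ : ℝ) / τm
  · rw [max_eq_right hc]; exact h2.trans (le_max_right _ _)
  · rw [max_eq_left (le_of_not_ge hc)]; exact h1.trans (le_max_left _ _)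

/-- A dyadic approximation of a real `g ≥ 1`. -/
lemma exists_dyadic {g : ℝ} (hg : 1 ≤ g) : ∃ e : ℕ, (2 : ℝ) ^ e ≤ g ∧ g < 2 ^ (e + 1) := by
  have h0 : ⌊g⌋₊ ≠ 0 := by
    have : 1 ≤ ⌊g⌋₊ := Nat.le_floor (by simpa using hg)
    omega
  refine ⟨Nat.log 2 ⌊g⌋₊, ?_, ?_⟩
  · have h1 : 2 ^ Nat.log 2 ⌊g⌋₊ ≤ ⌊g⌋₊ := Nat.pow_log_le_self 2 h0
    have h2 : ((2 ^ Nat.log 2 ⌊g⌋₊ : ℕ) : ℝ) ≤ (⌊g⌋₊ : ℝ) := by exact_mod_cast h1
    have h3 : (⌊g⌋₊ : ℝ) ≤ g := Nat.floor_le (by linarith)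
    push_cast at h2
    linarith
  · have h1 : ⌊g⌋₊ < 2 ^ (Nat.log 2 ⌊g⌋₊ + 1) := Nat.lt_pow_succ_log_self (by norm_num) _
    have h2 : ⌊g⌋₊ + 1 ≤ 2 ^ (Nat.log 2 ⌊g⌋₊ + 1) := h1
    have h3 : g < (⌊g⌋₊ : ℝ) + 1 := Nat.lt_floor_add_one g
    have h4 : ((⌊g⌋₊ + 1 : ℕ) : ℝ) ≤ ((2 ^ (Nat.log 2 ⌊g⌋₊ + 1) : ℕ) : ℝ) := by exact_mod_cast h2
    push_cast at h4
    linarith


/-- The fixed parameters of the algorithm. -/
structure Params (Y b A N k cabs : ℕ) (τ₀ τ₁ τm τM : ℝ) : Prop where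
  hG : GoodAt Y τ₀ τM
  hb : 0 < b
  hN : N = 45 * b * MM Y * 2 ^ A
  hτ₀ : 0 ≤ τ₀
  h1 : (2 : ℝ) ^ 200 ≤ τ₁
  h2 : 2 * τ₀ ≤ τ₁
  h3 : τ₁ ≤ τm
  h4 : 4 * τm ≤ τM
  h5 : τ₁ ^ 2 ≤ cabs
  h6 : cabs < 2 ^ k
  h7 : k ≤ A
  h8 : 3 ≤ A

lemma log_two_pow_two_hundred {τ₁ : ℝ} (h : (2 : ℝ) ^ 200 ≤ τ₁) : 100 * Real.log 2 ≤ Real.log τ₁ := by
  have h1 : Real.log ((2 : ℝ) ^ 200) ≤ Real.log τ₁ := Real.log_le_log (by positivity) h
  rw [Real.log_pow] at h1
  have h2 := Real.log_pos (by norm_num : (1 : ℝ) < 2)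
  push_cast at h1
  linarith

lemma phase3_step {Y b A N k cabs : ℕ} {τ₀ τ₁ τm τM : ℝ}
    (P : Params Y b A N k cabs τ₀ τ₁ τm τM) {c E : ℕ} {ψ : ℝ}
    (hψ : 2 * Real.log τ₁ ≤ ψ) (hE : E ≤ A) (hc : cabs < c)
    (hcψ : (c : ℝ) ≤ Real.exp (nxt (Real.log τm) ψ)) (hg : gg τm c < 2 ^ (E + 1)) :
    ∃ (e c₁ : ℕ) (W : Finset ℕ), 3 ≤ e ∧ e ≤ E ∧ W.card ≤ 49 ∧
      (∀ m ∈ W, 0 < m ∧ padicValNat 3 N ≤ padicValNat 3 m ∧ padicValNat 5 N ≤ padicValNat 5 m ∧
        padicValNat 2 m + e = padicValNat 2 N) ∧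
      (c₁ : ℝ) ≤ Real.exp ψ ∧ gg τm c₁ < 2 ^ e ∧
      ∑ m ∈ W, (1 : ℚ) / (m : ℚ) + (c₁ : ℚ) / N = (c : ℚ) / N := by
  have hτ₁pos : 0 < τ₁ := window_pos P.h1
  have hτmpos : 0 < τm := lt_of_lt_of_le hτ₁pos P.h3
  have hcR : τ₁ ^ 2 ≤ c := P.h5.trans (by exact_mod_cast hc.le)
  have hcpos : (0 : ℝ) < c := lt_of_lt_of_le (by positivity) hcR
  have hsq : τ₁ ≤ √(c : ℝ) := (Real.le_sqrt' hτ₁pos).mpr hcR
  have hsqsq : √(c : ℝ) * √(c : ℝ) = c := Real.mul_self_sqrt hcpos.le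
  obtain ⟨g, hgdef⟩ : ∃ g, g = gg τm c := ⟨_, rfl⟩
  have hg1 : √(c : ℝ) ≤ g := by rw [hgdef]; exact le_max_left _ _
  have hg2 : (c : ℝ) / τm ≤ g := by rw [hgdef]; exact le_max_right _ _
  rw [← hgdef] at hg
  have h2200 : (1 : ℝ) ≤ 2 ^ 200 := one_le_pow₀ (by norm_num)
  have hgge : (2 : ℝ) ^ 200 ≤ g := P.h1.trans (hsq.trans hg1)
  have hgpos : 0 < g := lt_of_lt_of_le (by positivity) hgge
  obtain ⟨e, he1, he2⟩ := exists_dyadic (h2200.trans hgge)
  have heE : e ≤ E := by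
    have : (2 : ℝ) ^ e < 2 ^ (E + 1) := lt_of_le_of_lt he1 hg
    have := (pow_lt_pow_iff_right₀ (by norm_num : (1 : ℝ) < 2)).mp this
    omega
  have he3 : 3 ≤ e := by
    have : (2 : ℝ) ^ 200 < 2 ^ (e + 1) := lt_of_le_of_lt hgge he2
    have := (pow_lt_pow_iff_right₀ (by norm_num : (1 : ℝ) < 2)).mp this
    omega
  have h2epos : (0 : ℝ) < 2 ^ e := by positivity
  -- the window
  obtain ⟨x, hxdef⟩ : ∃ x : ℝ, x = c / 2 ^ e := ⟨_, rfl⟩
  obtain ⟨τ, hτdef⟩ : ∃ τ : ℝ, τ = c / g := ⟨_, rfl⟩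
  have hτg : τ * g = c := by rw [hτdef]; field_simp
  have hx2e : x * 2 ^ e = c := by rw [hxdef]; field_simp
  have hτx : τ ≤ x := by
    rw [hτdef, hxdef]
    exact div_le_div_of_nonneg_left hcpos.le h2epos he1
  have hx2τ : x ≤ 2 * τ := by
    rw [hτdef, hxdef, mul_div_assoc', div_le_div_iff₀ h2epos hgpos]
    have : (2 : ℝ) ^ (e + 1) = 2 * 2 ^ e := by ring
    rw [this] at he2
    nlinarith
  have hτ₁τ : τ₁ ≤ τ := by
    rw [hτdef, le_div_iff₀ hgpos]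
    rw [hgdef]
    unfold gg
    by_cases h : √(c : ℝ) ≤ (c : ℝ) / τm
    · rw [max_eq_right h, mul_div_assoc', div_le_iff₀ hτmpos]
      exact mul_comm (c : ℝ) τm ▸ mul_le_mul_of_nonneg_right P.h3 hcpos.le
    · rw [max_eq_left (le_of_not_ge h)]
      calc τ₁ * √(c : ℝ) ≤ √(c : ℝ) * √(c : ℝ) :=
            mul_le_mul_of_nonneg_right hsq (Real.sqrt_nonneg _)
        _ = c := hsqsq
  have hτm : τ ≤ τm := by
    rw [hτdef, div_le_iff₀ hgpos]
    rw [div_le_iff₀ hτmpos] at hg2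
    linarith
  have hτ200 : (2 : ℝ) ^ 200 ≤ τ := P.h1.trans hτ₁τ
  have hx200 : (2 : ℝ) ^ 200 ≤ x := hτ200.trans hτx
  have hτpos : 0 < τ := window_pos hτ200
  have hxpos : 0 < x := window_pos hx200
  obtain ⟨c₁, W, hW, hWm, hc₁x, hc₁c, hsum⟩ := step3 P.hG P.hb P.hN (c := c) (e := e) (x := x)
    (heE.trans hE) hx2e hx200 (P.h2.trans (hτ₁τ.trans hτx))
    (hx2τ.trans (by have := P.h4; linarith))
  have hc₁τ : (c₁ : ℝ) * τ ^ ((3 : ℝ) / 100) ≤ c := by
    refine le_trans (mul_le_mul_of_nonneg_left ?_ (Nat.cast_nonneg _)) hc₁x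
    exact Real.rpow_le_rpow hτpos.le hτx (by norm_num)
  have h64 : (2 : ℝ) ^ 6 ≤ τ ^ ((3 : ℝ) / 100) := window_three_pct hτ200
  have hc₁64 : c₁ * 64 ≤ c := by
    have : (c₁ : ℝ) * 64 ≤ c := by
      refine le_trans (mul_le_mul_of_nonneg_left ?_ (Nat.cast_nonneg _)) hc₁τ
      refine le_trans ?_ h64; norm_num
    exact_mod_cast this
  refine ⟨e, c₁, W, he3, heE, hW, hWm, ?_, ?_, hsum⟩
  · -- size of `c₁`
    by_cases hcase : (c : ℝ) ≤ Real.exp ψ
    · exact le_trans (by exact_mod_cast hc₁c) hcase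
    · push Not at hcase
      obtain ⟨t, htdef⟩ : ∃ t, t = min (ψ / 2) (Real.log τm) := ⟨_, rfl⟩
      have hlogτ₁ := log_two_pow_two_hundred P.h1
      have hlog2 := Real.log_pos (by norm_num : (1 : ℝ) < 2)
      have ht1 : Real.log τ₁ ≤ t := by
        rw [htdef]
        exact le_min (by linarith) (Real.log_le_log hτ₁pos P.h3)
      have ht0 : 0 ≤ t := by linarith
      have ht2 : t ≤ ψ / 2 := by rw [htdef]; exact min_le_left _ _
      have ht3 : t ≤ Real.log τm := by rw [htdef]; exact min_le_right _ _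
      have hexpτm : Real.exp t ≤ τm := by
        rw [← Real.exp_log hτmpos]; exact Real.exp_le_exp.mpr ht3
      have hexpsq : Real.exp t ≤ √(c : ℝ) := by
        rw [Real.le_sqrt' (Real.exp_pos _), ← Real.exp_nat_mul]
        refine le_trans (Real.exp_le_exp.mpr ?_) hcase.le
        push_cast
        linarith
      have hexpτ : Real.exp t ≤ τ := by
        rw [hτdef, le_div_iff₀ hgpos, hgdef]
        unfold gg
        by_cases h : √(c : ℝ) ≤ (c : ℝ) / τm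
        · rw [max_eq_right h, mul_div_assoc', div_le_iff₀ hτmpos]
          exact mul_comm (c : ℝ) τm ▸ mul_le_mul_of_nonneg_right hexpτm hcpos.le
        · rw [max_eq_left (le_of_not_ge h)]
          calc Real.exp t * √(c : ℝ) ≤ √(c : ℝ) * √(c : ℝ) :=
                mul_le_mul_of_nonneg_right hexpsq (Real.sqrt_nonneg _)
            _ = c := hsqsq
      have hexp3 : Real.exp (t * ((3 : ℝ) / 100)) ≤ τ ^ ((3 : ℝ) / 100) := by
        rw [Real.exp_mul]
        exact Real.rpow_le_rpow (Real.exp_pos _).le hexpτ (by norm_num)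
      have hmin : min ψ (Real.log τm) / 100 ≤ t * ((3 : ℝ) / 100) := by
        have : min ψ (Real.log τm) ≤ 2 * t := by
          rcases min_cases (ψ / 2) (Real.log τm) with ⟨h1, _⟩ | ⟨h1, _⟩
          · rw [htdef, h1]; exact (min_le_left _ _).trans (by linarith)
          · rw [htdef, h1]
            refine (min_le_right _ _).trans ?_
            have : 0 ≤ Real.log τm := by linarith
            linarith
        linarith
      by_contra hcon
      push Not at hcon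
      have h1 : Real.exp ψ * Real.exp (t * ((3 : ℝ) / 100)) < (c₁ : ℝ) * τ ^ ((3 : ℝ) / 100) :=
        mul_lt_mul hcon hexp3 (Real.exp_pos _) (Nat.cast_nonneg _)
      have h2 : Real.exp (nxt (Real.log τm) ψ) ≤ Real.exp ψ * Real.exp (t * ((3 : ℝ) / 100)) := by
        rw [← Real.exp_add]
        apply Real.exp_le_exp.mpr
        unfold nxt
        linarith
      linarith
  · -- size of `gg`
    have h1 := gg_half hτmpos hc₁64
    rw [← hgdef] at h1
    have h2 : (2 : ℝ) ^ (e + 1) = 2 ^ e * 2 := by ring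
    rw [h2] at he2
    nlinarith

/-- Phase III (and IV): reduce the numerator to zero. -/
lemma claim3 {Y b A N k cabs : ℕ} {τ₀ τ₁ τm τM : ℝ}
    (P : Params Y b A N k cabs τ₀ τ₁ τm τM) (i : ℕ) :
    ∀ (c E : ℕ), 2 ≤ E → E ≤ A →
      (c : ℝ) ≤ Real.exp ((nxt (Real.log τm))^[i] (2 * Real.log τ₁)) →
      (cabs < c → gg τm c < 2 ^ (E + 1)) →
      ∃ S : Finset ℕ, S.card ≤ 49 * i + (k + 3) ∧
        (∀ m ∈ S, 0 < m ∧ padicValNat 3 N ≤ padicValNat 3 m ∧
          (padicValNat 5 N ≤ padicValNat 5 m → padicValNat 2 N ≤ padicValNat 2 m + E)) ∧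
        ∑ m ∈ S, (1 : ℚ) / (m : ℚ) = (c : ℚ) / N := by
  classical
  have hτ₁pos : 0 < τ₁ := window_pos P.h1
  have hlogτ₁ := log_two_pow_two_hundred P.h1
  have hlog2 := Real.log_pos (by norm_num : (1 : ℝ) < 2)
  have hlogm : 0 ≤ Real.log τm := by
    have := Real.log_le_log hτ₁pos P.h3
    linarith
  have small : ∀ (c E : ℕ), 2 ≤ E → c ≤ cabs → ∀ i, ∃ S : Finset ℕ, S.card ≤ 49 * i + (k + 3) ∧
        (∀ m ∈ S, 0 < m ∧ padicValNat 3 N ≤ padicValNat 3 m ∧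
          (padicValNat 5 N ≤ padicValNat 5 m → padicValNat 2 N ≤ padicValNat 2 m + E)) ∧
        ∑ m ∈ S, (1 : ℚ) / (m : ℚ) = (c : ℚ) / N := by
    intro c E hE hc i
    obtain ⟨S, h1, h2, h3⟩ := phase4 (c := c) P.hb P.hN P.h7 P.h8 (lt_of_le_of_lt hc P.h6)
    refine ⟨S, by omega, ?_, h3⟩
    intro m hm
    obtain ⟨h4, h5, h6⟩ := h2 m hm
    exact ⟨h4, h5, fun h => (h6 h).trans (by omega)⟩
  induction i with
  | zero =>
    intro c E hE hEA hc hg
    by_cases hcc : c ≤ cabs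
    · exact small c E hE hcc 0
    · exfalso
      push Not at hcc
      simp only [Function.iterate_zero, id_eq] at hc
      have h1 : Real.exp (2 * Real.log τ₁) = τ₁ ^ 2 := by
        have := Real.exp_nat_mul (Real.log τ₁) 2
        push_cast at this
        rw [this, Real.exp_log hτ₁pos]
      rw [h1] at hc
      have h2 : (c : ℝ) ≤ cabs := hc.trans P.h5
      have h3 : c ≤ cabs := by exact_mod_cast h2
      omega
  | succ i ih =>
    intro c E hE hEA hc hg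
    by_cases hcc : c ≤ cabs
    · exact small c E hE hcc (i + 1)
    · push Not at hcc
      rw [Function.iterate_succ_apply'] at hc
      have hψ : 2 * Real.log τ₁ ≤ (nxt (Real.log τm))^[i] (2 * Real.log τ₁) :=
        le_iterate_nxt hlogm (by linarith) i
      obtain ⟨e, c₁, W, he3, heE, hW, hWm, hc₁, hgg, hsum⟩ :=
        phase3_step P hψ hEA hcc hc (hg hcc)
      obtain ⟨S₁, hS₁, hS₁m, hS₁sum⟩ := ih c₁ (e - 1) (by omega) (by omega) hc₁ (fun _ => by
        have : e - 1 + 1 = e := by omega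
        rw [this]; exact hgg)
      have hdisj : Disjoint W S₁ := by
        rw [Finset.disjoint_left]
        intro m hm hm1
        obtain ⟨_, _, h5, h6⟩ := hWm m hm
        obtain ⟨_, _, h8⟩ := hS₁m m hm1
        have := h8 h5
        omega
      refine ⟨W ∪ S₁, ?_, ?_, ?_⟩
      · refine (Finset.card_union_le _ _).trans ?_
        have : 49 * (i + 1) + (k + 3) = 49 + (49 * i + (k + 3)) := by ring
        omega
      · intro m hm
        rcases Finset.mem_union.mp hm with hm | hm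
        · obtain ⟨h4, h5, h6, h7⟩ := hWm m hm
          exact ⟨h4, h5, fun _ => by omega⟩
        · obtain ⟨h4, h5, h6⟩ := hS₁m m hm
          exact ⟨h4, h5, fun h => by have := h6 h; omega⟩
      · rw [Finset.sum_union hdisj, hS₁sum, hsum]

end Crest.Agent.Egypt
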