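import Crest.Agent.Lib.EgyptDefs

set_option autoImplicit false

namespace Crest.Agent.Egypt

open Finset

/-- What we use of `GoodStmt` at a given level `Y`. -/
def GoodAt (Y : ℕ) (τ₀ τM : ℝ) : Prop :=
  ∀ τ : ℝ, τ₀ ≤ τ → τ ≤ τM →
    ∃ D : ℕ, τ ≤ D ∧ (D : ℝ) ≤ τ + τ ^ ((24 : ℝ) / 25) ∧ Nat.Coprime D 30 ∧
      ∀ ρ : ℤ, ∃ T : Fin 49 → ℕ, Function.Injective T ∧ (∀ i, T i ∣ MM Y) ∧
        ((D : ℤ) ∣ (∑ i, (T i : ℤ)) - ρ)

/-! ### Window facts -/

lemma window_mul {x : ℝ} (hx : 0 < x) :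
    x ^ ((97 : ℝ) / 100) * x ^ ((3 : ℝ) / 100) = x := by
  rw [← Real.rpow_add hx]; norm_num

lemma window_three_pct {x : ℝ} (hx : (2 : ℝ) ^ 200 ≤ x) : (2 : ℝ) ^ 6 ≤ x ^ ((3 : ℝ) / 100) := by
  have h : ((2 : ℝ) ^ 200) ^ ((3 : ℝ) / 100) ≤ x ^ ((3 : ℝ) / 100) :=
    Real.rpow_le_rpow (by positivity) hx (by norm_num)
  refine le_trans (le_of_eq ?_) h
  rw [← Real.rpow_natCast (2 : ℝ) 200, ← Real.rpow_mul (by norm_num), ← Real.rpow_natCast (2 : ℝ) 6]
  norm_num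

lemma window_pow_half {x : ℝ} (hx : (2 : ℝ) ^ 200 ≤ x) : (2 : ℝ) ^ 3 ≤ x ^ ((3 : ℝ) / 200) := by
  have h : ((2 : ℝ) ^ 200) ^ ((3 : ℝ) / 200) ≤ x ^ ((3 : ℝ) / 200) :=
    Real.rpow_le_rpow (by positivity) hx (by norm_num)
  refine le_trans (le_of_eq ?_) h
  rw [← Real.rpow_natCast (2 : ℝ) 200, ← Real.rpow_mul (by norm_num), ← Real.rpow_natCast (2 : ℝ) 3]
  norm_num

lemma window_pos {x : ℝ} (hx : (2 : ℝ) ^ 200 ≤ x) : 0 < x := lt_of_lt_of_le (by positivity) hx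

/-- `x^{97/100} ≥ 1`. -/
lemma window_one_le {x : ℝ} (hx : (2 : ℝ) ^ 200 ≤ x) : 1 ≤ x ^ ((97 : ℝ) / 100) := by
  apply Real.one_le_rpow _ (by norm_num)
  exact le_trans (one_le_pow₀ (by norm_num)) hx

/-- `8 x^{97/100} ≤ x`. -/
lemma window_eight {x : ℝ} (hx : (2 : ℝ) ^ 200 ≤ x) : 8 * x ^ ((97 : ℝ) / 100) ≤ x := by
  have hpos := window_pos hx
  have h1 := window_mul hpos
  have h2 := window_three_pct hx
  have h3 : 0 < x ^ ((97 : ℝ) / 100) := Real.rpow_pos_of_pos hpos _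
  calc 8 * x ^ ((97 : ℝ) / 100) ≤ x ^ ((3 : ℝ) / 100) * x ^ ((97 : ℝ) / 100) := by
        apply mul_le_mul_of_nonneg_right _ h3.le
        refine le_trans ?_ h2; norm_num
    _ = x := by rw [mul_comm]; exact h1

/-- `(2x)^{24/25} ≤ x^{97/100}`. -/
lemma window_two_mul {x : ℝ} (hx : (2 : ℝ) ^ 200 ≤ x) :
    (2 * x) ^ ((24 : ℝ) / 25) ≤ x ^ ((97 : ℝ) / 100) := by
  have hpos := window_pos hx
  rw [Real.mul_rpow (by norm_num) hpos.le]
  have h0 : (97 : ℝ) / 100 = 24 / 25 + 1 / 100 := by norm_num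
  rw [h0, Real.rpow_add hpos, mul_comm]
  apply mul_le_mul_of_nonneg_left _ (Real.rpow_nonneg hpos.le _)
  have h1 : ((2 : ℝ) ^ 200) ^ ((1 : ℝ) / 100) ≤ x ^ ((1 : ℝ) / 100) :=
    Real.rpow_le_rpow (by positivity) hx (by norm_num)
  have h2 : ((2 : ℝ) ^ 200) ^ ((1 : ℝ) / 100) = 2 ^ (2 : ℝ) := by
    rw [← Real.rpow_natCast (2 : ℝ) 200, ← Real.rpow_mul (by norm_num)]; norm_num
  have h3 : (2 : ℝ) ^ ((24 : ℝ) / 25) ≤ 2 ^ (2 : ℝ) :=
    Real.rpow_le_rpow_of_exponent_le (by norm_num) (by norm_num)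
  exact h3.trans (h2 ▸ h1)

/-- Window around `x` from above. -/
lemma good_window_up {Y : ℕ} {τ₀ τM : ℝ} (hG : GoodAt Y τ₀ τM) {x : ℝ} (hx : (2 : ℝ) ^ 200 ≤ x)
    (h0 : τ₀ ≤ x) (hM : 2 * x ≤ τM) :
    ∃ D : ℕ, x + x ^ ((97 : ℝ) / 100) ≤ D ∧ (D : ℝ) ≤ x + 2 * x ^ ((97 : ℝ) / 100) ∧
      Nat.Coprime D 30 ∧
      ∀ ρ : ℤ, ∃ T : Fin 49 → ℕ, Function.Injective T ∧ (∀ i, T i ∣ MM Y) ∧
        ((D : ℤ) ∣ (∑ i, (T i : ℤ)) - ρ) := by
  have hpos := window_pos hx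
  have h8 := window_eight hx
  have h1 := window_one_le hx
  have hw := window_two_mul hx
  obtain ⟨D, hD1, hD2, hD3, hD4⟩ := hG (x + x ^ ((97 : ℝ) / 100)) (by linarith) (by linarith)
  refine ⟨D, hD1, ?_, hD3, hD4⟩
  have : (x + x ^ ((97 : ℝ) / 100)) ^ ((24 : ℝ) / 25) ≤ (2 * x) ^ ((24 : ℝ) / 25) :=
    Real.rpow_le_rpow (by linarith) (by linarith) (by norm_num)
  linarith

/-- Window around `x` from below. -/
lemma good_window_down {Y : ℕ} {τ₀ τM : ℝ} (hG : GoodAt Y τ₀ τM) {x : ℝ} (hx : (2 : ℝ) ^ 200 ≤ x)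
    (h0 : 2 * τ₀ ≤ x) (hM : x ≤ τM) :
    ∃ D : ℕ, x - x ^ ((97 : ℝ) / 100) ≤ D ∧ (D : ℝ) ≤ x ∧
      Nat.Coprime D 30 ∧
      ∀ ρ : ℤ, ∃ T : Fin 49 → ℕ, Function.Injective T ∧ (∀ i, T i ∣ MM Y) ∧
        ((D : ℤ) ∣ (∑ i, (T i : ℤ)) - ρ) := by
  have hpos := window_pos hx
  have h8 := window_eight hx
  have h1 := window_one_le hx
  have hw := window_two_mul hx
  obtain ⟨D, hD1, hD2, hD3, hD4⟩ := hG (x - x ^ ((97 : ℝ) / 100)) (by linarith) (by linarith)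
  refine ⟨D, hD1, ?_, hD3, hD4⟩
  have : (x - x ^ ((97 : ℝ) / 100)) ^ ((24 : ℝ) / 25) ≤ (2 * x) ^ ((24 : ℝ) / 25) :=
    Real.rpow_le_rpow (by linarith) (by linarith) (by norm_num)
  linarith


/-! ### Valuations -/

lemma coprime_of_dvd_MM {T Y : ℕ} (h : T ∣ MM Y) : Nat.Coprime T 30 :=
  Nat.Coprime.coprime_dvd_left h (MM_coprime_thirty Y)

lemma val_zero_of_coprime {p n : ℕ} [hp1 : Fact p.Prime] (hp : p ∣ 30) (h : Nat.Coprime n 30) :
    padicValNat p n = 0 := by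
  apply padicValNat.eq_zero_of_not_dvd
  intro hd
  have : p ∣ Nat.gcd n 30 := Nat.dvd_gcd hd hp
  rw [h] at this
  exact hp1.out.one_lt.ne' (Nat.dvd_one.mp this)

instance fact_prime_five' : Fact (Nat.Prime 5) := ⟨by norm_num⟩

lemma NN_pos {Y b A N : ℕ} (hb : 0 < b) (hN : N = 45 * b * MM Y * 2 ^ A) : 0 < N := by
  subst hN; have := MM_pos Y; positivity

lemma two_le_val3 {Y b A N : ℕ} (hb : 0 < b) (hN : N = 45 * b * MM Y * 2 ^ A) :
    2 ≤ padicValNat 3 N := by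
  have hpos := NN_pos hb hN
  rw [← padicValNat_dvd_iff_le hpos.ne']
  subst hN
  exact ⟨5 * b * MM Y * 2 ^ A, by ring⟩

/-- `2^e * T ∣ N`. -/
lemma dvd_N {Y b A N e T : ℕ} (hN : N = 45 * b * MM Y * 2 ^ A) (he : e ≤ A) (hT : T ∣ MM Y) :
    ∃ Q, Q * (2 ^ e * T) = N := by
  obtain ⟨r, hr⟩ := hT
  obtain ⟨s, rfl⟩ := Nat.exists_eq_add_of_le he
  refine ⟨45 * b * r * 2 ^ s, ?_⟩
  rw [hN, hr, pow_add]; ring

/-- `3 * 2^f * T ∣ N`. -/
lemma dvd_N' {Y b A N e T : ℕ} (hN : N = 45 * b * MM Y * 2 ^ A) (he : e ≤ A) (hT : T ∣ MM Y) :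
    ∃ Q, Q * (3 * 2 ^ e * T) = N := by
  obtain ⟨r, hr⟩ := hT
  obtain ⟨s, rfl⟩ := Nat.exists_eq_add_of_le he
  refine ⟨15 * b * r * 2 ^ s, ?_⟩
  rw [hN, hr, pow_add]; ring

lemma odd_sum_of_dvd_MM {Y : ℕ} (T : Fin 49 → ℕ) (hT : ∀ i, T i ∣ MM Y) : Odd (∑ i, T i) := by
  rw [Finset.odd_sum_iff_odd_card_odd]
  have : (Finset.univ.filter fun i => Odd (T i)) = Finset.univ := by
    apply Finset.filter_true_of_mem
    intro i _
    have h := coprime_of_dvd_MM (hT i)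
    rw [← Nat.not_even_iff_odd]
    intro he
    have h2 : 2 ∣ Nat.gcd (T i) 30 := Nat.dvd_gcd he.two_dvd (by norm_num)
    rw [h] at h2
    omega
  rw [this]
  simp only [Finset.card_univ, Fintype.card_fin]
  decide

lemma pos_of_dvd_MM {Y T : ℕ} (hT : T ∣ MM Y) : 0 < T := Nat.pos_of_dvd_of_pos hT (MM_pos Y)

/-- **Step of phase III**: with `x = c/2^e`, subtract `2^e D` from the numerator. -/
lemma step3 {Y : ℕ} {τ₀ τM : ℝ} (hG : GoodAt Y τ₀ τM) {b A N : ℕ} (hb : 0 < b)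
    (hN : N = 45 * b * MM Y * 2 ^ A) {c e : ℕ} {x : ℝ} (he : e ≤ A)
    (hx : x * 2 ^ e = c) (hx1 : (2 : ℝ) ^ 200 ≤ x) (hx2 : 2 * τ₀ ≤ x) (hx3 : x ≤ τM) :
    ∃ (c₁ : ℕ) (W : Finset ℕ), W.card ≤ 49 ∧
      (∀ m ∈ W, 0 < m ∧ padicValNat 3 N ≤ padicValNat 3 m ∧ padicValNat 5 N ≤ padicValNat 5 m ∧
        padicValNat 2 m + e = padicValNat 2 N) ∧
      (c₁ : ℝ) * x ^ ((3 : ℝ) / 100) ≤ c ∧ c₁ ≤ c ∧
      ∑ m ∈ W, (1 : ℚ) / (m : ℚ) + (c₁ : ℚ) / N = (c : ℚ) / N := by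
  classical
  have hNpos := NN_pos hb hN
  have hxpos := window_pos hx1
  obtain ⟨D, hD1, hD2, hD3, hD4⟩ := good_window_down hG hx1 hx2 hx3
  obtain ⟨T, hTinj, hTdvd, hTD⟩ := hD4 0
  have hTpos : ∀ i, 0 < T i := fun i => pos_of_dvd_MM (hTdvd i)
  -- the sum of the `T i`
  obtain ⟨Sg, hSg⟩ : ∃ Sg : ℕ, Sg = ∑ i, T i := ⟨_, rfl⟩
  have hSgpos : 0 < Sg := hSg ▸ Finset.sum_pos (fun i _ => hTpos i) ⟨0, Finset.mem_univ _⟩
  have hSgodd : Odd Sg := hSg ▸ odd_sum_of_dvd_MM T hTdvd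
  have hDSg : D ∣ Sg := by
    have h1 : (D : ℤ) ∣ (Sg : ℤ) := by
      have : (∑ i, (T i : ℤ)) - 0 = (Sg : ℤ) := by rw [sub_zero, hSg]; push_cast; rfl
      rw [this] at hTD; exact hTD
    exact_mod_cast h1
  obtain ⟨h, hh⟩ := hDSg
  have hhpos : 0 < h := by
    rcases Nat.eq_zero_or_pos h with h0 | h0
    · rw [h0] at hh; omega
    · exact h0
  have hDpos : 0 < D := by
    rcases Nat.eq_zero_or_pos D with h0 | h0
    · rw [h0] at hh; omega
    · exact h0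
  have hhodd : Odd h := by
    rw [hh] at hSgodd
    exact (Nat.odd_mul.mp hSgodd).2
  have hval_h2 : padicValNat 2 h = 0 :=
    padicValNat.eq_zero_of_not_dvd (fun hd => (Nat.not_even_iff_odd.mpr hhodd) (even_iff_two_dvd.mpr hd))
  -- quotients
  choose Q hQ using fun i => dvd_N (e := e) hN he (hTdvd i)
  have hQpos : ∀ i, 0 < Q i := by
    intro i
    rcases Nat.eq_zero_or_pos (Q i) with h0 | h0
    · have := hQ i; rw [h0, zero_mul] at this; omega
    · exact h0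
  let n : Fin 49 → ℕ := fun i => h * Q i
  have hnpos : ∀ i, 0 < n i := fun i => Nat.mul_pos hhpos (hQpos i)
  have hneq : ∀ i, n i * (2 ^ e * T i) = h * N := by
    intro i; show h * Q i * _ = _; rw [mul_assoc, hQ i]
  have hninj : Function.Injective n := by
    intro i j hij
    apply hTinj
    have h1 := hneq i
    have h2 := hneq j
    rw [hij] at h1
    have h3 : n j * (2 ^ e * T i) = n j * (2 ^ e * T j) := by rw [h1, h2]
    have h4 := Nat.eq_of_mul_eq_mul_left (hnpos j) h3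
    exact Nat.eq_of_mul_eq_mul_left (by positivity) h4
  -- valuations
  have hval : ∀ i, padicValNat 3 N ≤ padicValNat 3 (n i) ∧ padicValNat 5 N ≤ padicValNat 5 (n i) ∧
      padicValNat 2 (n i) + e = padicValNat 2 N := by
    intro i
    have hTi := coprime_of_dvd_MM (hTdvd i)
    have hl : n i * (2 ^ e * T i) ≠ 0 := (Nat.mul_pos (hnpos i) (Nat.mul_pos (by positivity) (hTpos i))).ne'
    have e3 : padicValNat 3 (n i) + padicValNat 3 (2 ^ e) + padicValNat 3 (T i)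
        = padicValNat 3 h + padicValNat 3 N := by
      have := congrArg (padicValNat 3) (hneq i)
      rwa [padicValNat.mul (hnpos i).ne' (Nat.mul_pos (by positivity) (hTpos i)).ne',
        padicValNat.mul (by positivity) (hTpos i).ne', padicValNat.mul hhpos.ne' hNpos.ne',
        ← add_assoc] at this
    have e5 : padicValNat 5 (n i) + padicValNat 5 (2 ^ e) + padicValNat 5 (T i)
        = padicValNat 5 h + padicValNat 5 N := by
      have := congrArg (padicValNat 5) (hneq i)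
      rwa [padicValNat.mul (hnpos i).ne' (Nat.mul_pos (by positivity) (hTpos i)).ne',
        padicValNat.mul (by positivity) (hTpos i).ne', padicValNat.mul hhpos.ne' hNpos.ne',
        ← add_assoc] at this
    have e2 : padicValNat 2 (n i) + padicValNat 2 (2 ^ e) + padicValNat 2 (T i)
        = padicValNat 2 h + padicValNat 2 N := by
      have := congrArg (padicValNat 2) (hneq i)
      rwa [padicValNat.mul (hnpos i).ne' (Nat.mul_pos (by positivity) (hTpos i)).ne',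
        padicValNat.mul (by positivity) (hTpos i).ne', padicValNat.mul hhpos.ne' hNpos.ne',
        ← add_assoc] at this
    have t3 : padicValNat 3 (T i) = 0 := val_zero_of_coprime (by norm_num) hTi
    have t5 : padicValNat 5 (T i) = 0 := val_zero_of_coprime (by norm_num) hTi
    have t2 : padicValNat 2 (T i) = 0 := val_zero_of_coprime (by norm_num) hTi
    have p3 : padicValNat 3 (2 ^ e) = 0 :=
      padicValNat.eq_zero_of_not_dvd (fun hd => by
        have := (Nat.prime_three.dvd_of_dvd_pow hd); omega)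
    have p5 : padicValNat 5 (2 ^ e) = 0 :=
      padicValNat.eq_zero_of_not_dvd (fun hd => by
        have := ((by norm_num : Nat.Prime 5).dvd_of_dvd_pow hd); omega)
    have p2 : padicValNat 2 (2 ^ e) = e := padicValNat.prime_pow e
    refine ⟨by omega, by omega, by omega⟩
  -- the numerator
  have hDle : 2 ^ e * D ≤ c := by
    have : ((2 ^ e * D : ℕ) : ℝ) ≤ (c : ℝ) := by
      push_cast
      rw [← hx, mul_comm x]
      exact mul_le_mul_of_nonneg_left hD2 (by positivity)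
    exact_mod_cast this
  refine ⟨c - 2 ^ e * D, Finset.univ.image n, ?_, ?_, ?_, Nat.sub_le _ _, ?_⟩
  · refine (Finset.card_image_le).trans ?_
    simp
  · intro m hm
    obtain ⟨i, -, rfl⟩ := Finset.mem_image.mp hm
    exact ⟨hnpos i, hval i⟩
  · -- size
    have hwpos : 0 < x ^ ((97 : ℝ) / 100) := Real.rpow_pos_of_pos hxpos _
    have h3pos : 0 < x ^ ((3 : ℝ) / 100) := Real.rpow_pos_of_pos hxpos _
    have hc1 : ((c - 2 ^ e * D : ℕ) : ℝ) ≤ 2 ^ e * x ^ ((97 : ℝ) / 100) := by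
      rw [Nat.cast_sub hDle]
      push_cast
      rw [← hx]
      have : x * 2 ^ e - 2 ^ e * (D : ℝ) = 2 ^ e * (x - D) := by ring
      rw [this]
      apply mul_le_mul_of_nonneg_left _ (by positivity)
      linarith
    calc ((c - 2 ^ e * D : ℕ) : ℝ) * x ^ ((3 : ℝ) / 100)
        ≤ 2 ^ e * x ^ ((97 : ℝ) / 100) * x ^ ((3 : ℝ) / 100) :=
          mul_le_mul_of_nonneg_right hc1 h3pos.le
      _ = 2 ^ e * x := by rw [mul_assoc, window_mul hxpos]
      _ = c := by rw [← hx]; ring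
  · -- identity
    rw [Finset.sum_image (fun i _ j _ hij => hninj hij)]
    have hNq : (N : ℚ) ≠ 0 := by exact_mod_cast hNpos.ne'
    have hhq : (h : ℚ) ≠ 0 := by exact_mod_cast hhpos.ne'
    have hDq : (D : ℚ) ≠ 0 := by exact_mod_cast hDpos.ne'
    have h1 : ∀ i, (1 : ℚ) / (n i : ℚ) = (2 : ℚ) ^ e * (T i : ℚ) / (h * N) := by
      intro i
      have hnq : (n i : ℚ) ≠ 0 := by exact_mod_cast (hnpos i).ne'
      have : (n i : ℚ) * ((2 : ℚ) ^ e * T i) = h * N := by exact_mod_cast hneq i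
      field_simp
      linarith
    simp_rw [h1]
    rw [← Finset.sum_div, ← Finset.mul_sum]
    have h2 : (∑ i, (T i : ℚ)) = (D : ℚ) * h := by
      have : ((∑ i, T i : ℕ) : ℚ) = ((D * h : ℕ) : ℚ) := by rw [← hSg, hh]
      push_cast at this
      exact this
    rw [h2, Nat.cast_sub hDle]
    push_cast
    field_simp
    ring


/-- **Step of phase II**: with `x = N/(c 2^e)`, main term `1/(2^e D)` and correction terms. -/
lemma step2 {Y : ℕ} {τ₀ τM : ℝ} (hG : GoodAt Y τ₀ τM) {b A N : ℕ} (hb : 0 < b)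
    (hN : N = 45 * b * MM Y * 2 ^ A) {c e f : ℕ} {x : ℝ} (he : e ≤ A) (hf : f ≤ Y) (hfA : f ≤ A)
    (hc : 147 * 2 ^ Y * MM Y ≤ c)
    (hx : x * (c * 2 ^ e) = N) (hx1 : (2 : ℝ) ^ 200 ≤ x) (hx2 : τ₀ ≤ x) (hx3 : 2 * x ≤ τM) :
    ∃ (n c₁ : ℕ) (W : Finset ℕ), 0 < n ∧ padicValNat 3 n = 0 ∧ W.card ≤ 49 ∧
      (∀ m ∈ W, 0 < m ∧ padicValNat 3 m + 1 = padicValNat 3 N ∧
        padicValNat 2 m + f = padicValNat 2 N) ∧
      ((c₁ : ℚ) / N < 1 / n) ∧ ((c₁ : ℝ) * x ^ ((3 : ℝ) / 100) ≤ 2 * c) ∧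
      (1 / (n : ℚ) + ∑ m ∈ W, (1 : ℚ) / (m : ℚ) + (c₁ : ℚ) / N = (c : ℚ) / N) := by
  classical
  have hNpos := NN_pos hb hN
  have hxpos := window_pos hx1
  have hcpos : 0 < c := lt_of_lt_of_le (by have := MM_pos Y; positivity) hc
  have hcR : (0 : ℝ) < c := by exact_mod_cast hcpos
  obtain ⟨w, hw⟩ : ∃ w : ℝ, w = x ^ ((97 : ℝ) / 100) := ⟨_, rfl⟩
  have hw1 : 1 ≤ w := hw ▸ window_one_le hx1
  have hw8 : 8 * w ≤ x := hw ▸ window_eight hx1
  obtain ⟨D, hD1, hD2, hD3, hD4⟩ := good_window_up hG hx1 hx2 hx3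
  rw [← hw] at hD1 hD2
  have hDpos : 0 < D := by
    rcases Nat.eq_zero_or_pos D with h0 | h0
    · rw [h0] at hD1; push_cast at hD1; linarith
    · exact h0
  have hDR : (0 : ℝ) < D := by exact_mod_cast hDpos
  -- `N / 2^e`
  obtain ⟨Ne, hNe⟩ : ∃ Ne, Ne * 2 ^ e = N := by
    obtain ⟨Q, hQ⟩ := dvd_N (e := e) hN he (one_dvd _)
    exact ⟨Q, by rw [← hQ]; ring⟩
  have hNeR : (Ne : ℝ) = x * c := by
    have h1 : (Ne : ℝ) * 2 ^ e = N := by exact_mod_cast hNe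
    have h2 : (Ne : ℝ) * 2 ^ e = (x * c) * 2 ^ e := by rw [h1, ← hx]; ring
    exact mul_right_cancel₀ (by positivity) h2
  have hNele : Ne ≤ c * D := by
    have : (Ne : ℝ) ≤ ((c * D : ℕ) : ℝ) := by
      rw [hNeR]; push_cast
      rw [mul_comm]
      exact mul_le_mul_of_nonneg_left (by linarith) hcR.le
    exact_mod_cast this
  obtain ⟨c', hc'⟩ : ∃ c', c' = c * D - Ne := ⟨_, rfl⟩
  have hc'add : c' + Ne = c * D := by omega
  have hc'R : (c' : ℝ) = c * (D - x) := by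
    have : (c' : ℝ) + Ne = c * D := by exact_mod_cast hc'add
    rw [hNeR] at this
    linarith
  have hc'ge : (c : ℝ) * w ≤ c' := by
    rw [hc'R]; exact mul_le_mul_of_nonneg_left (by linarith) hcR.le
  have hc'le : (c' : ℝ) ≤ 2 * c * w := by
    rw [hc'R, mul_comm 2, mul_assoc]
    exact mul_le_mul_of_nonneg_left (by linarith) hcR.le
  -- solving for the residue
  have hcop3 : Nat.Coprime (3 * 2 ^ f) D := by
    apply Nat.Coprime.symm
    apply Nat.Coprime.mul_right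
    · exact Nat.Coprime.coprime_dvd_right (by norm_num : 3 ∣ 30) hD3
    · apply Nat.Coprime.pow_right
      exact Nat.Coprime.coprime_dvd_right (by norm_num : 2 ∣ 30) hD3
  obtain ⟨u, v, huv⟩ := (Nat.isCoprime_iff_coprime.mpr hcop3)
  obtain ⟨T, hTinj, hTdvd, hTD⟩ := hD4 ((c' : ℤ) * u)
  have hTpos : ∀ i, 0 < T i := fun i => pos_of_dvd_MM (hTdvd i)
  obtain ⟨Sg, hSg⟩ : ∃ Sg : ℕ, Sg = ∑ i, T i := ⟨_, rfl⟩
  have hSgZ : (∑ i, (T i : ℤ)) = (Sg : ℤ) := by rw [hSg]; push_cast; rfl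
  rw [hSgZ] at hTD
  have hSgle : Sg ≤ 49 * MM Y := by
    rw [hSg]
    calc ∑ i, T i ≤ ∑ _i : Fin 49, MM Y :=
          Finset.sum_le_sum fun i _ => Nat.le_of_dvd (MM_pos Y) (hTdvd i)
      _ = 49 * MM Y := by simp
  have hμle : (3 * 2 ^ f) * Sg ≤ c' := by
    have h1 : (3 * 2 ^ f) * Sg ≤ 147 * 2 ^ Y * MM Y := by
      have : 2 ^ f ≤ 2 ^ Y := Nat.pow_le_pow_right (by norm_num) hf
      calc (3 * 2 ^ f) * Sg ≤ (3 * 2 ^ Y) * (49 * MM Y) := Nat.mul_le_mul (by omega) hSgle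
        _ = 147 * 2 ^ Y * MM Y := by ring
    have h2 : ((3 * 2 ^ f) * Sg : ℕ) ≤ (c' : ℝ) := by
      have h3 : (((3 * 2 ^ f) * Sg : ℕ) : ℝ) ≤ c := by exact_mod_cast h1.trans hc
      have h4 : (c : ℝ) ≤ c * w := le_mul_of_one_le_right hcR.le hw1
      linarith
    exact_mod_cast h2
  have hdvdZ : (D : ℤ) ∣ ((c' - (3 * 2 ^ f) * Sg : ℕ) : ℤ) := by
    rw [Nat.cast_sub hμle]
    push_cast
    obtain ⟨r, hr⟩ := hTD
    refine ⟨(c' : ℤ) * v - (3 * 2 ^ f) * r, ?_⟩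
    have h5 : (Sg : ℤ) = D * r + (c' : ℤ) * u := by linarith
    rw [h5]
    push_cast at huv
    have h6 : (c' : ℤ) = c' * (u * (3 * 2 ^ f) + v * D) := by rw [huv]; ring
    linear_combination h6
  obtain ⟨c₁, hc₁⟩ : D ∣ c' - (3 * 2 ^ f) * Sg := by exact_mod_cast hdvdZ
  have hc₁add : (3 * 2 ^ f) * Sg + D * c₁ = c' := by omega
  have hc₁le : (D : ℝ) * c₁ ≤ c' := by
    have : D * c₁ ≤ c' := by omega
    exact_mod_cast this
  have hw0 : 0 < w := by linarith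
  have hc₁x : (c₁ : ℝ) * x ≤ 2 * c * w := by
    have h1 : (c₁ : ℝ) * x ≤ D * c₁ := by
      rw [mul_comm]
      exact mul_le_mul_of_nonneg_right (by linarith) (Nat.cast_nonneg _)
    linarith
  -- the correction terms
  choose Q hQ using fun i => dvd_N' (e := f) hN hfA (hTdvd i)
  have hQpos : ∀ i, 0 < Q i := by
    intro i
    rcases Nat.eq_zero_or_pos (Q i) with h0 | h0
    · have := hQ i; rw [h0, zero_mul] at this; omega
    · exact h0
  let n : Fin 49 → ℕ := fun i => D * Q i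
  have hnpos : ∀ i, 0 < n i := fun i => Nat.mul_pos hDpos (hQpos i)
  have hneq : ∀ i, n i * (3 * 2 ^ f * T i) = D * N := by
    intro i; show D * Q i * _ = _; rw [mul_assoc, hQ i]
  have hninj : Function.Injective n := by
    intro i j hij
    apply hTinj
    have h1 := hneq i
    have h2 := hneq j
    rw [hij] at h1
    have h3 : n j * (3 * 2 ^ f * T i) = n j * (3 * 2 ^ f * T j) := by rw [h1, h2]
    have h4 := Nat.eq_of_mul_eq_mul_left (hnpos j) h3
    exact Nat.eq_of_mul_eq_mul_left (by positivity) h4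
  have hval : ∀ i, padicValNat 3 (n i) + 1 = padicValNat 3 N ∧
      padicValNat 2 (n i) + f = padicValNat 2 N := by
    intro i
    have hTi := coprime_of_dvd_MM (hTdvd i)
    have hpp : 3 * 2 ^ f ≠ 0 := by positivity
    have e3 : padicValNat 3 (n i) + padicValNat 3 (3 * 2 ^ f) + padicValNat 3 (T i)
        = padicValNat 3 D + padicValNat 3 N := by
      have := congrArg (padicValNat 3) (hneq i)
      rwa [padicValNat.mul (hnpos i).ne' (Nat.mul_pos (by positivity) (hTpos i)).ne',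
        padicValNat.mul hpp (hTpos i).ne', padicValNat.mul hDpos.ne' hNpos.ne',
        ← add_assoc] at this
    have e2 : padicValNat 2 (n i) + padicValNat 2 (3 * 2 ^ f) + padicValNat 2 (T i)
        = padicValNat 2 D + padicValNat 2 N := by
      have := congrArg (padicValNat 2) (hneq i)
      rwa [padicValNat.mul (hnpos i).ne' (Nat.mul_pos (by positivity) (hTpos i)).ne',
        padicValNat.mul hpp (hTpos i).ne', padicValNat.mul hDpos.ne' hNpos.ne',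
        ← add_assoc] at this
    have t3 : padicValNat 3 (T i) = 0 := val_zero_of_coprime (by norm_num) hTi
    have t2 : padicValNat 2 (T i) = 0 := val_zero_of_coprime (by norm_num) hTi
    have d3 : padicValNat 3 D = 0 := val_zero_of_coprime (by norm_num) hD3
    have d2 : padicValNat 2 D = 0 := val_zero_of_coprime (by norm_num) hD3
    have p3 : padicValNat 3 (3 * 2 ^ f) = 1 := by
      rw [padicValNat.mul (by norm_num) (by positivity), padicValNat_self]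
      have : padicValNat 3 (2 ^ f) = 0 :=
        padicValNat.eq_zero_of_not_dvd (fun hd => by
          have := (Nat.prime_three.dvd_of_dvd_pow hd); omega)
      omega
    have p2 : padicValNat 2 (3 * 2 ^ f) = f := by
      rw [padicValNat.mul (by norm_num) (by positivity), padicValNat.prime_pow]
      have : padicValNat 2 3 = 0 := padicValNat.eq_zero_of_not_dvd (by norm_num)
      omega
    exact ⟨by omega, by omega⟩
  refine ⟨2 ^ e * D, c₁, Finset.univ.image n, by positivity, ?_, ?_, ?_, ?_, ?_, ?_⟩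
  · -- val₃ of the main term
    rw [padicValNat.mul (by positivity) hDpos.ne']
    have d3 : padicValNat 3 D = 0 := val_zero_of_coprime (by norm_num) hD3
    have : padicValNat 3 (2 ^ e) = 0 :=
      padicValNat.eq_zero_of_not_dvd (fun hd => by
        have := (Nat.prime_three.dvd_of_dvd_pow hd); omega)
    omega
  · refine (Finset.card_image_le).trans ?_
    simp
  · intro m hm
    obtain ⟨i, -, rfl⟩ := Finset.mem_image.mp hm
    exact ⟨hnpos i, hval i⟩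
  · -- `c₁/N < 1/n`
    have hkey : (c₁ : ℝ) * ((2 ^ e * D : ℕ) : ℝ) < N := by
      push_cast
      have h1 : (c₁ : ℝ) * (2 ^ e * D) = 2 ^ e * (D * c₁) := by ring
      rw [h1, ← hx]
      have h2 : (2 : ℝ) ^ e * (D * c₁) ≤ 2 ^ e * (2 * c * w) :=
        mul_le_mul_of_nonneg_left (hc₁le.trans hc'le) (by positivity)
      have h3 : (2 : ℝ) ^ e * (2 * c * w) < x * (c * 2 ^ e) := by
        have hpos : 0 < (2 : ℝ) ^ e * c := by positivity
        have : (2 : ℝ) ^ e * (2 * c * w) = ((2 : ℝ) ^ e * c) * (2 * w) := by ring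
        rw [this, show x * (c * 2 ^ e) = ((2 : ℝ) ^ e * c) * x by ring]
        exact mul_lt_mul_of_pos_left (by linarith) hpos
      linarith
    have hkeyN : c₁ * (2 ^ e * D) < N := by exact_mod_cast hkey
    have hkeyQ : (c₁ : ℚ) * ((2 ^ e * D : ℕ) : ℚ) < N := by exact_mod_cast hkeyN
    have hNq : (0 : ℚ) < N := by exact_mod_cast hNpos
    have hnq : (0 : ℚ) < ((2 ^ e * D : ℕ) : ℚ) := by exact_mod_cast (by positivity : 0 < 2 ^ e * D)
    rw [div_lt_div_iff₀ hNq hnq]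
    linarith
  · -- size of `c₁`
    have h3pos : 0 < x ^ ((3 : ℝ) / 100) := Real.rpow_pos_of_pos hxpos _
    have h1 : (c₁ : ℝ) * x ^ ((3 : ℝ) / 100) * w = (c₁ : ℝ) * x := by
      rw [hw, mul_assoc, mul_comm (x ^ ((3 : ℝ) / 100)), window_mul hxpos]
    have h2 : (c₁ : ℝ) * x ^ ((3 : ℝ) / 100) * w ≤ 2 * c * w := by rw [h1]; exact hc₁x
    exact le_of_mul_le_mul_right h2 hw0
  · -- the identity
    rw [Finset.sum_image (fun i _ j _ hij => hninj hij)]
    have hNq : (N : ℚ) ≠ 0 := by exact_mod_cast hNpos.ne'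
    have hDq : (D : ℚ) ≠ 0 := by exact_mod_cast hDpos.ne'
    have h1 : ∀ i, (1 : ℚ) / (n i : ℚ) = ((3 : ℚ) * 2 ^ f) * (T i : ℚ) / (D * N) := by
      intro i
      have hnq : (n i : ℚ) ≠ 0 := by exact_mod_cast (hnpos i).ne'
      have : (n i : ℚ) * ((3 : ℚ) * 2 ^ f * T i) = D * N := by exact_mod_cast hneq i
      field_simp
      linarith
    simp_rw [h1]
    rw [← Finset.sum_div, ← Finset.mul_sum]
    have h2 : (∑ i, (T i : ℚ)) = (Sg : ℚ) := by rw [hSg]; push_cast; rfl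
    rw [h2]
    have h3 : ((3 * 2 ^ f) * Sg + D * c₁ + Ne : ℕ) = c * D := by rw [hc₁add, hc'add]
    have h3q : (3 * 2 ^ f) * (Sg : ℚ) + D * c₁ + Ne = c * D := by exact_mod_cast h3
    have h4 : (Ne : ℚ) * 2 ^ e = N := by exact_mod_cast hNe
    have h2e : ((2 : ℚ) ^ e) ≠ 0 := by positivity
    push_cast
    rw [← h4] at hNq ⊢
    have hNeq : (Ne : ℚ) ≠ 0 := fun h0 => hNq (by rw [h0, zero_mul])
    field_simp
    linear_combination h3q

end Crest.Agent.Egypt
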