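import Mathlib

/-!
Finite core of metric Markov cotype two for `ℓ₁`.

Cut weights `c θ`, 0/1 functions `g θ`, a reversible stochastic kernel.  The points `y` are
coordinatewise smoothed quantile averages `ψ (B^τ g)` with `ψ u = 3u² - 2u³`.  The proof is a
path-free form of Garsia's lemma for the potential `v τ = ∑ c θ f (1 - f)`.
-/

set_option autoImplicit false

open Finset

namespace Crest.Agent.Lib.MarkovCotypeL1

section Basic
variable {ι : Type*} [Fintype ι]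

/-- Apply a kernel to a function. -/
def ap (B : ι → ι → ℝ) (u : ι → ℝ) (i : ι) : ℝ := ∑ j, B i j * u j

/-- Iterates of the kernel. -/
def it (B : ι → ι → ℝ) (u : ι → ℝ) : ℕ → ι → ℝ
  | 0 => u
  | τ + 1 => ap B (it B u τ)

lemma it_zero (B : ι → ι → ℝ) (u : ι → ℝ) : it B u 0 = u := rfl

lemma it_succ (B : ι → ι → ℝ) (u : ι → ℝ) (τ : ℕ) (i : ι) :
    it B u (τ + 1) i = ∑ j, B i j * it B u τ j := rfl

lemma sum_mul_const (B : ι → ι → ℝ) (hB1 : ∀ i, ∑ j, B i j = 1) (i : ι) (r : ℝ) :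
    ∑ j, B i j * r = r := by
  rw [← Finset.sum_mul, hB1, one_mul]

lemma it_nonneg (B : ι → ι → ℝ) (hB0 : ∀ i j, 0 ≤ B i j) (u : ι → ℝ) (hu : ∀ i, 0 ≤ u i) :
    ∀ τ i, 0 ≤ it B u τ i := by
  intro τ
  induction τ with
  | zero => exact hu
  | succ τ ih =>
    intro i
    rw [it_succ]
    exact Finset.sum_nonneg fun j _ => mul_nonneg (hB0 i j) (ih j)

/-- Mixed moment: `E[ρ(X_τ) · Σ ζ]`. -/
def Rr (B : ι → ι → ℝ) (ρ : ι → ℝ) (ζ : ℕ → ι → ι → ℝ) : ℕ → ι → ℝ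
  | 0, _ => 0
  | τ + 1, i => ∑ j, B i j * (Rr B ρ ζ τ j + ζ τ i j * it B ρ τ j)

/-- Second moment: `E[(Σ ζ)²]`. -/
def Kk (B : ι → ι → ℝ) (v : ℕ → ι → ℝ) (ζ : ℕ → ι → ι → ℝ) : ℕ → ι → ℝ
  | 0, _ => 0
  | τ + 1, i => ∑ j, B i j * (Kk B v ζ τ j + ζ τ i j ^ 2 + 2 * ζ τ i j * v τ j)

lemma Rr_succ (B : ι → ι → ℝ) (ρ : ι → ℝ) (ζ : ℕ → ι → ι → ℝ) (τ : ℕ) (i : ι) :
    Rr B ρ ζ (τ + 1) i = ∑ j, B i j * (Rr B ρ ζ τ j + ζ τ i j * it B ρ τ j) := rfl

lemma Kk_succ (B : ι → ι → ℝ) (v : ℕ → ι → ℝ) (ζ : ℕ → ι → ι → ℝ) (τ : ℕ) (i : ι) :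
    Kk B v ζ (τ + 1) i = ∑ j, B i j * (Kk B v ζ τ j + ζ τ i j ^ 2 + 2 * ζ τ i j * v τ j) := rfl

/-- The square `E[(λ ρ(X_τ) - a - Σ ζ)²]` is nonnegative, written path-free. -/
theorem quad_nonneg (B : ι → ι → ℝ) (hB0 : ∀ i j, 0 ≤ B i j) (hB1 : ∀ i, ∑ j, B i j = 1)
    (ρ : ι → ℝ) (v : ℕ → ι → ℝ) (ζ : ℕ → ι → ι → ℝ) (hv0 : ∀ i, v 0 i = 0)
    (hv : ∀ τ i, v (τ + 1) i = ∑ j, B i j * (v τ j + ζ τ i j)) :
    ∀ τ i (a lam : ℝ), 0 ≤ a ^ 2 - 2 * a * (lam * it B ρ τ i - v τ i)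
      + lam ^ 2 * it B (fun l => ρ l ^ 2) τ i - 2 * lam * Rr B ρ ζ τ i + Kk B v ζ τ i := by
  intro τ
  induction τ with
  | zero =>
    intro i a lam
    simp only [it_zero, hv0, Rr, Kk]
    nlinarith [sq_nonneg (a - lam * ρ i)]
  | succ τ ih =>
    intro i a lam
    have key : a ^ 2 - 2 * a * (lam * it B ρ (τ + 1) i - v (τ + 1) i)
        + lam ^ 2 * it B (fun l => ρ l ^ 2) (τ + 1) i - 2 * lam * Rr B ρ ζ (τ + 1) i
        + Kk B v ζ (τ + 1) i
        = ∑ j, B i j * ((a + ζ τ i j) ^ 2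
            - 2 * (a + ζ τ i j) * (lam * it B ρ τ j - v τ j)
            + lam ^ 2 * it B (fun l => ρ l ^ 2) τ j - 2 * lam * Rr B ρ ζ τ j
            + Kk B v ζ τ j) := by
      have e : ∀ j, B i j * ((a + ζ τ i j) ^ 2
            - 2 * (a + ζ τ i j) * (lam * it B ρ τ j - v τ j)
            + lam ^ 2 * it B (fun l => ρ l ^ 2) τ j - 2 * lam * Rr B ρ ζ τ j
            + Kk B v ζ τ j)
          = B i j * a ^ 2
            - 2 * a * lam * (B i j * it B ρ τ j)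
            + 2 * a * (B i j * (v τ j + ζ τ i j))
            + lam ^ 2 * (B i j * it B (fun l => ρ l ^ 2) τ j)
            - 2 * lam * (B i j * (Rr B ρ ζ τ j + ζ τ i j * it B ρ τ j))
            + (B i j * (Kk B v ζ τ j + ζ τ i j ^ 2 + 2 * ζ τ i j * v τ j)) := by
        intro j; ring
      simp only [e, Finset.sum_add_distrib, Finset.sum_sub_distrib, ← Finset.mul_sum]
      rw [sum_mul_const B hB1, ← it_succ, ← it_succ, ← hv, ← Rr_succ, ← Kk_succ]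
      ring
    rw [key]
    exact Finset.sum_nonneg fun j _ => mul_nonneg (hB0 i j) (ih j (a + ζ τ i j) lam)

/-- Cauchy–Schwarz for the mixed moment. -/
theorem cs_moment (B : ι → ι → ℝ) (hB0 : ∀ i j, 0 ≤ B i j) (hB1 : ∀ i, ∑ j, B i j = 1)
    (ρ : ι → ℝ) (v : ℕ → ι → ℝ) (ζ : ℕ → ι → ι → ℝ) (hv0 : ∀ i, v 0 i = 0)
    (hv : ∀ τ i, v (τ + 1) i = ∑ j, B i j * (v τ j + ζ τ i j)) (τ : ℕ) (i : ι) :
    Rr B ρ ζ τ i ^ 2 ≤ it B (fun l => ρ l ^ 2) τ i * Kk B v ζ τ i := by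
  have h := fun lam : ℝ => quad_nonneg B hB0 hB1 ρ v ζ hv0 hv τ i 0 lam
  have h' : ∀ lam : ℝ, 0 ≤ it B (fun l => ρ l ^ 2) τ i * (lam * lam)
      + (-2 * Rr B ρ ζ τ i) * lam + Kk B v ζ τ i := by
    intro lam
    have := h lam
    nlinarith
  have := discrim_le_zero h'
  unfold discrim at this
  nlinarith

end Basic

section Garsia
variable {ι : Type*} [Fintype ι]

/-- Accumulated cost `E Σ ξ (ξ + v + v')`. -/
def Qq (B : ι → ι → ℝ) (v : ℕ → ι → ℝ) (ξ : ℕ → ι → ι → ℝ) : ℕ → ι → ℝ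
  | 0, _ => 0
  | τ + 1, i => ∑ j, B i j * (Qq B v ξ τ j + ξ τ i j * (ξ τ i j + v (τ + 1) i + v τ j))

lemma Qq_succ (B : ι → ι → ℝ) (v : ℕ → ι → ℝ) (ξ : ℕ → ι → ι → ℝ) (τ : ℕ) (i : ι) :
    Qq B v ξ (τ + 1) i
      = ∑ j, B i j * (Qq B v ξ τ j + ξ τ i j * (ξ τ i j + v (τ + 1) i + v τ j)) := rfl

/-- Predictable part of the cost. -/
def ebar (B : ι → ι → ℝ) (ξ : ℕ → ι → ι → ℝ) (τ : ℕ) (i : ι) (_ : ι) : ℝ :=
  ∑ j, B i j * ξ τ i j

lemma ebar_nonneg (B : ι → ι → ℝ) (hB0 : ∀ i j, 0 ≤ B i j) (ξ : ℕ → ι → ι → ℝ)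
    (hξ : ∀ τ i j, 0 ≤ ξ τ i j) (τ : ℕ) (i j : ι) : 0 ≤ ebar B ξ τ i j :=
  Finset.sum_nonneg fun j _ => mul_nonneg (hB0 i j) (hξ τ i j)

lemma hv_ebar (B : ι → ι → ℝ) (hB1 : ∀ i, ∑ j, B i j = 1) (v : ℕ → ι → ℝ)
    (ξ : ℕ → ι → ι → ℝ) (hv : ∀ τ i, v (τ + 1) i = ∑ j, B i j * (v τ j + ξ τ i j)) (τ : ℕ) (i : ι) :
    v (τ + 1) i = ∑ j, B i j * (v τ j + ebar B ξ τ i j) := by
  rw [hv]
  simp only [mul_add, Finset.sum_add_distrib]
  congr 1
  have : ∀ j, ebar B ξ τ i j = ∑ j, B i j * ξ τ i j := fun _ => rfl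
  simp only [this]
  rw [sum_mul_const B hB1]

lemma Rr_nonneg (B : ι → ι → ℝ) (hB0 : ∀ i j, 0 ≤ B i j) (ρ : ι → ℝ) (hρ : ∀ i, 0 ≤ ρ i)
    (ζ : ℕ → ι → ι → ℝ) (hζ : ∀ τ i j, 0 ≤ ζ τ i j) : ∀ τ i, 0 ≤ Rr B ρ ζ τ i := by
  intro τ
  induction τ with
  | zero => intro i; exact le_refl _
  | succ τ ih =>
    intro i
    rw [Rr_succ]
    exact Finset.sum_nonneg fun j _ => mul_nonneg (hB0 i j)
      (add_nonneg (ih j) (mul_nonneg (hζ τ i j) (it_nonneg B hB0 ρ hρ τ j)))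

lemma KA_le (B : ι → ι → ℝ) (hB0 : ∀ i j, 0 ≤ B i j) (hB1 : ∀ i, ∑ j, B i j = 1)
    (ρ : ι → ℝ) (v : ℕ → ι → ℝ) (ξ : ℕ → ι → ι → ℝ)
    (hv : ∀ τ i, v (τ + 1) i = ∑ j, B i j * (v τ j + ξ τ i j))
    (hξ : ∀ τ i j, 0 ≤ ξ τ i j) (hvh : ∀ τ i, v τ i ≤ it B ρ τ i) :
    ∀ τ i, Kk B v (ebar B ξ) τ i ≤ 2 * Rr B ρ (ebar B ξ) τ i := by
  intro τ
  induction τ with
  | zero => intro i; simp [Kk, Rr]
  | succ τ ih =>
    intro i
    rw [Kk_succ, Rr_succ]
    set e := ∑ j, B i j * ξ τ i j with he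
    have he0 : 0 ≤ e := Finset.sum_nonneg fun j _ => mul_nonneg (hB0 i j) (hξ τ i j)
    have hee : ∀ j, ebar B ξ τ i j = e := fun _ => rfl
    simp only [hee]
    -- the sum of the new costs
    have h1 : ∑ j, B i j * v τ j = v (τ + 1) i - e := by
      rw [hv]
      simp only [mul_add, Finset.sum_add_distrib]
      ring
    have h2 : v (τ + 1) i ≤ ∑ j, B i j * it B ρ τ j := by
      have := hvh (τ + 1) i
      rwa [it_succ] at this
    have h3 : ∑ j, B i j * (Kk B v (ebar B ξ) τ j + e ^ 2 + 2 * e * v τ j)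
        = ∑ j, B i j * Kk B v (ebar B ξ) τ j + e ^ 2 + 2 * e * (v (τ + 1) i - e) := by
      rw [← h1]
      simp only [mul_add, Finset.sum_add_distrib, Finset.mul_sum]
      rw [sum_mul_const B hB1]
      congr 1
      apply Finset.sum_congr rfl
      intro j _
      ring
    have h4 : 2 * ∑ j, B i j * (Rr B ρ (ebar B ξ) τ j + e * it B ρ τ j)
        = ∑ j, B i j * (2 * Rr B ρ (ebar B ξ) τ j) + 2 * e * ∑ j, B i j * it B ρ τ j := by
      simp only [Finset.mul_sum, ← Finset.sum_add_distrib]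
      apply Finset.sum_congr rfl
      intro j _
      ring
    have h5 : ∑ j, B i j * Kk B v (ebar B ξ) τ j
        ≤ ∑ j, B i j * (2 * Rr B ρ (ebar B ξ) τ j) :=
      Finset.sum_le_sum fun j _ => mul_le_mul_of_nonneg_left (ih j) (hB0 i j)
    rw [h3, h4]
    nlinarith [mul_le_mul_of_nonneg_left h2 he0, sq_nonneg e]

lemma RA_le (B : ι → ι → ℝ) (hB0 : ∀ i j, 0 ≤ B i j) (hB1 : ∀ i, ∑ j, B i j = 1)
    (ρ : ι → ℝ) (hρ : ∀ i, 0 ≤ ρ i) (v : ℕ → ι → ℝ) (ξ : ℕ → ι → ι → ℝ) (hv0 : ∀ i, v 0 i = 0)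
    (hv : ∀ τ i, v (τ + 1) i = ∑ j, B i j * (v τ j + ξ τ i j))
    (hξ : ∀ τ i j, 0 ≤ ξ τ i j) (hvh : ∀ τ i, v τ i ≤ it B ρ τ i) (τ : ℕ) (i : ι) :
    Rr B ρ (ebar B ξ) τ i ≤ 2 * it B (fun l => ρ l ^ 2) τ i := by
  have hcs := cs_moment B hB0 hB1 ρ v (ebar B ξ) hv0 (hv_ebar B hB1 v ξ hv) τ i
  have hk := KA_le B hB0 hB1 ρ v ξ hv hξ hvh τ i
  have hW : 0 ≤ it B (fun l => ρ l ^ 2) τ i :=
    it_nonneg B hB0 _ (fun l => sq_nonneg _) τ i
  have hR : 0 ≤ Rr B ρ (ebar B ξ) τ i :=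
    Rr_nonneg B hB0 ρ hρ _ (ebar_nonneg B hB0 ξ hξ) τ i
  have h : Rr B ρ (ebar B ξ) τ i ^ 2
      ≤ it B (fun l => ρ l ^ 2) τ i * (2 * Rr B ρ (ebar B ξ) τ i) :=
    hcs.trans (mul_le_mul_of_nonneg_left hk hW)
  by_contra hcon
  push Not at hcon
  have hpos : 0 < Rr B ρ (ebar B ξ) τ i := lt_of_le_of_lt (by positivity) hcon
  nlinarith

lemma K_le (B : ι → ι → ℝ) (hB0 : ∀ i j, 0 ≤ B i j)
    (ρ : ι → ℝ) (v : ℕ → ι → ℝ) (ξ : ℕ → ι → ι → ℝ)
    (hv00 : ∀ τ i, 0 ≤ v τ i)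
    (hξ : ∀ τ i j, 0 ≤ ξ τ i j) (hvh : ∀ τ i, v τ i ≤ it B ρ τ i)
    (ha : ∀ τ i j, ξ τ i j + v (τ + 1) i + v τ j ≤ it B ρ (τ + 1) i + it B ρ τ j) :
    ∀ τ i, Kk B v ξ τ i ≤ Rr B ρ (ebar B ξ) τ i + 2 * Rr B ρ ξ τ i := by
  intro τ
  induction τ with
  | zero => intro i; simp [Kk, Rr]
  | succ τ ih =>
    intro i
    rw [Kk_succ, Rr_succ, Rr_succ]
    set e := ∑ j, B i j * ξ τ i j with he
    have hee : ∀ j, ebar B ξ τ i j = e := fun _ => rfl
    simp only [hee]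
    -- pointwise bound
    have hp : ∀ j, B i j * (Kk B v ξ τ j + ξ τ i j ^ 2 + 2 * ξ τ i j * v τ j)
        ≤ B i j * (Rr B ρ (ebar B ξ) τ j + 2 * Rr B ρ ξ τ j)
          + (B i j * ξ τ i j) * it B ρ (τ + 1) i + 2 * (B i j * (ξ τ i j * it B ρ τ j)) := by
      intro j
      have h1 := mul_le_mul_of_nonneg_left (ha τ i j) (hξ τ i j)
      have h2 := mul_le_mul_of_nonneg_left (hvh τ j) (hξ τ i j)
      have h3 := mul_nonneg (hξ τ i j) (hv00 (τ + 1) i)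
      have h4 : Kk B v ξ τ j + ξ τ i j ^ 2 + 2 * ξ τ i j * v τ j
          ≤ Rr B ρ (ebar B ξ) τ j + 2 * Rr B ρ ξ τ j
            + ξ τ i j * it B ρ (τ + 1) i + 2 * (ξ τ i j * it B ρ τ j) := by
        have := ih j
        nlinarith
      have := mul_le_mul_of_nonneg_left h4 (hB0 i j)
      nlinarith
    refine (Finset.sum_le_sum fun j _ => hp j).trans (le_of_eq ?_)
    have hL : ∀ j, B i j * (Rr B ρ (ebar B ξ) τ j + 2 * Rr B ρ ξ τ j)
          + (B i j * ξ τ i j) * it B ρ (τ + 1) i + 2 * (B i j * (ξ τ i j * it B ρ τ j))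
        = B i j * Rr B ρ (ebar B ξ) τ j + 2 * (B i j * Rr B ρ ξ τ j)
          + (B i j * ξ τ i j) * it B ρ (τ + 1) i + 2 * (B i j * (ξ τ i j * it B ρ τ j)) := by
      intro j; ring
    have hR1 : ∀ j, B i j * (Rr B ρ (ebar B ξ) τ j + e * it B ρ τ j)
        = B i j * Rr B ρ (ebar B ξ) τ j + e * (B i j * it B ρ τ j) := by
      intro j; ring
    have hR2 : ∀ j, B i j * (Rr B ρ ξ τ j + ξ τ i j * it B ρ τ j)
        = B i j * Rr B ρ ξ τ j + B i j * (ξ τ i j * it B ρ τ j) := by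
      intro j; ring
    simp only [hL, hR1, hR2, Finset.sum_add_distrib, ← Finset.sum_mul, ← Finset.mul_sum]
    rw [← he, ← it_succ]
    ring

lemma R_le (B : ι → ι → ℝ) (hB0 : ∀ i j, 0 ≤ B i j) (hB1 : ∀ i, ∑ j, B i j = 1)
    (ρ : ι → ℝ) (hρ : ∀ i, 0 ≤ ρ i) (v : ℕ → ι → ℝ) (ξ : ℕ → ι → ι → ℝ) (hv0 : ∀ i, v 0 i = 0)
    (hv : ∀ τ i, v (τ + 1) i = ∑ j, B i j * (v τ j + ξ τ i j)) (hv00 : ∀ τ i, 0 ≤ v τ i)
    (hξ : ∀ τ i j, 0 ≤ ξ τ i j) (hvh : ∀ τ i, v τ i ≤ it B ρ τ i)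
    (ha : ∀ τ i j, ξ τ i j + v (τ + 1) i + v τ j ≤ it B ρ (τ + 1) i + it B ρ τ j)
    (τ : ℕ) (i : ι) :
    Rr B ρ ξ τ i ≤ 3 * it B (fun l => ρ l ^ 2) τ i := by
  have hcs := cs_moment B hB0 hB1 ρ v ξ hv0 hv τ i
  have hk := K_le B hB0 ρ v ξ hv00 hξ hvh ha τ i
  have hA := RA_le B hB0 hB1 ρ hρ v ξ hv0 hv hξ hvh τ i
  have hW : 0 ≤ it B (fun l => ρ l ^ 2) τ i :=
    it_nonneg B hB0 _ (fun l => sq_nonneg _) τ i
  have hR : 0 ≤ Rr B ρ ξ τ i := Rr_nonneg B hB0 ρ hρ _ hξ τ i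
  set W := it B (fun l => ρ l ^ 2) τ i
  set R := Rr B ρ ξ τ i
  have h : R ^ 2 ≤ W * (2 * W + 2 * R) := by
    refine hcs.trans (mul_le_mul_of_nonneg_left ?_ hW)
    linarith
  by_contra hcon
  push Not at hcon
  nlinarith

lemma Q_le_aux (B : ι → ι → ℝ) (hB0 : ∀ i j, 0 ≤ B i j)
    (ρ : ι → ℝ) (v : ℕ → ι → ℝ) (ξ : ℕ → ι → ι → ℝ)
    (hξ : ∀ τ i j, 0 ≤ ξ τ i j)
    (ha : ∀ τ i j, ξ τ i j + v (τ + 1) i + v τ j ≤ it B ρ (τ + 1) i + it B ρ τ j) :
    ∀ τ i, Qq B v ξ τ i ≤ Rr B ρ (ebar B ξ) τ i + Rr B ρ ξ τ i := by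
  intro τ
  induction τ with
  | zero => intro i; simp [Qq, Rr]
  | succ τ ih =>
    intro i
    rw [Qq_succ, Rr_succ, Rr_succ]
    set e := ∑ j, B i j * ξ τ i j with he
    have hee : ∀ j, ebar B ξ τ i j = e := fun _ => rfl
    simp only [hee]
    have hp : ∀ j, B i j * (Qq B v ξ τ j + ξ τ i j * (ξ τ i j + v (τ + 1) i + v τ j))
        ≤ B i j * (Rr B ρ (ebar B ξ) τ j + Rr B ρ ξ τ j)
          + (B i j * ξ τ i j) * it B ρ (τ + 1) i + B i j * (ξ τ i j * it B ρ τ j) := by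
      intro j
      have h1 := mul_le_mul_of_nonneg_left (ha τ i j) (hξ τ i j)
      have h4 : Qq B v ξ τ j + ξ τ i j * (ξ τ i j + v (τ + 1) i + v τ j)
          ≤ Rr B ρ (ebar B ξ) τ j + Rr B ρ ξ τ j
            + ξ τ i j * it B ρ (τ + 1) i + ξ τ i j * it B ρ τ j := by
        have := ih j
        nlinarith
      have := mul_le_mul_of_nonneg_left h4 (hB0 i j)
      nlinarith
    refine (Finset.sum_le_sum fun j _ => hp j).trans (le_of_eq ?_)
    have hL : ∀ j, B i j * (Rr B ρ (ebar B ξ) τ j + Rr B ρ ξ τ j)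
          + (B i j * ξ τ i j) * it B ρ (τ + 1) i + B i j * (ξ τ i j * it B ρ τ j)
        = B i j * Rr B ρ (ebar B ξ) τ j + B i j * Rr B ρ ξ τ j
          + (B i j * ξ τ i j) * it B ρ (τ + 1) i + B i j * (ξ τ i j * it B ρ τ j) := by
      intro j; ring
    have hR1 : ∀ j, B i j * (Rr B ρ (ebar B ξ) τ j + e * it B ρ τ j)
        = B i j * Rr B ρ (ebar B ξ) τ j + e * (B i j * it B ρ τ j) := by
      intro j; ring
    have hR2 : ∀ j, B i j * (Rr B ρ ξ τ j + ξ τ i j * it B ρ τ j)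
        = B i j * Rr B ρ ξ τ j + B i j * (ξ τ i j * it B ρ τ j) := by
      intro j; ring
    simp only [hL, hR1, hR2, Finset.sum_add_distrib, ← Finset.sum_mul, ← Finset.mul_sum]
    rw [← he, ← it_succ]
    ring

/-- Path-free Garsia bound. -/
theorem garsia (B : ι → ι → ℝ) (hB0 : ∀ i j, 0 ≤ B i j) (hB1 : ∀ i, ∑ j, B i j = 1)
    (ρ : ι → ℝ) (hρ : ∀ i, 0 ≤ ρ i) (v : ℕ → ι → ℝ) (ξ : ℕ → ι → ι → ℝ) (hv0 : ∀ i, v 0 i = 0)
    (hv : ∀ τ i, v (τ + 1) i = ∑ j, B i j * (v τ j + ξ τ i j)) (hv00 : ∀ τ i, 0 ≤ v τ i)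
    (hξ : ∀ τ i j, 0 ≤ ξ τ i j) (hvh : ∀ τ i, v τ i ≤ it B ρ τ i)
    (ha : ∀ τ i j, ξ τ i j + v (τ + 1) i + v τ j ≤ it B ρ (τ + 1) i + it B ρ τ j)
    (τ : ℕ) (i : ι) :
    Qq B v ξ τ i ≤ 5 * it B (fun l => ρ l ^ 2) τ i := by
  have h1 := Q_le_aux B hB0 ρ v ξ hξ ha τ i
  have h2 := RA_le B hB0 hB1 ρ hρ v ξ hv0 hv hξ hvh τ i
  have h3 := R_le B hB0 hB1 ρ hρ v ξ hv0 hv hv00 hξ hvh ha τ i
  linarith

end Garsia

section Cuts
variable {ι Θ : Type*} [Fintype ι] [Fintype Θ]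

/-- Potential: `v τ i = ∑ c θ f (1 - f)`. -/
def vv (B : ι → ι → ℝ) (c : Θ → ℝ) (g : Θ → ι → ℝ) (τ : ℕ) (i : ι) : ℝ :=
  ∑ θ, c θ * (it B (g θ) τ i * (1 - it B (g θ) τ i))

/-- One-step squared increment. -/
def xi (B : ι → ι → ℝ) (c : Θ → ℝ) (g : Θ → ι → ℝ) (τ : ℕ) (i j : ι) : ℝ :=
  ∑ θ, c θ * (it B (g θ) (τ + 1) i - it B (g θ) τ j) ^ 2

/-- The cut (pseudo) metric. -/
def dl (c : Θ → ℝ) (g : Θ → ι → ℝ) (k l : ι) : ℝ := ∑ θ, c θ * |g θ k - g θ l|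

lemma dl_nonneg (c : Θ → ℝ) (hc : ∀ θ, 0 ≤ c θ) (g : Θ → ι → ℝ) (k l : ι) : 0 ≤ dl c g k l :=
  Finset.sum_nonneg fun θ _ => mul_nonneg (hc θ) (abs_nonneg _)

lemma it_mem (B : ι → ι → ℝ) (hB0 : ∀ i j, 0 ≤ B i j) (hB1 : ∀ i, ∑ j, B i j = 1)
    (u : ι → ℝ) (hu : ∀ i, 0 ≤ u i ∧ u i ≤ 1) : ∀ τ i, 0 ≤ it B u τ i ∧ it B u τ i ≤ 1 := by
  intro τ
  induction τ with
  | zero => exact hu
  | succ τ ih =>
    intro i
    rw [it_succ]
    constructor
    · exact Finset.sum_nonneg fun j _ => mul_nonneg (hB0 i j) (ih j).1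
    · calc ∑ j, B i j * it B u τ j ≤ ∑ j, B i j * 1 :=
            Finset.sum_le_sum fun j _ => mul_le_mul_of_nonneg_left (ih j).2 (hB0 i j)
        _ = 1 := by simp [hB1]

lemma it_sum (B : ι → ι → ℝ) (c : Θ → ℝ) (u : Θ → ι → ℝ) :
    ∀ τ i, it B (fun l => ∑ θ, c θ * u θ l) τ i = ∑ θ, c θ * it B (u θ) τ i := by
  intro τ
  induction τ with
  | zero => intro i; rfl
  | succ τ ih =>
    intro i
    simp only [it_succ, ih, Finset.mul_sum]
    rw [Finset.sum_comm]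
    apply Finset.sum_congr rfl
    intro θ _
    apply Finset.sum_congr rfl
    intro j _
    ring

lemma it_one_sub (B : ι → ι → ℝ) (hB1 : ∀ i, ∑ j, B i j = 1) (u : ι → ℝ) :
    ∀ τ i, it B (fun l => 1 - u l) τ i = 1 - it B u τ i := by
  intro τ
  induction τ with
  | zero => intro i; rfl
  | succ τ ih =>
    intro i
    simp only [it_succ, ih, mul_sub, mul_one, Finset.sum_sub_distrib, hB1]

/-- Per-cut comparison: the walk-average of `|g - b|`. -/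
lemma it_abs (B : ι → ι → ℝ) (hB1 : ∀ i, ∑ j, B i j = 1) (u : ι → ℝ)
    (hu : ∀ i, u i = 0 ∨ u i = 1) (b : ℝ) (hb : b = 0 ∨ b = 1) (τ : ℕ) (i : ι) :
    (b = 0 ∧ it B (fun l => |b - u l|) τ i = it B u τ i)
      ∨ (b = 1 ∧ it B (fun l => |b - u l|) τ i = 1 - it B u τ i) := by
  rcases hb with rfl | rfl
  · left
    refine ⟨rfl, ?_⟩
    have : (fun l => |(0:ℝ) - u l|) = u := by
      funext l
      rcases hu l with h | h <;> simp [h]
    rw [this]
  · right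
    refine ⟨rfl, ?_⟩
    have : (fun l => |(1:ℝ) - u l|) = fun l => 1 - u l := by
      funext l
      rcases hu l with h | h <;> simp [h]
    rw [this, it_one_sub B hB1]

lemma vv_zero (B : ι → ι → ℝ) (c : Θ → ℝ) (g : Θ → ι → ℝ) (hg : ∀ θ i, g θ i = 0 ∨ g θ i = 1)
    (i : ι) : vv B c g 0 i = 0 := by
  unfold vv
  apply Finset.sum_eq_zero
  intro θ _
  rcases hg θ i with h | h <;> simp [it_zero, h]

lemma vv_nonneg (B : ι → ι → ℝ) (hB0 : ∀ i j, 0 ≤ B i j) (hB1 : ∀ i, ∑ j, B i j = 1)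
    (c : Θ → ℝ) (hc : ∀ θ, 0 ≤ c θ) (g : Θ → ι → ℝ) (hg : ∀ θ i, g θ i = 0 ∨ g θ i = 1)
    (τ : ℕ) (i : ι) : 0 ≤ vv B c g τ i := by
  unfold vv
  refine Finset.sum_nonneg fun θ _ => mul_nonneg (hc θ) ?_
  have h := it_mem B hB0 hB1 (g θ)
    (fun i => by rcases hg θ i with h | h <;> simp [h]) τ i
  exact mul_nonneg h.1 (by linarith [h.2])

lemma xi_nonneg (B : ι → ι → ℝ) (c : Θ → ℝ) (hc : ∀ θ, 0 ≤ c θ) (g : Θ → ι → ℝ)
    (τ : ℕ) (i j : ι) : 0 ≤ xi B c g τ i j :=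
  Finset.sum_nonneg fun θ _ => mul_nonneg (hc θ) (sq_nonneg _)

/-- The potential identity. -/
lemma vv_succ (B : ι → ι → ℝ) (hB1 : ∀ i, ∑ j, B i j = 1)
    (c : Θ → ℝ) (g : Θ → ι → ℝ) (τ : ℕ) (i : ι) :
    vv B c g (τ + 1) i = ∑ j, B i j * (vv B c g τ j + xi B c g τ i j) := by
  unfold vv xi
  simp only [← Finset.sum_add_distrib, Finset.mul_sum, ← mul_add]
  rw [Finset.sum_comm]
  apply Finset.sum_congr rfl
  intro θ _
  set p := it B (g θ) (τ + 1) i with hp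
  have hp' : ∑ j, B i j * it B (g θ) τ j = p := rfl
  have e : ∀ j, B i j * (c θ * (it B (g θ) τ j * (1 - it B (g θ) τ j)
        + (p - it B (g θ) τ j) ^ 2))
      = c θ * (B i j * p ^ 2 + (1 - 2 * p) * (B i j * it B (g θ) τ j)) := by
    intro j; ring
  simp only [e, ← Finset.mul_sum, Finset.sum_add_distrib]
  rw [hp', ← Finset.sum_mul, hB1]
  ring

/-- `a` as a cut sum. -/
lemma a_eq (B : ι → ι → ℝ) (c : Θ → ℝ) (g : Θ → ι → ℝ) (τ : ℕ) (i j : ι) :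
    xi B c g τ i j + vv B c g (τ + 1) i + vv B c g τ j
      = ∑ θ, c θ * (it B (g θ) (τ + 1) i + it B (g θ) τ j
          - 2 * it B (g θ) (τ + 1) i * it B (g θ) τ j) := by
  unfold xi vv
  simp only [← Finset.sum_add_distrib]
  apply Finset.sum_congr rfl
  intro θ _
  ring

lemma vv_le (B : ι → ι → ℝ) (hB0 : ∀ i j, 0 ≤ B i j) (hB1 : ∀ i, ∑ j, B i j = 1)
    (c : Θ → ℝ) (hc : ∀ θ, 0 ≤ c θ) (g : Θ → ι → ℝ) (hg : ∀ θ i, g θ i = 0 ∨ g θ i = 1)
    (k : ι) (τ : ℕ) (i : ι) : vv B c g τ i ≤ it B (dl c g k) τ i := by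
  have e : it B (dl c g k) τ i = ∑ θ, c θ * it B (fun l => |g θ k - g θ l|) τ i :=
    it_sum B c (fun θ l => |g θ k - g θ l|) τ i
  rw [e]
  unfold vv
  refine Finset.sum_le_sum fun θ _ => mul_le_mul_of_nonneg_left ?_ (hc θ)
  have h := it_mem B hB0 hB1 (g θ)
    (fun i => by rcases hg θ i with h | h <;> simp [h]) τ i
  rcases it_abs B hB1 (g θ) (hg θ) (g θ k) (hg θ k) τ i with ⟨_, h2⟩ | ⟨_, h2⟩ <;> rw [h2] <;>
    nlinarith [h.1, h.2]

lemma a_le (B : ι → ι → ℝ) (hB0 : ∀ i j, 0 ≤ B i j) (hB1 : ∀ i, ∑ j, B i j = 1)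
    (c : Θ → ℝ) (hc : ∀ θ, 0 ≤ c θ) (g : Θ → ι → ℝ) (hg : ∀ θ i, g θ i = 0 ∨ g θ i = 1)
    (k : ι) (τ : ℕ) (i j : ι) :
    xi B c g τ i j + vv B c g (τ + 1) i + vv B c g τ j
      ≤ it B (dl c g k) (τ + 1) i + it B (dl c g k) τ j := by
  have e : ∀ τ i, it B (dl c g k) τ i = ∑ θ, c θ * it B (fun l => |g θ k - g θ l|) τ i :=
    fun τ i => it_sum B c (fun θ l => |g θ k - g θ l|) τ i
  rw [a_eq, e, e, ← Finset.sum_add_distrib]
  refine Finset.sum_le_sum fun θ _ => ?_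
  rw [← mul_add]
  refine mul_le_mul_of_nonneg_left ?_ (hc θ)
  have hm : ∀ i, 0 ≤ g θ i ∧ g θ i ≤ 1 := fun i => by rcases hg θ i with h | h <;> simp [h]
  have h := it_mem B hB0 hB1 (g θ) hm (τ + 1) i
  have h' := it_mem B hB0 hB1 (g θ) hm τ j
  rcases it_abs B hB1 (g θ) (hg θ) (g θ k) (hg θ k) (τ + 1) i with ⟨h0, h2⟩ | ⟨h0, h2⟩ <;>
  rcases it_abs B hB1 (g θ) (hg θ) (g θ k) (hg θ k) τ j with ⟨h1, h3⟩ | ⟨h1, h3⟩
  · rw [h2, h3]; nlinarith [mul_nonneg h.1 h'.1]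
  · rw [h0] at h1; norm_num at h1
  · rw [h0] at h1; norm_num at h1
  · rw [h2, h3]; nlinarith [mul_nonneg (sub_nonneg.2 h.2) (sub_nonneg.2 h'.2)]

/-- Main cut bound, at any start `i` and any reference point `k`. -/
theorem Q_le (B : ι → ι → ℝ) (hB0 : ∀ i j, 0 ≤ B i j) (hB1 : ∀ i, ∑ j, B i j = 1)
    (c : Θ → ℝ) (hc : ∀ θ, 0 ≤ c θ) (g : Θ → ι → ℝ) (hg : ∀ θ i, g θ i = 0 ∨ g θ i = 1)
    (k : ι) (τ : ℕ) (i : ι) :
    Qq B (vv B c g) (xi B c g) τ i ≤ 5 * it B (fun l => dl c g k l ^ 2) τ i :=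
  garsia B hB0 hB1 (dl c g k) (dl_nonneg c hc g k) (vv B c g) (xi B c g)
    (vv_zero B c g hg) (vv_succ B hB1 c g) (vv_nonneg B hB0 hB1 c hc g hg)
    (xi_nonneg B c hc g) (vv_le B hB0 hB1 c hc g hg k) (a_le B hB0 hB1 c hc g hg k) τ i

/-- The weighted one-step cost at level `τ`. -/
def GG (w : ι → ℝ) (B : ι → ι → ℝ) (c : Θ → ℝ) (g : Θ → ι → ℝ) (τ : ℕ) : ℝ :=
  ∑ i, ∑ j, w i * B i j * (xi B c g τ i j
    * (xi B c g τ i j + vv B c g (τ + 1) i + vv B c g τ j))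

/-- The squared-distance form at level `τ`. -/
def DD (w : ι → ℝ) (B : ι → ι → ℝ) (c : Θ → ℝ) (g : Θ → ι → ℝ) (τ : ℕ) : ℝ :=
  ∑ k, w k * it B (fun l => dl c g k l ^ 2) τ k

lemma sum_w_Q (w : ι → ℝ) (B : ι → ι → ℝ) (hst : ∀ j, ∑ i, w i * B i j = w j)
    (c : Θ → ℝ) (g : Θ → ι → ℝ) (T : ℕ) :
    ∑ i, w i * Qq B (vv B c g) (xi B c g) T i = ∑ τ ∈ Finset.range T, GG w B c g τ := by
  induction T with
  | zero => simp [Qq]
  | succ T ih =>
    rw [Finset.sum_range_succ, ← ih]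
    have h1 : ∑ i, w i * Qq B (vv B c g) (xi B c g) T i
        = ∑ i, ∑ j, w i * B i j * Qq B (vv B c g) (xi B c g) T j := by
      rw [Finset.sum_comm]
      apply Finset.sum_congr rfl
      intro j _
      rw [← Finset.sum_mul, hst]
    have h2 : ∀ i, w i * Qq B (vv B c g) (xi B c g) (T + 1) i
        = ∑ j, w i * B i j * Qq B (vv B c g) (xi B c g) T j
          + ∑ j, w i * B i j * (xi B c g T i j
              * (xi B c g T i j + vv B c g (T + 1) i + vv B c g T j)) := by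
      intro i
      rw [Qq_succ, Finset.mul_sum, ← Finset.sum_add_distrib]
      apply Finset.sum_congr rfl
      intro j _
      ring
    simp only [h2, Finset.sum_add_distrib]
    rw [h1]
    rfl

/-- Sum of the one-step costs up to horizon `T` is at most `5` times the distance form. -/
theorem sum_GG_le (w : ι → ℝ) (hw : ∀ i, 0 ≤ w i) (B : ι → ι → ℝ)
    (hB0 : ∀ i j, 0 ≤ B i j) (hB1 : ∀ i, ∑ j, B i j = 1)
    (hst : ∀ j, ∑ i, w i * B i j = w j)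
    (c : Θ → ℝ) (hc : ∀ θ, 0 ≤ c θ) (g : Θ → ι → ℝ) (hg : ∀ θ i, g θ i = 0 ∨ g θ i = 1)
    (T : ℕ) :
    ∑ τ ∈ Finset.range T, GG w B c g τ ≤ 5 * DD w B c g T := by
  rw [← sum_w_Q w B hst c g T, DD, Finset.mul_sum]
  refine Finset.sum_le_sum fun k _ => ?_
  have := mul_le_mul_of_nonneg_left (Q_le B hB0 hB1 c hc g hg k T k) (hw k)
  nlinarith

end Cuts

section Psi

/-- The smooth threshold `ψ u = 3u² - 2u³`. -/
def psi (u : ℝ) : ℝ := 3 * u ^ 2 - 2 * u ^ 3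

lemma psi_diff_sq (p q : ℝ) (hp : 0 ≤ p ∧ p ≤ 1) (hq : 0 ≤ q ∧ q ≤ 1) :
    (psi p - psi q) ^ 2 ≤ (p - q) ^ 2 * ((9 / 2) * (p + q - 2 * p * q)) := by
  have e : psi p - psi q = (p - q) * (3 * (p + q) - 2 * (p ^ 2 + p * q + q ^ 2)) := by
    unfold psi; ring
  rw [e, mul_pow]
  refine mul_le_mul_of_nonneg_left ?_ (sq_nonneg _)
  obtain ⟨a, ha⟩ : ∃ a, a = p - 1 / 2 := ⟨_, rfl⟩
  obtain ⟨b, hb⟩ : ∃ b, b = q - 1 / 2 := ⟨_, rfl⟩
  have hp' : p = a + 1 / 2 := by linarith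
  have hq' : q = b + 1 / 2 := by linarith
  subst hp' hq'
  have ha1 : a ^ 2 ≤ 1 / 4 := by nlinarith [hp.1, hp.2]
  have hb1 : b ^ 2 ≤ 1 / 4 := by nlinarith [hq.1, hq.2]
  obtain ⟨Z, hZ⟩ : ∃ Z, Z = a ^ 2 + a * b + b ^ 2 := ⟨_, rfl⟩
  have hZ0 : 0 ≤ Z := by rw [hZ]; nlinarith [sq_nonneg (a + b), sq_nonneg a, sq_nonneg b]
  have hZ1 : Z ≤ 3 / 4 := by rw [hZ]; nlinarith [sq_nonneg (a - b)]
  have e1 : 3 * (a + 1 / 2 + (b + 1 / 2)) - 2 * ((a + 1 / 2) ^ 2 + (a + 1 / 2) * (b + 1 / 2)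
      + (b + 1 / 2) ^ 2) = 3 / 2 - 2 * Z := by rw [hZ]; ring
  have e2 : a + 1 / 2 + (b + 1 / 2) - 2 * (a + 1 / 2) * (b + 1 / 2) = 1 / 2 - 2 * (a * b) := by
    ring
  rw [e1, e2]
  have h3 : 3 * (a * b) ≤ Z := by rw [hZ]; nlinarith [sq_nonneg (a - b)]
  nlinarith [mul_nonneg hZ0 (sub_nonneg.2 hZ1)]

lemma psi_le (p : ℝ) (hp : 0 ≤ p) : psi p ≤ 9 / 8 * p := by
  unfold psi
  nlinarith [mul_nonneg hp (sq_nonneg (p - 3 / 4))]

lemma one_sub_psi_le (p : ℝ) (hp : p ≤ 1) : 1 - psi p ≤ 9 / 8 * (1 - p) := by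
  unfold psi
  nlinarith [mul_nonneg (sub_nonneg.2 hp) (sq_nonneg (1 - p - 3 / 4))]

lemma psi_nonneg (p : ℝ) (hp : 0 ≤ p ∧ p ≤ 1) : 0 ≤ psi p := by
  unfold psi
  nlinarith [mul_nonneg (sq_nonneg p) (sub_nonneg.2 hp.2), sq_nonneg p]

lemma psi_le_one (p : ℝ) (hp : 0 ≤ p ∧ p ≤ 1) : psi p ≤ 1 := by
  unfold psi
  nlinarith [mul_nonneg (sq_nonneg (1 - p)) (add_nonneg (mul_nonneg (by norm_num : (0:ℝ) ≤ 2) hp.1)
    (by norm_num : (0:ℝ) ≤ 1))]

variable {Θ : Type*} [Fintype Θ]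

lemma cs_cut (c : Θ → ℝ) (hc : ∀ θ, 0 ≤ c θ) (p q : Θ → ℝ) (hp : ∀ θ, 0 ≤ p θ ∧ p θ ≤ 1)
    (hq : ∀ θ, 0 ≤ q θ ∧ q θ ≤ 1) :
    (∑ θ, c θ * |psi (p θ) - psi (q θ)|) ^ 2
      ≤ (9 / 2) * ((∑ θ, c θ * (p θ - q θ) ^ 2)
          * (∑ θ, c θ * (p θ + q θ - 2 * p θ * q θ))) := by
  have := Finset.sum_sq_le_sum_mul_sum_of_sq_le_mul (Finset.univ : Finset Θ)
    (r := fun θ => c θ * |psi (p θ) - psi (q θ)|)
    (f := fun θ => c θ * (p θ - q θ) ^ 2)
    (g := fun θ => c θ * ((9 / 2) * (p θ + q θ - 2 * p θ * q θ)))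
    (fun θ _ => mul_nonneg (hc θ) (sq_nonneg _))
    (fun θ _ => mul_nonneg (hc θ) (by
      have h1 := hp θ
      have h2 := hq θ
      nlinarith [mul_nonneg h1.1 (sub_nonneg.2 h2.2), mul_nonneg h2.1 (sub_nonneg.2 h1.2)]))
    (fun θ _ => by
      have h := psi_diff_sq (p θ) (q θ) (hp θ) (hq θ)
      rw [mul_pow, sq_abs]
      have := mul_le_mul_of_nonneg_left h (sq_nonneg (c θ))
      nlinarith)
  refine this.trans (le_of_eq ?_)
  have e : ∑ θ, c θ * ((9 / 2) * (p θ + q θ - 2 * p θ * q θ))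
      = (9 / 2) * ∑ θ, c θ * (p θ + q θ - 2 * p θ * q θ) := by
    rw [Finset.mul_sum]
    apply Finset.sum_congr rfl
    intro θ _
    ring
  rw [e]
  ring

end Psi

section Cost
variable {ι Θ : Type*} [Fintype ι] [Fintype Θ]

/-- Weighted `ℓ₁`-distance between two cut profiles. -/
def LL (c : Θ → ℝ) (u u' : Θ → ℝ) : ℝ := ∑ θ, c θ * |u θ - u' θ|

lemma LL_nonneg (c : Θ → ℝ) (hc : ∀ θ, 0 ≤ c θ) (u u' : Θ → ℝ) : 0 ≤ LL c u u' :=
  Finset.sum_nonneg fun θ _ => mul_nonneg (hc θ) (abs_nonneg _)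

lemma LL_comm (c : Θ → ℝ) (u u' : Θ → ℝ) : LL c u u' = LL c u' u := by
  unfold LL
  simp only [abs_sub_comm]

lemma LL_triangle (c : Θ → ℝ) (hc : ∀ θ, 0 ≤ c θ) (u u' u'' : Θ → ℝ) :
    LL c u u'' ≤ LL c u u' + LL c u' u'' := by
  unfold LL
  rw [← Finset.sum_add_distrib]
  refine Finset.sum_le_sum fun θ _ => ?_
  rw [← mul_add]
  exact mul_le_mul_of_nonneg_left (abs_sub_le _ _ _) (hc θ)

/-- The smoothed profile. -/
def yy (B : ι → ι → ℝ) (g : Θ → ι → ℝ) (τ : ℕ) (i : ι) (θ : Θ) : ℝ := psi (it B (g θ) τ i)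

/-- The martingale step cost. -/
def EE (w : ι → ℝ) (B : ι → ι → ℝ) (c : Θ → ℝ) (g : Θ → ι → ℝ) (τ : ℕ) : ℝ :=
  ∑ i, ∑ j, w i * B i j * LL c (yy B g (τ + 1) i) (yy B g τ j) ^ 2

lemma EE_le_GG (w : ι → ℝ) (hw : ∀ i, 0 ≤ w i) (B : ι → ι → ℝ)
    (hB0 : ∀ i j, 0 ≤ B i j) (hB1 : ∀ i, ∑ j, B i j = 1)
    (c : Θ → ℝ) (hc : ∀ θ, 0 ≤ c θ) (g : Θ → ι → ℝ) (hg : ∀ θ i, g θ i = 0 ∨ g θ i = 1)
    (τ : ℕ) : EE w B c g τ ≤ (9 / 2) * GG w B c g τ := by
  unfold EE GG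
  rw [Finset.mul_sum]
  refine Finset.sum_le_sum fun i _ => ?_
  rw [Finset.mul_sum]
  refine Finset.sum_le_sum fun j _ => ?_
  have hm : ∀ θ i, 0 ≤ g θ i ∧ g θ i ≤ 1 := fun θ i => by rcases hg θ i with h | h <;> simp [h]
  have h := cs_cut c hc (fun θ => it B (g θ) (τ + 1) i) (fun θ => it B (g θ) τ j)
    (fun θ => it_mem B hB0 hB1 (g θ) (hm θ) (τ + 1) i)
    (fun θ => it_mem B hB0 hB1 (g θ) (hm θ) τ j)
  rw [← a_eq] at h
  have h' : LL c (yy B g (τ + 1) i) (yy B g τ j) ^ 2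
      ≤ (9 / 2) * (xi B c g τ i j * (xi B c g τ i j + vv B c g (τ + 1) i + vv B c g τ j)) := h
  have := mul_le_mul_of_nonneg_left h' (mul_nonneg (hw i) (hB0 i j))
  nlinarith

/-- The lazy kernel. -/
noncomputable def lazyK [DecidableEq ι] (A : ι → ι → ℝ) (i j : ι) : ℝ :=
  (1 / 2) * ((if i = j then 1 else 0) + A i j)

lemma lazy_nonneg [DecidableEq ι] (A : ι → ι → ℝ) (hA0 : ∀ i j, 0 ≤ A i j) (i j : ι) :
    0 ≤ lazyK A i j := by
  unfold lazyK
  have := hA0 i j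
  split_ifs <;> linarith

lemma lazy_sum [DecidableEq ι] (A : ι → ι → ℝ) (hA1 : ∀ i, ∑ j, A i j = 1) (i : ι) :
    ∑ j, lazyK A i j = 1 := by
  unfold lazyK
  rw [← Finset.mul_sum, Finset.sum_add_distrib, hA1]
  simp only [Finset.sum_ite_eq, Finset.mem_univ, if_true]
  norm_num

lemma lazy_stat [DecidableEq ι] (w : ι → ℝ) (A : ι → ι → ℝ)
    (hst : ∀ j, ∑ i, w i * A i j = w j) (j : ι) :
    ∑ i, w i * lazyK A i j = w j := by
  unfold lazyK
  have : ∀ i, w i * ((1 / 2) * ((if i = j then 1 else 0) + A i j))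
      = (1 / 2) * ((if i = j then w i else 0) + w i * A i j) := by
    intro i
    split_ifs <;> ring
  simp only [this]
  rw [← Finset.mul_sum, Finset.sum_add_distrib, hst]
  simp only [Finset.sum_ite_eq', Finset.mem_univ, if_true]
  ring

/-- The time-shift lemma: the Dirichlet form of `u` is at most four times the mixed cost. -/
lemma dir_le [DecidableEq ι] (w : ι → ℝ) (hw : ∀ i, 0 ≤ w i) (A : ι → ι → ℝ)
    (hA0 : ∀ i j, 0 ≤ A i j) (hst : ∀ j, ∑ i, w i * A i j = w j)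
    (c : Θ → ℝ) (hc : ∀ θ, 0 ≤ c θ) (u u' : ι → Θ → ℝ) :
    ∑ i, ∑ j, w i * A i j * LL c (u i) (u j) ^ 2
      ≤ 4 * ∑ i, ∑ j, w i * lazyK A i j * LL c (u i) (u' j) ^ 2 := by
  have h1 : ∀ i j, LL c (u i) (u j) ^ 2
      ≤ 2 * LL c (u i) (u' j) ^ 2 + 2 * LL c (u j) (u' j) ^ 2 := by
    intro i j
    have h := LL_triangle c hc (u i) (u' j) (u j)
    rw [LL_comm c (u' j) (u j)] at h
    have h0 := LL_nonneg c hc (u i) (u j)
    nlinarith [sq_nonneg (LL c (u i) (u' j) - LL c (u j) (u' j))]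
  have h2 : ∑ i, ∑ j, w i * A i j * LL c (u i) (u j) ^ 2
      ≤ 2 * ∑ i, ∑ j, w i * A i j * LL c (u i) (u' j) ^ 2
        + 2 * ∑ j, w j * LL c (u j) (u' j) ^ 2 := by
    have e : ∑ j, w j * LL c (u j) (u' j) ^ 2
        = ∑ i, ∑ j, w i * A i j * LL c (u j) (u' j) ^ 2 := by
      rw [Finset.sum_comm]
      apply Finset.sum_congr rfl
      intro j _
      rw [← Finset.sum_mul, hst]
    rw [e, Finset.mul_sum, Finset.mul_sum, ← Finset.sum_add_distrib]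
    refine Finset.sum_le_sum fun i _ => ?_
    rw [Finset.mul_sum, Finset.mul_sum, ← Finset.sum_add_distrib]
    refine Finset.sum_le_sum fun j _ => ?_
    have := mul_le_mul_of_nonneg_left (h1 i j) (mul_nonneg (hw i) (hA0 i j))
    nlinarith
  have h3 : 4 * ∑ i, ∑ j, w i * lazyK A i j * LL c (u i) (u' j) ^ 2
      = 2 * ∑ i, ∑ j, w i * A i j * LL c (u i) (u' j) ^ 2
        + 2 * ∑ i, w i * LL c (u i) (u' i) ^ 2 := by
    rw [Finset.mul_sum, Finset.mul_sum, Finset.mul_sum, ← Finset.sum_add_distrib]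
    apply Finset.sum_congr rfl
    intro i _
    have e : ∀ j, w i * lazyK A i j * LL c (u i) (u' j) ^ 2
        = (1 / 2) * ((if i = j then w i * LL c (u i) (u' j) ^ 2 else 0)
          + w i * A i j * LL c (u i) (u' j) ^ 2) := by
      intro j
      unfold lazyK
      split_ifs <;> ring
    simp only [e]
    rw [← Finset.mul_sum, Finset.sum_add_distrib]
    simp only [Finset.sum_ite_eq, Finset.mem_univ, if_true]
    ring
  rw [h3]
  exact h2

/-- The `a`-term is controlled by the walk distance. -/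
lemma aterm_le (B : ι → ι → ℝ) (hB0 : ∀ i j, 0 ≤ B i j) (hB1 : ∀ i, ∑ j, B i j = 1)
    (c : Θ → ℝ) (hc : ∀ θ, 0 ≤ c θ) (g : Θ → ι → ℝ) (hg : ∀ θ i, g θ i = 0 ∨ g θ i = 1)
    (τ : ℕ) (i : ι) :
    LL c (fun θ => g θ i) (yy B g τ i) ≤ 9 / 8 * it B (dl c g i) τ i := by
  have e : it B (dl c g i) τ i = ∑ θ, c θ * it B (fun l => |g θ i - g θ l|) τ i :=
    it_sum B c (fun θ l => |g θ i - g θ l|) τ i
  rw [e, Finset.mul_sum]
  unfold LL
  refine Finset.sum_le_sum fun θ _ => ?_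
  have hm : ∀ i, 0 ≤ g θ i ∧ g θ i ≤ 1 := fun i => by rcases hg θ i with h | h <;> simp [h]
  have h := it_mem B hB0 hB1 (g θ) hm τ i
  have hψ0 := psi_nonneg _ h
  have hψ1 := psi_le_one _ h
  have : |g θ i - yy B g τ i θ| ≤ 9 / 8 * it B (fun l => |g θ i - g θ l|) τ i := by
    unfold yy
    rcases it_abs B hB1 (g θ) (hg θ) (g θ i) (hg θ i) τ i with ⟨h0, h2⟩ | ⟨h0, h2⟩
    · rw [h2, h0, zero_sub, abs_neg, abs_of_nonneg hψ0]
      exact psi_le _ h.1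
    · rw [h2, h0, abs_of_nonneg (by linarith)]
      exact one_sub_psi_le _ h.2
  have := mul_le_mul_of_nonneg_left this (hc θ)
  nlinarith

/-- Convexity along the walk. -/
lemma it_sq_le (B : ι → ι → ℝ) (hB0 : ∀ i j, 0 ≤ B i j) (hB1 : ∀ i, ∑ j, B i j = 1)
    (u : ι → ℝ) : ∀ τ i, it B u τ i ^ 2 ≤ it B (fun l => u l ^ 2) τ i := by
  intro τ
  induction τ with
  | zero => intro i; exact le_refl _
  | succ τ ih =>
    intro i
    rw [it_succ, it_succ]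
    have := Finset.sum_sq_le_sum_mul_sum_of_sq_le_mul (Finset.univ : Finset ι)
      (r := fun j => B i j * it B u τ j) (f := fun j => B i j)
      (g := fun j => B i j * it B u τ j ^ 2)
      (fun j _ => hB0 i j) (fun j _ => mul_nonneg (hB0 i j) (sq_nonneg _))
      (fun j _ => by nlinarith)
    rw [hB1, one_mul] at this
    refine this.trans (Finset.sum_le_sum fun j _ => ?_)
    exact mul_le_mul_of_nonneg_left (ih j) (hB0 i j)

/-- The objective at level `τ` is controlled. -/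
theorem obj_le [DecidableEq ι] (w : ι → ℝ) (hw : ∀ i, 0 ≤ w i) (A : ι → ι → ℝ)
    (hA0 : ∀ i j, 0 ≤ A i j) (hA1 : ∀ i, ∑ j, A i j = 1)
    (hst : ∀ j, ∑ i, w i * A i j = w j)
    (c : Θ → ℝ) (hc : ∀ θ, 0 ≤ c θ) (g : Θ → ι → ℝ) (hg : ∀ θ i, g θ i = 0 ∨ g θ i = 1)
    (r : ℝ) (hr : 0 ≤ r) (τ : ℕ) :
    ∑ i, w i * LL c (fun θ => g θ i) (yy (lazyK A) g (τ + 1) i) ^ 2
      + r * ∑ i, ∑ j, w i * A i j * LL c (yy (lazyK A) g (τ + 1) i) (yy (lazyK A) g (τ + 1) j) ^ 2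
      ≤ 81 / 64 * DD w (lazyK A) c g (τ + 1) + 18 * r * GG w (lazyK A) c g τ := by
  have hB0 := lazy_nonneg A hA0
  have hB1 := lazy_sum A hA1
  have h1 : ∑ i, w i * LL c (fun θ => g θ i) (yy (lazyK A) g (τ + 1) i) ^ 2
      ≤ 81 / 64 * DD w (lazyK A) c g (τ + 1) := by
    unfold DD
    rw [Finset.mul_sum]
    refine Finset.sum_le_sum fun i _ => ?_
    have h := aterm_le (lazyK A) hB0 hB1 c hc g hg (τ + 1) i
    have h0 := LL_nonneg c hc (fun θ => g θ i) (yy (lazyK A) g (τ + 1) i)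
    have h2 := it_sq_le (lazyK A) hB0 hB1 (dl c g i) (τ + 1) i
    have h3 : LL c (fun θ => g θ i) (yy (lazyK A) g (τ + 1) i) ^ 2
        ≤ 81 / 64 * it (lazyK A) (fun l => dl c g i l ^ 2) (τ + 1) i := by
      have h4 : LL c (fun θ => g θ i) (yy (lazyK A) g (τ + 1) i) ^ 2
          ≤ (9 / 8 * it (lazyK A) (dl c g i) (τ + 1) i) ^ 2 :=
        pow_le_pow_left₀ h0 h 2
      nlinarith
    have := mul_le_mul_of_nonneg_left h3 (hw i)
    nlinarith
  have h2 : ∑ i, ∑ j, w i * A i j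
        * LL c (yy (lazyK A) g (τ + 1) i) (yy (lazyK A) g (τ + 1) j) ^ 2
      ≤ 18 * GG w (lazyK A) c g τ := by
    have h5 := dir_le w hw A hA0 hst c hc (yy (lazyK A) g (τ + 1)) (yy (lazyK A) g τ)
    have h6 := EE_le_GG w hw (lazyK A) hB0 hB1 c hc g hg τ
    have h7 : EE w (lazyK A) c g τ
        = ∑ i, ∑ j, w i * lazyK A i j * LL c (yy (lazyK A) g (τ + 1) i) (yy (lazyK A) g τ j) ^ 2 :=
      rfl
    rw [← h7] at h5
    linarith
  have h8 := mul_le_mul_of_nonneg_left h2 hr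
  nlinarith

end Cost

section Powers
variable {ι Θ : Type*} [Fintype ι] [Fintype Θ] [DecidableEq ι]

/-- Abstract form of: the time-sum of the lazy powers is at most twice the time-sum of the
powers. -/
lemma sum_Z_le (Z : ℕ → ℕ → ℝ) (hZ : ∀ T s, Z (T + 1) s = (Z T s + Z T (s + 1)) / 2)
    (h0 : ∀ s, 0 ≤ Z 0 s) :
    ∀ N s0, ∑ T ∈ Finset.range (N + 1), Z T s0
      ≤ 2 * ∑ s ∈ Finset.range (N + 1), Z 0 (s0 + s) := by
  intro N
  induction N with
  | zero =>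
    intro s0
    simp only [zero_add, Finset.sum_range_one, add_zero]
    linarith [h0 s0]
  | succ N ih =>
    intro s0
    rw [Finset.sum_range_succ']
    simp only [hZ]
    rw [← Finset.sum_div, Finset.sum_add_distrib]
    have h1 := ih s0
    have h2 := ih (s0 + 1)
    have e1 : ∑ s ∈ Finset.range (N + 1 + 1), Z 0 (s0 + s)
        = ∑ s ∈ Finset.range (N + 1), Z 0 (s0 + s) + Z 0 (s0 + (N + 1)) :=
      Finset.sum_range_succ _ _
    have e2 : ∑ s ∈ Finset.range (N + 1 + 1), Z 0 (s0 + s)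
        = ∑ s ∈ Finset.range (N + 1), Z 0 (s0 + 1 + s) + Z 0 (s0 + 0) := by
      rw [Finset.sum_range_succ']
      congr 1
      apply Finset.sum_congr rfl
      intro s _
      congr 1
      ring
    have h3 := h0 (s0 + (N + 1))
    have e3 : Z 0 (s0 + 0) = Z 0 s0 := rfl
    rw [e3] at e2
    linarith

/-- The quadratic form attached to a matrix. -/
def Dm (w : ι → ℝ) (c : Θ → ℝ) (g : Θ → ι → ℝ) (M : Matrix ι ι ℝ) : ℝ :=
  ∑ i, ∑ j, w i * M i j * dl c g i j ^ 2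

lemma Dm_add (w : ι → ℝ) (c : Θ → ℝ) (g : Θ → ι → ℝ) (M M' : Matrix ι ι ℝ) :
    Dm w c g (M + M') = Dm w c g M + Dm w c g M' := by
  unfold Dm
  rw [← Finset.sum_add_distrib]
  apply Finset.sum_congr rfl
  intro i _
  rw [← Finset.sum_add_distrib]
  apply Finset.sum_congr rfl
  intro j _
  rw [Matrix.add_apply]
  ring

lemma Dm_smul (w : ι → ℝ) (c : Θ → ℝ) (g : Θ → ι → ℝ) (r : ℝ) (M : Matrix ι ι ℝ) :
    Dm w c g (r • M) = r * Dm w c g M := by
  unfold Dm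
  rw [Finset.mul_sum]
  apply Finset.sum_congr rfl
  intro i _
  rw [Finset.mul_sum]
  apply Finset.sum_congr rfl
  intro j _
  rw [Matrix.smul_apply, smul_eq_mul]
  ring

lemma Dm_sum (w : ι → ℝ) (c : Θ → ℝ) (g : Θ → ι → ℝ) (S : Finset ℕ) (M : ℕ → Matrix ι ι ℝ) :
    Dm w c g (∑ s ∈ S, M s) = ∑ s ∈ S, Dm w c g (M s) := by
  classical
  induction S using Finset.induction_on with
  | empty =>
    simp [Dm]
  | insert a S ha ih =>
    rw [Finset.sum_insert ha, Finset.sum_insert ha, Dm_add, ih]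

lemma Dm_one (w : ι → ℝ) (c : Θ → ℝ) (g : Θ → ι → ℝ) : Dm w c g 1 = 0 := by
  unfold Dm
  apply Finset.sum_eq_zero
  intro i _
  apply Finset.sum_eq_zero
  intro j _
  by_cases h : i = j
  · subst h
    have : dl c g i i = 0 := by simp [dl]
    rw [this]; ring
  · rw [Matrix.one_apply_ne h]; ring

lemma pow_entry_nonneg (A : Matrix ι ι ℝ) (hA0 : ∀ i j, 0 ≤ A i j) (s : ℕ) :
    ∀ i j, 0 ≤ (A ^ s) i j := by
  induction s with
  | zero =>
    intro i j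
    rw [pow_zero, Matrix.one_apply]
    split_ifs <;> norm_num
  | succ s ih =>
    intro i j
    rw [pow_succ, Matrix.mul_apply]
    exact Finset.sum_nonneg fun k _ => mul_nonneg (ih i k) (hA0 k j)

lemma Dm_nonneg (w : ι → ℝ) (hw : ∀ i, 0 ≤ w i) (c : Θ → ℝ) (g : Θ → ι → ℝ) (M : Matrix ι ι ℝ)
    (hM : ∀ i j, 0 ≤ M i j) : 0 ≤ Dm w c g M :=
  Finset.sum_nonneg fun i _ => Finset.sum_nonneg fun j _ =>
    mul_nonneg (mul_nonneg (hw i) (hM i j)) (sq_nonneg _)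

/-- The lazy matrix. -/
noncomputable def lazyM (A : Matrix ι ι ℝ) : Matrix ι ι ℝ := (1 / 2 : ℝ) • (1 + A)

lemma lazyM_apply (A : Matrix ι ι ℝ) (i j : ι) : lazyM A i j = lazyK (fun i j => A i j) i j := by
  unfold lazyM lazyK
  rw [Matrix.smul_apply, Matrix.add_apply, Matrix.one_apply, smul_eq_mul]

lemma it_eq_mulVec (A : Matrix ι ι ℝ) (u : ι → ℝ) :
    ∀ τ i, it (lazyK (fun i j => A i j)) u τ i = ((lazyM A ^ τ).mulVec u) i := by
  intro τ
  induction τ with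
  | zero =>
    intro i
    simp [it_zero]
  | succ τ ih =>
    intro i
    rw [pow_succ', ← Matrix.mulVec_mulVec, it_succ]
    simp only [Matrix.mulVec, dotProduct, ih, lazyM_apply]

lemma DD_eq (w : ι → ℝ) (A : Matrix ι ι ℝ) (c : Θ → ℝ) (g : Θ → ι → ℝ) (τ : ℕ) :
    DD w (lazyK (fun i j => A i j)) c g τ = Dm w c g (lazyM A ^ τ) := by
  unfold DD Dm
  apply Finset.sum_congr rfl
  intro k _
  rw [it_eq_mulVec]
  simp only [Matrix.mulVec, dotProduct]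
  rw [Finset.mul_sum]
  apply Finset.sum_congr rfl
  intro l _
  ring

/-- Main estimate for the lazy powers. -/
theorem sum_DD_le (w : ι → ℝ) (hw : ∀ i, 0 ≤ w i) (A : Matrix ι ι ℝ) (hA0 : ∀ i j, 0 ≤ A i j)
    (c : Θ → ℝ) (g : Θ → ι → ℝ) (N : ℕ) :
    ∑ T ∈ Finset.range (N + 1), DD w (lazyK (fun i j => A i j)) c g T
      ≤ 2 * ∑ s ∈ Finset.range (N + 1), Dm w c g (A ^ s) := by
  have h := sum_Z_le (fun T s => Dm w c g (lazyM A ^ T * A ^ s)) ?_ ?_ N 0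
  · simp only [DD_eq]
    simpa using h
  · intro T s
    have e : lazyM A ^ (T + 1) * A ^ s
        = (1 / 2 : ℝ) • (lazyM A ^ T * A ^ s + lazyM A ^ T * A ^ (s + 1)) := by
      rw [pow_succ, mul_assoc]
      have : lazyM A * A ^ s = (1 / 2 : ℝ) • (A ^ s + A ^ (s + 1)) := by
        unfold lazyM
        rw [Matrix.smul_mul, add_mul, one_mul, pow_succ']
      rw [this, Matrix.mul_smul, mul_add]
    show Dm w c g (lazyM A ^ (T + 1) * A ^ s)
      = (Dm w c g (lazyM A ^ T * A ^ s) + Dm w c g (lazyM A ^ T * A ^ (s + 1))) / 2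
    rw [e, Dm_smul, Dm_add]
    ring
  · intro s
    simp only [pow_zero, one_mul]
    exact Dm_nonneg w hw c g _ (pow_entry_nonneg A hA0 s)

end Powers

section Core
variable {ι Θ : Type*} [Fintype ι] [Fintype Θ] [DecidableEq ι]

/-- The finite core theorem. -/
theorem core (c : Θ → ℝ) (hc : ∀ θ, 0 ≤ c θ) (g : Θ → ι → ℝ)
    (hg : ∀ θ i, g θ i = 0 ∨ g θ i = 1) (t : ℕ) (ht : 1 ≤ t)
    (w : ι → ℝ) (A : Matrix ι ι ℝ) (hw : ∀ i, 0 ≤ w i)
    (hA : ∀ i j, 0 ≤ A i j) (hA1 : ∀ i, ∑ j, A i j = 1)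
    (hrev : ∀ i j, w i * A i j = w j * A j i) :
    ∃ φ : Θ → ι → ℝ,
      ∑ i, w i * (∑ θ, c θ * |g θ i - φ θ i|) ^ 2
        + t * ∑ i, ∑ j, w i * A i j * (∑ θ, c θ * |φ θ i - φ θ j|) ^ 2
      ≤ 3024 * ∑ i, ∑ j, w i * ((1 / (t : ℝ)) • ∑ s ∈ Finset.Icc 1 t, A ^ s) i j
          * (∑ θ, c θ * |g θ i - g θ j|) ^ 2 := by
  have hst : ∀ j, ∑ i, w i * A i j = w j := by
    intro j
    have : ∀ i, w i * A i j = w j * A j i := fun i => hrev i j
    simp only [this]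
    rw [← Finset.mul_sum, hA1, mul_one]
  set B : ι → ι → ℝ := lazyK (fun i j => A i j) with hB
  have hB0 : ∀ i j, 0 ≤ B i j := lazy_nonneg _ hA
  have hB1 : ∀ i, ∑ j, B i j = 1 := lazy_sum _ hA1
  have hstB : ∀ j, ∑ i, w i * B i j = w j := lazy_stat w _ hst
  have htpos : (0 : ℝ) < t := by exact_mod_cast ht
  -- the total form
  set Y : ℝ := ∑ s ∈ Finset.Icc 1 t, Dm w c g (A ^ s) with hY
  have hY0 : 0 ≤ Y := Finset.sum_nonneg fun s _ =>
    Dm_nonneg w hw c g _ (pow_entry_nonneg A hA s)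
  have hRHS : ∑ i, ∑ j, w i * ((1 / (t : ℝ)) • ∑ s ∈ Finset.Icc 1 t, A ^ s) i j
      * (∑ θ, c θ * |g θ i - g θ j|) ^ 2 = Y / t := by
    have : ∑ i, ∑ j, w i * ((1 / (t : ℝ)) • ∑ s ∈ Finset.Icc 1 t, A ^ s) i j
        * (∑ θ, c θ * |g θ i - g θ j|) ^ 2
        = Dm w c g ((1 / (t : ℝ)) • ∑ s ∈ Finset.Icc 1 t, A ^ s) := rfl
    rw [this, Dm_smul, Dm_sum]
    ring
  -- partial sums of the form
  have hpart : ∀ N, N ≤ t → ∑ T ∈ Finset.range (N + 1), DD w B c g T ≤ 2 * Y := by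
    intro N hN
    have h1 := sum_DD_le w hw A hA c g N
    refine h1.trans ?_
    have h2 : ∑ s ∈ Finset.range (N + 1), Dm w c g (A ^ s) ≤ Y := by
      rw [Finset.sum_range_succ', pow_zero, Dm_one, add_zero, hY]
      have e : ∑ s ∈ Finset.range N, Dm w c g (A ^ (s + 1))
          = ∑ s ∈ Finset.image (· + 1) (Finset.range N), Dm w c g (A ^ s) := by
        rw [Finset.sum_image]
        intro a _ b _ hab
        simpa using hab
      rw [e]
      apply Finset.sum_le_sum_of_subset_of_nonneg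
      · intro s hs
        simp only [Finset.mem_image, Finset.mem_range] at hs
        obtain ⟨a, ha, rfl⟩ := hs
        simp only [Finset.mem_Icc]
        omega
      · intro s _ _
        exact Dm_nonneg w hw c g _ (pow_entry_nonneg A hA s)
    linarith
  have hDD0 : ∀ T, 0 ≤ DD w B c g T := by
    intro T
    exact Finset.sum_nonneg fun k _ => mul_nonneg (hw k)
      (it_nonneg B hB0 _ (fun l => sq_nonneg _) T k)
  have hpart' : ∀ T, T < t → ∑ τ ∈ Finset.range (T + 1), DD w B c g (τ + 1) ≤ 2 * Y := by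
    intro T hT
    have h1 := hpart (T + 1) hT
    rw [Finset.sum_range_succ'] at h1
    linarith [hDD0 0]
  -- objective
  let F : ℕ → ℝ := fun τ =>
    ∑ i, w i * LL c (fun θ => g θ i) (yy B g (τ + 1) i) ^ 2
      + (t : ℝ) * ∑ i, ∑ j, w i * A i j * LL c (yy B g (τ + 1) i) (yy B g (τ + 1) j) ^ 2
  have hF : ∀ τ, F τ ≤ 81 / 64 * DD w B c g (τ + 1) + 18 * (t : ℝ) * GG w B c g τ := fun τ =>
    obj_le w hw _ hA hA1 hst c hc g hg t htpos.le τ
  have hFsum : ∀ T, T < t → ∑ τ ∈ Finset.range (T + 1), F τ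
      ≤ 81 / 64 * (2 * Y) + 18 * (t : ℝ) * (5 * DD w B c g (T + 1)) := by
    intro T hT
    have h1 : ∑ τ ∈ Finset.range (T + 1), F τ
        ≤ ∑ τ ∈ Finset.range (T + 1), (81 / 64 * DD w B c g (τ + 1)
            + 18 * (t : ℝ) * GG w B c g τ) :=
      Finset.sum_le_sum fun τ _ => hF τ
    have h1' : ∑ τ ∈ Finset.range (T + 1), (81 / 64 * DD w B c g (τ + 1)
            + 18 * (t : ℝ) * GG w B c g τ)
        = 81 / 64 * ∑ τ ∈ Finset.range (T + 1), DD w B c g (τ + 1)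
          + 18 * (t : ℝ) * ∑ τ ∈ Finset.range (T + 1), GG w B c g τ := by
      rw [Finset.sum_add_distrib, ← Finset.mul_sum, ← Finset.mul_sum]
    rw [h1'] at h1
    have h2 := hpart' T hT
    have h3 := sum_GG_le w hw B hB0 hB1 hstB c hc g hg (T + 1)
    have h4 := mul_le_mul_of_nonneg_left h3 (mul_nonneg (by norm_num : (0:ℝ) ≤ 18) htpos.le)
    linarith
  have hdouble : ∑ T ∈ Finset.range t, ∑ τ ∈ Finset.range (T + 1), F τ ≤ 183 * (t : ℝ) * Y := by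
    have h1 : ∑ T ∈ Finset.range t, ∑ τ ∈ Finset.range (T + 1), F τ
        ≤ ∑ T ∈ Finset.range t, (81 / 64 * (2 * Y)
            + 18 * (t : ℝ) * (5 * DD w B c g (T + 1))) :=
      Finset.sum_le_sum fun T hT => hFsum T (Finset.mem_range.1 hT)
    have h1' : ∑ T ∈ Finset.range t, (81 / 64 * (2 * Y)
            + 18 * (t : ℝ) * (5 * DD w B c g (T + 1)))
        = (t : ℝ) * (81 / 64 * (2 * Y))
          + 18 * (t : ℝ) * (5 * ∑ T ∈ Finset.range t, DD w B c g (T + 1)) := by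
      rw [Finset.sum_add_distrib, Finset.sum_const, Finset.card_range, nsmul_eq_mul,
        ← Finset.mul_sum, ← Finset.mul_sum]
    rw [h1'] at h1
    have h2 : ∑ T ∈ Finset.range t, DD w B c g (T + 1) ≤ 2 * Y := by
      obtain ⟨t', rfl⟩ : ∃ t', t = t' + 1 := ⟨t - 1, by omega⟩
      exact hpart' t' (Nat.lt_succ_self t')
    have h3 := mul_le_mul_of_nonneg_left h2
      (mul_nonneg (mul_nonneg (by norm_num : (0:ℝ) ≤ 18) htpos.le) (by norm_num : (0:ℝ) ≤ 5))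
    nlinarith [mul_nonneg htpos.le hY0]
  -- pigeonhole
  have hex : ∃ τ, τ < t ∧ F τ ≤ 3024 * (Y / t) := by
    by_contra hcon
    push Not at hcon
    have h1 : ∀ T, T < t → ((T : ℝ) + 1) * (3024 * (Y / t))
        ≤ ∑ τ ∈ Finset.range (T + 1), F τ := by
      intro T hT
      have : ∑ τ ∈ Finset.range (T + 1), (3024 * (Y / t))
          ≤ ∑ τ ∈ Finset.range (T + 1), F τ :=
        Finset.sum_le_sum fun τ hτ => (hcon τ (by
          have := Finset.mem_range.1 hτ; omega)).le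
      rw [Finset.sum_const, Finset.card_range, nsmul_eq_mul] at this
      push_cast at this
      exact this
    have h0 : (0 + 1 : ℝ) * (3024 * (Y / t)) < ∑ τ ∈ Finset.range (0 + 1), F τ := by
      simpa using hcon 0 (by omega)
    have h2 : ∑ T ∈ Finset.range t, ((T : ℝ) + 1) * (3024 * (Y / t))
        < ∑ T ∈ Finset.range t, ∑ τ ∈ Finset.range (T + 1), F τ := by
      apply Finset.sum_lt_sum
      · intro T hT
        exact h1 T (Finset.mem_range.1 hT)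
      · exact ⟨0, Finset.mem_range.2 (by omega), by simpa using h0⟩
    have h3 : ∑ T ∈ Finset.range t, ((T : ℝ) + 1) * (3024 * (Y / t)) = 1512 * ((t : ℝ) + 1) * Y := by
      rw [← Finset.sum_mul]
      have h4 : ∀ m : ℕ, ∑ T ∈ Finset.range m, ((T : ℝ) + 1) = (m : ℝ) * ((m : ℝ) + 1) / 2 := by
        intro m
        induction m with
        | zero => simp
        | succ m ih =>
          rw [Finset.sum_range_succ, ih]
          push_cast
          ring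
      rw [h4]
      field_simp
      ring
    nlinarith [mul_nonneg htpos.le hY0]
  obtain ⟨τ, -, hτ⟩ := hex
  refine ⟨fun θ i => yy B g (τ + 1) i θ, ?_⟩
  rw [hRHS]
  exact hτ

end Core

section CutDecomp
variable {ι : Type*} [Fintype ι] [DecidableEq ι]

/-- Indicator of a set as a real function. -/
noncomputable def ind (S : Finset ι) (i : ι) : ℝ := if i ∈ S then 1 else 0

lemma ind_cases (S : Finset ι) (i : ι) : ind S i = 0 ∨ ind S i = 1 := by
  unfold ind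
  split_ifs <;> simp

/-- Cut decomposition of a real function. -/
structure IsCutDecomp (z : ι → ℝ) (C : Finset ι → ℝ) : Prop where
  nonneg : ∀ S, 0 ≤ C S
  diff : ∀ i j, z i - z j = ∑ S, C S * (ind S i - ind S j)
  upper : ∀ S, C S ≠ 0 → ∀ i j, z i ≤ z j → i ∈ S → j ∈ S
  nontriv : ∀ S, C S ≠ 0 → (∃ i, i ∈ S) ∧ (∃ j, j ∉ S)

lemma isCutDecomp_const (z : ι → ℝ) (h : ∀ i j, z i = z j) : IsCutDecomp z (fun _ => 0) where
  nonneg _ := le_refl _
  diff i j := by simp [h i j]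
  upper _ h0 := absurd rfl h0
  nontriv _ h0 := absurd rfl h0

theorem exists_cutDecomp : ∀ (k : ℕ) (z : ι → ℝ), (Finset.univ.image z).card ≤ k →
    ∃ C, IsCutDecomp z C := by
  intro k
  induction k with
  | zero =>
    intro z h
    refine ⟨_, isCutDecomp_const z ?_⟩
    intro i j
    have h0 : Finset.univ.image z = ∅ := Finset.card_eq_zero.1 (Nat.le_zero.1 h)
    have : z i ∈ Finset.univ.image z := Finset.mem_image_of_mem z (Finset.mem_univ i)
    rw [h0] at this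
    simp at this
  | succ k ih =>
    intro z h
    by_cases hconst : ∀ i j, z i = z j
    · exact ⟨_, isCutDecomp_const z hconst⟩
    push Not at hconst
    obtain ⟨i0, j0, hne⟩ := hconst
    have hmemz : ∀ i, z i ∈ Finset.univ.image z := fun i =>
      Finset.mem_image_of_mem z (Finset.mem_univ i)
    set V := Finset.univ.image z with hV
    have hVne : V.Nonempty := ⟨z i0, hmemz i0⟩
    set a := V.min' hVne with ha
    have haV : a ∈ V := Finset.min'_mem V hVne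
    have hmin : ∀ v ∈ V, a ≤ v := fun v hv => Finset.min'_le V v hv
    have hV'ne : (V.erase a).Nonempty := by
      by_cases h1 : z i0 = a
      · refine ⟨z j0, Finset.mem_erase.2 ⟨?_, hmemz j0⟩⟩
        rw [← h1]
        exact fun h2 => hne h2.symm
      · exact ⟨z i0, Finset.mem_erase.2 ⟨h1, hmemz i0⟩⟩
    set a' := (V.erase a).min' hV'ne with ha'
    have ha'mem : a' ∈ V.erase a := Finset.min'_mem _ hV'ne
    have ha'V : a' ∈ V := (Finset.mem_erase.1 ha'mem).2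
    have ha'ne : a' ≠ a := (Finset.mem_erase.1 ha'mem).1
    have hmin' : ∀ v ∈ V, v ≠ a → a' ≤ v := fun v hv hva =>
      Finset.min'_le _ v (Finset.mem_erase.2 ⟨hva, hv⟩)
    have haa' : a < a' := lt_of_le_of_ne (hmin a' ha'V) (Ne.symm ha'ne)
    set d := a' - a with hd
    have hd0 : 0 < d := sub_pos.2 haa'
    set S : Finset ι := Finset.univ.filter (fun i => a < z i) with hS
    have hSmem : ∀ i, i ∈ S ↔ a < z i := fun i => by simp [hS]
    have hnotS : ∀ i, i ∉ S → z i = a := fun i hi =>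
      le_antisymm (not_lt.1 (fun h => hi ((hSmem i).2 h))) (hmin _ (hmemz i))
    set z' : ι → ℝ := fun i => z i - d * ind S i with hz'
    have hz'1 : ∀ i, i ∈ S → z' i = z i - d := fun i hi => by simp [hz', ind, hi]
    have hz'0 : ∀ i, i ∉ S → z' i = z i := fun i hi => by simp [hz', ind, hi]
    -- monotonicity
    have hmono : ∀ i j, z i ≤ z j → z' i ≤ z' j := by
      intro i j hij
      by_cases hi : i ∈ S
      · have hj : j ∈ S := (hSmem j).2 (lt_of_lt_of_le ((hSmem i).1 hi) hij)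
        rw [hz'1 i hi, hz'1 j hj]
        linarith
      · rw [hz'0 i hi, hnotS i hi]
        by_cases hj : j ∈ S
        · rw [hz'1 j hj]
          have h1 : a' ≤ z j := hmin' _ (hmemz j) (ne_of_gt ((hSmem j).1 hj))
          linarith
        · rw [hz'0 j hj, hnotS j hj]
    -- image count
    have himg : (Finset.univ.image z').card ≤ k := by
      let π : ℝ → ℝ := fun v => if a < v then v - d else v
      have hπ : ∀ i, z' i = π (z i) := by
        intro i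
        by_cases hi : i ∈ S
        · simp only [π, if_pos ((hSmem i).1 hi)]
          exact hz'1 i hi
        · have : ¬ a < z i := fun h => hi ((hSmem i).2 h)
          simp only [π, if_neg this]
          exact hz'0 i hi
      have hπa' : π a' = π a := by
        simp only [π, if_pos haa', lt_irrefl, if_false, hd]
        ring
      have hsub : Finset.univ.image z' ⊆ (V.erase a').image π := by
        intro v hv
        obtain ⟨i, -, rfl⟩ := Finset.mem_image.1 hv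
        rw [hπ]
        by_cases h1 : z i = a'
        · rw [h1, hπa']
          exact Finset.mem_image_of_mem π (Finset.mem_erase.2 ⟨Ne.symm ha'ne, haV⟩)
        · exact Finset.mem_image_of_mem π (Finset.mem_erase.2 ⟨h1, hmemz i⟩)
      have h1 := Finset.card_le_card hsub
      have h2 := Finset.card_image_le (s := V.erase a') (f := π)
      have h3 := Finset.card_erase_of_mem ha'V
      have h4 : 0 < V.card := Finset.card_pos.2 hVne
      omega
    obtain ⟨C', hC'⟩ := ih z' himg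
    refine ⟨fun T => C' T + if T = S then d else 0, ?_, ?_, ?_, ?_⟩
    · intro T
      have := hC'.nonneg T
      split_ifs <;> linarith
    · intro i j
      have h1 := hC'.diff i j
      have h2 : z i - z j = (z' i - z' j) + d * (ind S i - ind S j) := by
        simp only [hz']
        ring
      rw [h2, h1]
      have h3 : ∀ T, (C' T + if T = S then d else 0) * (ind T i - ind T j)
          = C' T * (ind T i - ind T j) + if T = S then d * (ind T i - ind T j) else 0 := by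
        intro T
        split_ifs <;> ring
      simp only [h3]
      rw [Finset.sum_add_distrib]
      simp
    · intro T hT i j hij hi
      by_cases hT' : C' T ≠ 0
      · exact hC'.upper T hT' i j (hmono i j hij) hi
      · have hT2 : T = S := by
          by_contra h
          apply hT
          push Not at hT'
          simp [hT', h]
        subst hT2
        rw [hSmem] at hi ⊢
        exact lt_of_lt_of_le hi hij
    · intro T hT
      by_cases hT' : C' T ≠ 0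
      · exact hC'.nontriv T hT'
      · have hT2 : T = S := by
          by_contra h
          apply hT
          push Not at hT'
          simp [hT', h]
        subst hT2
        constructor
        · obtain ⟨i, -, hi⟩ := Finset.mem_image.1 ha'V
          exact ⟨i, (hSmem i).2 (by rw [hi]; exact haa')⟩
        · obtain ⟨i, -, hi⟩ := Finset.mem_image.1 haV
          refine ⟨i, fun h => ?_⟩
          have := (hSmem i).1 h
          rw [hi] at this
          exact lt_irrefl _ this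

lemma exists_cutDecomp' (z : ι → ℝ) : ∃ C, IsCutDecomp z C :=
  exists_cutDecomp _ z le_rfl

lemma IsCutDecomp.abs_le_aux {z : ι → ℝ} {C : Finset ι → ℝ} (h : IsCutDecomp z C) (i j : ι)
    (hij : z i ≤ z j) : |z i - z j| = ∑ S, C S * |ind S i - ind S j| := by
  rw [abs_sub_comm, abs_of_nonneg (sub_nonneg.2 hij), h.diff j i]
  apply Finset.sum_congr rfl
  intro S _
  by_cases h0 : C S = 0
  · simp [h0]
  · have h1 := h.upper S h0 i j hij
    congr 1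
    unfold ind
    by_cases hi : i ∈ S
    · simp [hi, h1 hi]
    · by_cases hj : j ∈ S <;> simp [hi, hj]

lemma IsCutDecomp.abs_eq {z : ι → ℝ} {C : Finset ι → ℝ} (h : IsCutDecomp z C) (i j : ι) :
    |z i - z j| = ∑ S, C S * |ind S i - ind S j| := by
  rcases le_total (z i) (z j) with hij | hij
  · exact h.abs_le_aux i j hij
  · rw [abs_sub_comm, h.abs_le_aux j i hij]
    simp only [abs_sub_comm]

lemma IsCutDecomp.le_sum {z : ι → ℝ} {C : Finset ι → ℝ} (h : IsCutDecomp z C) (S : Finset ι) :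
    C S ≤ ∑ i, ∑ j, |z i - z j| := by
  by_cases h0 : C S = 0
  · rw [h0]
    exact Finset.sum_nonneg fun i _ => Finset.sum_nonneg fun j _ => abs_nonneg _
  · obtain ⟨⟨i, hi⟩, ⟨j, hj⟩⟩ := h.nontriv S h0
    have h1 : C S ≤ |z i - z j| := by
      rw [h.abs_eq i j]
      have h2 : C S * |ind S i - ind S j| ≤ ∑ T, C T * |ind T i - ind T j| :=
        Finset.single_le_sum (f := fun T => C T * |ind T i - ind T j|)
          (fun T _ => mul_nonneg (h.nonneg T) (abs_nonneg _)) (Finset.mem_univ S)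
      have h3 : |ind S i - ind S j| = 1 := by
        simp [ind, hi, hj]
      rw [h3, mul_one] at h2
      exact h2
    refine h1.trans ?_
    have h2 : |z i - z j| ≤ ∑ j, |z i - z j| :=
      Finset.single_le_sum (f := fun j => |z i - z j|) (fun _ _ => abs_nonneg _)
        (Finset.mem_univ j)
    refine h2.trans ?_
    exact Finset.single_le_sum (f := fun i => ∑ j, |z i - z j|)
      (fun _ _ => Finset.sum_nonneg fun _ _ => abs_nonneg _) (Finset.mem_univ i)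

end CutDecomp

section L1
open scoped ENNReal
variable {ι : Type*} [Fintype ι] [DecidableEq ι]

lemma summable_abs (f : lp (fun _ : ℕ => ℝ) 1) : Summable fun m => |f m| := by
  have h := lp.memℓp f
  have h2 := (memℓp_gen_iff (by simp : 0 < (1 : ℝ≥0∞).toReal)).1 h
  simpa using h2

lemma norm_eq_tsum (f : lp (fun _ : ℕ => ℝ) 1) : ‖f‖ = ∑' m, |f m| := by
  rw [lp.norm_eq_tsum_rpow (by simp : 0 < (1 : ℝ≥0∞).toReal)]
  simp

/-- An element of `ℓ₁` from a summable function. -/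
noncomputable def mkL1 (u : ℕ → ℝ) (hu : Summable fun m => |u m|) : lp (fun _ : ℕ => ℝ) 1 :=
  ⟨u, memℓp_gen (by simpa using hu)⟩

lemma mkL1_apply (u : ℕ → ℝ) (hu : Summable fun m => |u m|) (m : ℕ) : mkL1 u hu m = u m := rfl

/-- The main theorem for an arbitrary finite index type. -/
theorem l1_cotype (t : ℕ) (ht : 1 ≤ t) (w : ι → ℝ) (A : Matrix ι ι ℝ) (hw : ∀ i, 0 ≤ w i)
    (hA : ∀ i j, 0 ≤ A i j) (hA1 : ∀ i, ∑ j, A i j = 1)
    (hrev : ∀ i j, w i * A i j = w j * A j i)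
    (x : ι → lp (fun _ : ℕ => ℝ) 1) :
    ∃ y : ι → lp (fun _ : ℕ => ℝ) 1,
      ∑ i, w i * dist (x i) (y i) ^ 2 + t * ∑ i, ∑ j, w i * A i j * dist (y i) (y j) ^ 2 ≤
        3024 * ∑ i, ∑ j, w i * ((1 / (t : ℝ)) • ∑ s ∈ Finset.Icc 1 t, A ^ s) i j
          * dist (x i) (x j) ^ 2 := by
  choose C hC using fun m : ℕ => exists_cutDecomp' (fun i => x i m)
  -- summability of the cut weights
  have hsummable_xx : ∀ i j, Summable fun m => |x i m - x j m| := by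
    intro i j
    have := summable_abs (x i - x j)
    simpa using this
  have hM : Summable fun m => ∑ i, ∑ j, |x i m - x j m| :=
    summable_sum fun i _ => summable_sum fun j _ => hsummable_xx i j
  have hsumC : ∀ S, Summable fun m => C m S := fun S =>
    Summable.of_nonneg_of_le (fun m => (hC m).nonneg S) (fun m => (hC m).le_sum S) hM
  set c : Finset ι → ℝ := fun S => ∑' m, C m S with hc
  have hc0 : ∀ S, 0 ≤ c S := fun S => tsum_nonneg fun m => (hC m).nonneg S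
  have htsum : ∀ a : Finset ι → ℝ, ∑' m, ∑ S, C m S * a S = ∑ S, c S * a S := by
    intro a
    rw [Summable.tsum_finsetSum]
    · apply Finset.sum_congr rfl
      intro S _
      rw [tsum_mul_right]
    · intro S _
      exact (hsumC S).mul_right _
  have hsum2 : ∀ a : Finset ι → ℝ, Summable fun m => ∑ S, C m S * a S := fun a =>
    summable_sum fun S _ => (hsumC S).mul_right _
  -- apply the core theorem
  obtain ⟨φ, hφ⟩ := core c hc0 (fun S i => ind S i) (fun S i => ind_cases S i) t ht w A hw hA hA1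
    hrev
  -- the correction
  set u : ι → ℕ → ℝ := fun i m => ∑ S, C m S * (φ S i - ind S i) with hu
  have hule : ∀ i m, |u i m| ≤ ∑ S, C m S * |ind S i - φ S i| := by
    intro i m
    refine (Finset.abs_sum_le_sum_abs _ _).trans (le_of_eq ?_)
    apply Finset.sum_congr rfl
    intro S _
    rw [abs_mul, abs_of_nonneg ((hC m).nonneg S), abs_sub_comm]
  have husum : ∀ i, Summable fun m => |u i m| := fun i =>
    Summable.of_nonneg_of_le (fun _ => abs_nonneg _) (hule i) (hsum2 _)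
  set y : ι → lp (fun _ : ℕ => ℝ) 1 := fun i => x i + mkL1 (u i) (husum i) with hy
  refine ⟨y, ?_⟩
  have hdist1 : ∀ i, dist (x i) (y i) ≤ ∑ S, c S * |ind S i - φ S i| := by
    intro i
    rw [dist_eq_norm]
    simp only [hy]
    rw [sub_add_cancel_left, norm_neg, norm_eq_tsum, ← htsum]
    exact Summable.tsum_le_tsum (fun m => hule i m) (husum i) (hsum2 _)
  have hdist2 : ∀ i j, dist (y i) (y j) ≤ ∑ S, c S * |φ S i - φ S j| := by
    intro i j
    rw [dist_eq_norm, norm_eq_tsum, ← htsum]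
    have hcoord : ∀ m, |(y i - y j) m| ≤ ∑ S, C m S * |φ S i - φ S j| := by
      intro m
      have e : (y i - y j) m = ∑ S, C m S * (φ S i - φ S j) := by
        have e1 : (y i - y j) m = (x i m - x j m) + (u i m - u j m) := by
          simp only [hy, lp.coeFn_sub, lp.coeFn_add, Pi.sub_apply, Pi.add_apply, mkL1_apply]
          ring
        rw [e1, (hC m).diff i j]
        simp only [hu]
        rw [← Finset.sum_sub_distrib, ← Finset.sum_add_distrib]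
        apply Finset.sum_congr rfl
        intro S _
        ring
      rw [e]
      refine (Finset.abs_sum_le_sum_abs _ _).trans (le_of_eq ?_)
      apply Finset.sum_congr rfl
      intro S _
      rw [abs_mul, abs_of_nonneg ((hC m).nonneg S)]
    exact Summable.tsum_le_tsum hcoord (summable_abs _) (hsum2 _)
  have hdist3 : ∀ i j, dist (x i) (x j) = ∑ S, c S * |ind S i - ind S j| := by
    intro i j
    rw [dist_eq_norm, norm_eq_tsum, ← htsum]
    apply tsum_congr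
    intro m
    have := (hC m).abs_eq i j
    simpa using this
  have htpos : (0 : ℝ) ≤ t := Nat.cast_nonneg t
  simp only [hdist3]
  refine le_trans ?_ hφ
  have h1 : ∀ i, w i * dist (x i) (y i) ^ 2 ≤ w i * (∑ S, c S * |ind S i - φ S i|) ^ 2 :=
    fun i => mul_le_mul_of_nonneg_left (pow_le_pow_left₀ dist_nonneg (hdist1 i) 2) (hw i)
  have h2 : ∀ i j, w i * A i j * dist (y i) (y j) ^ 2
      ≤ w i * A i j * (∑ S, c S * |φ S i - φ S j|) ^ 2 :=
    fun i j => mul_le_mul_of_nonneg_left (pow_le_pow_left₀ dist_nonneg (hdist2 i j) 2)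
      (mul_nonneg (hw i) (hA i j))
  refine add_le_add (Finset.sum_le_sum fun i _ => h1 i) ?_
  refine mul_le_mul_of_nonneg_left ?_ htpos
  exact Finset.sum_le_sum fun i _ => Finset.sum_le_sum fun j _ => h2 i j

end L1

end Crest.Agent.Lib.MarkovCotypeL1
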