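import Mathlib
import Crest.Prelude.Def_PolyominoGame

/-!
Soundness of strategy tables for the Snaky Maker–Breaker game (S0047).

A table `T : Tab` lists nodes.  Node `i` says: Maker claims (the cell coded by) `T.mv i`.
If `T.leaf i` this completes a copy of Snaky.  Otherwise, after Breaker's reply `b`, the play
continues at `p.2` for the entry `p` of `T.alts i` with `dec p.1 = b` when there is one, and at
`T.dflt i` otherwise.  `T.stones i` is the bit mask of Maker's claims so far (`T.cnt i` many of
them) and `T.zone i` is a bit mask containing all cells Maker may claim from node `i` on: it is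
enough that no Breaker stone lies in the zone.
-/

set_option autoImplicit false

namespace Crest.Agent.Lib.Snaky

open Crest.CombinatoricsR.PolyominoGame

abbrev Cell := ℤ × ℤ

/-- Width of the coding window. -/
def WN : ℕ := 27
/-- Offset of the coding window. -/
def WO : ℤ := 13

/-- The cell with code `c`. -/
def dec (c : ℕ) : Cell := (((c % WN : ℕ) : ℤ) - WO, ((c / WN : ℕ) : ℤ) - WO)

lemma dec_inj {a b : ℕ} (h : dec a = dec b) : a = b := by
  simp only [dec, Prod.mk.injEq, sub_left_inj, Nat.cast_inj] at h
  rw [← Nat.div_add_mod a WN, ← Nat.div_add_mod b WN, h.1, h.2]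

lemma dec_fst_lt (c : ℕ) : (dec c).1 < (WN : ℤ) := by
  have h : c % WN < WN := Nat.mod_lt _ (by decide)
  have h2 : ((c % WN : ℕ) : ℤ) < (WN : ℤ) := by exact_mod_cast h
  have h3 : (0 : ℤ) ≤ WO := by decide
  simp only [dec]
  linarith

lemma dec_code (x y : ℕ) (hx : x < WN) : dec (y * WN + x) = ((x : ℤ) - WO, (y : ℤ) - WO) := by
  have h1 : (y * WN + x) % WN = x := by
    rw [Nat.mul_add_mod_of_lt hx]
  have h2 : (y * WN + x) / WN = y := by
    rw [mul_comm, Nat.mul_add_div (by decide), Nat.div_eq_of_lt hx, add_zero]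
  simp [dec, h1, h2]

/-- A strategy table. -/
structure Tab where
  leaf : ℕ → Bool
  mv : ℕ → ℕ
  stones : ℕ → ℕ
  zone : ℕ → ℕ
  cnt : ℕ → ℕ
  dflt : ℕ → ℕ
  alts : ℕ → List (ℕ × ℕ)
  /-- orientation (`sw`, `e₁`, `e₂` as bits) and translation of the copy completed at a leaf -/
  orient : ℕ → ℕ
  tx : ℕ → ℕ
  ty : ℕ → ℕ

/-- `x + d` or `x - d`. -/
def shiftC (neg : Bool) (t d : ℕ) : ℕ := if neg then t - d else t + d

/-- The offsets of the six cells of Snaky. -/
def snakyL : List (ℕ × ℕ) := [(0, 0), (1, 0), (2, 0), (3, 0), (3, 1), (4, 1)]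

/-- Code of the cell of the copy with orientation `o`, translation `(tx,ty)`, for the offset `p`. -/
def copyCode (o tx ty : ℕ) (p : ℕ × ℕ) : ℕ :=
  let sw := o.testBit 0
  let n₁ := o.testBit 1
  let n₂ := o.testBit 2
  let px := if sw then p.2 else p.1
  let py := if sw then p.1 else p.2
  shiftC n₂ ty py * WN + shiftC n₁ tx px

/-- All six cells of the copy are in the mask `M`, and the translation is well inside the window. -/
def copyOK (M o tx ty : ℕ) : Bool :=
  Nat.ble 4 tx && Nat.ble (tx + 5) WN && Nat.ble 4 ty &&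
    snakyL.all (fun p => M.testBit (copyCode o tx ty p))

/-- `a ⊆ b` for bit masks. -/
def subM (a b : ℕ) : Bool := Nat.beq (a ||| b) b

/-- Mask of the keys of a list of alternatives. -/
def keysM : List (ℕ × ℕ) → ℕ
  | [] => 0
  | p :: l => keysM l ||| 2 ^ p.1

/-- The conditions on a child `c` of `i`. -/
def childOK (T : Tab) (n i c : ℕ) : Bool :=
  Nat.blt c n && Nat.beq (T.stones c) (T.stones i ||| 2 ^ T.mv i) &&
    Nat.beq (T.cnt c) (T.cnt i + 1) && subM (T.zone c) (T.zone i)

/-- The local correctness condition for the node `i` of a table with `n` nodes. -/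
def nodeOK (T : Tab) (n i : ℕ) : Bool :=
  Nat.ble (T.cnt i) 20 && !(T.stones i).testBit (T.mv i) && (T.zone i).testBit (T.mv i) &&
  (if T.leaf i then copyOK (T.stones i ||| 2 ^ T.mv i) (T.orient i) (T.tx i) (T.ty i)
   else childOK T n i (T.dflt i) && subM (T.zone (T.dflt i)) (keysM (T.alts i)) &&
     (T.alts i).all (fun p => childOK T n i p.2 && !(T.zone p.2).testBit p.1))

/-- The node reached from the inner node `i` after Breaker's reply `b`. -/
def step (T : Tab) (i : ℕ) (b : Cell) : ℕ :=
  match (T.alts i).find? (fun p => decide (dec p.1 = b)) with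
  | some p => p.2
  | none => T.dflt i

/-- One step of the walk through the table. -/
def next (T : Tab) (o : Option ℕ) (b : Cell) : Option ℕ :=
  o.bind (fun i => if T.leaf i then none else some (step T i b))

/-- The node reached after the replies `l`, if the copy was not finished before. -/
def run (T : Tab) (root : ℕ) (l : List Cell) : Option ℕ := l.foldl (next T) (some root)

/-- A cell far from the window and from the replies `l`. -/
def fresh (l : List Cell) : Cell :=
  ((WN : ℤ) + l.length + (l.map (fun r => |r.1|)).sum, 0)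

/-- The policy given by a table. -/
def policy (T : Tab) (root : ℕ) (l : List Cell) : Cell :=
  match run T root l with
  | some i => dec (T.mv i)
  | none => fresh l

section Sound

variable (T : Tab) (n root : ℕ) (b : ℕ → Cell)

/-- The node after the first `k` replies of `b`. -/
def path (k : ℕ) : Option ℕ := run T root ((List.range k).map b)

lemma path_zero : path T root b 0 = some root := by simp [path, run]

lemma path_succ (k : ℕ) : path T root b (k + 1) = next T (path T root b k) (b k) := by
  simp [path, run, List.range_succ, List.foldl_append]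

lemma claim_eq_some {k i : ℕ} (h : path T root b k = some i) :
    makerClaim (policy T root) b k = dec (T.mv i) := by
  have h' : run T root ((List.range k).map b) = some i := h
  simp [makerClaim, policy, h']

lemma claim_eq_none {k : ℕ} (h : path T root b k = none) :
    makerClaim (policy T root) b k = fresh ((List.range k).map b) := by
  have h' : run T root ((List.range k).map b) = none := h
  simp [makerClaim, policy, h']

/-- The invariant at step `k`, node `i`. -/
structure Inv (k i : ℕ) : Prop where
  lt : i < n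
  cnt : T.cnt i = k
  stones : ∀ x, (T.stones i).testBit x = true ↔
    ∃ j, j < k ∧ dec x = makerClaim (policy T root) b j
  zone : ∀ j, j < k → ∀ x, (T.zone i).testBit x = true → dec x ≠ b j

lemma testBit_subM {a c : ℕ} (h : subM a c = true) {x : ℕ} (hx : a.testBit x = true) :
    c.testBit x = true := by
  have h1 : a ||| c = c := by simpa [subM] using h
  rw [← h1, Nat.testBit_or, hx]; rfl

lemma testBit_or_pow (M c x : ℕ) :
    (M ||| 2 ^ c).testBit x = true ↔ M.testBit x = true ∨ x = c := by
  rw [Nat.testBit_or, Nat.testBit_two_pow, Bool.or_eq_true, decide_eq_true_eq]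
  exact or_congr_right eq_comm

lemma testBit_keysM (l : List (ℕ × ℕ)) (x : ℕ) (h : (keysM l).testBit x = true) :
    ∃ p ∈ l, p.1 = x := by
  induction l with
  | nil => simp [keysM] at h
  | cons q l ih =>
    simp only [keysM] at h
    rcases (testBit_or_pow _ _ _).1 h with h1 | h1
    · obtain ⟨p, hp, hpx⟩ := ih h1
      exact ⟨p, List.mem_cons_of_mem _ hp, hpx⟩
    · exact ⟨q, List.mem_cons_self, h1.symm⟩

lemma childOK_spec {i c : ℕ} (h : childOK T n i c = true) :
    c < n ∧ T.stones c = T.stones i ||| 2 ^ T.mv i ∧ T.cnt c = T.cnt i + 1 ∧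
      subM (T.zone c) (T.zone i) = true := by
  simp only [childOK, Bool.and_eq_true] at h
  obtain ⟨⟨⟨h1, h2⟩, h3⟩, h4⟩ := h
  refine ⟨?_, Nat.eq_of_beq_eq_true h2, Nat.eq_of_beq_eq_true h3, h4⟩
  simpa [Nat.blt] using h1

lemma nodeOK_spec {i : ℕ} (h : nodeOK T n i = true) :
    T.cnt i ≤ 20 ∧ (T.stones i).testBit (T.mv i) = false ∧ (T.zone i).testBit (T.mv i) = true ∧
      (T.leaf i = true → copyOK (T.stones i ||| 2 ^ T.mv i) (T.orient i) (T.tx i) (T.ty i) = true) ∧
      (T.leaf i = false → childOK T n i (T.dflt i) = true ∧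
        subM (T.zone (T.dflt i)) (keysM (T.alts i)) = true ∧
        ∀ p ∈ T.alts i, childOK T n i p.2 = true ∧ (T.zone p.2).testBit p.1 = false) := by
  simp only [nodeOK, Bool.and_eq_true, Bool.not_eq_true'] at h
  obtain ⟨⟨⟨h1, h2⟩, h3⟩, h4⟩ := h
  refine ⟨Nat.le_of_ble_eq_true h1, h2, h3, ?_, ?_⟩
  · intro hl
    simpa [hl] using h4
  · intro hl
    simp only [hl, Bool.false_eq_true, if_false, Bool.and_eq_true, List.all_eq_true,
      Bool.not_eq_true'] at h4
    exact ⟨h4.1.1, h4.1.2, h4.2⟩

lemma step_cases (i : ℕ) (c : Cell) :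
    (∃ p ∈ T.alts i, dec p.1 = c ∧ step T i c = p.2) ∨
      ((∀ p ∈ T.alts i, dec p.1 ≠ c) ∧ step T i c = T.dflt i) := by
  unfold step
  cases hf : (T.alts i).find? (fun p => decide (dec p.1 = c)) with
  | some p =>
    left
    have h1 := List.find?_some hf
    have h2 := List.mem_of_find?_eq_some hf
    exact ⟨p, h2, by simpa using h1, rfl⟩
  | none =>
    right
    refine ⟨?_, rfl⟩
    intro p hp
    have := List.find?_eq_none.1 hf p hp
    simpa using this

lemma inv_step (hok : ∀ i, i < n → nodeOK T n i = true) {k i : ℕ} (hp : path T root b k = some i)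
    (hi : Inv T n root b k i) (hl : T.leaf i = false) :
    ∃ c, path T root b (k + 1) = some c ∧ Inv T n root b (k + 1) c := by
  have hn := nodeOK_spec T n (hok i hi.lt)
  obtain ⟨_, _, _, _, hin⟩ := hn
  obtain ⟨hd, hsub, halts⟩ := hin hl
  have hpath : path T root b (k + 1) = some (step T i (b k)) := by
    rw [path_succ, hp]; simp [next, hl]
  refine ⟨_, hpath, ?_⟩
  have hclaim := claim_eq_some T root b hp
  -- the common part
  have common : ∀ c, childOK T n i c = true →
      (∀ x, (T.zone c).testBit x = true → dec x ≠ b k) → Inv T n root b (k + 1) c := by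
    intro c hc hz
    obtain ⟨c1, c2, c3, c4⟩ := childOK_spec T n hc
    refine ⟨c1, by rw [c3, hi.cnt], ?_, ?_⟩
    · intro x
      rw [c2, testBit_or_pow, hi.stones]
      constructor
      · rintro (⟨j, hj, hx⟩ | rfl)
        · exact ⟨j, by omega, hx⟩
        · exact ⟨k, by omega, hclaim.symm⟩
      · rintro ⟨j, hj, hx⟩
        by_cases hjk : j < k
        · exact Or.inl ⟨j, hjk, hx⟩
        · have : j = k := by omega
          subst this
          right
          rw [hclaim] at hx
          exact dec_inj hx
    · intro j hj x hx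
      by_cases hjk : j < k
      · exact hi.zone j hjk x (testBit_subM c4 hx)
      · have : j = k := by omega
        subst this
        exact hz x hx
  rcases step_cases T i (b k) with ⟨p, hpm, hpd, hs⟩ | ⟨hnone, hs⟩
  · rw [hs]
    obtain ⟨h1, h2⟩ := halts p hpm
    refine common _ h1 ?_
    intro x hx hxd
    have : x = p.1 := dec_inj (by rw [hxd, hpd])
    subst this
    rw [h2] at hx
    exact absurd hx (by simp)
  · rw [hs]
    refine common _ hd ?_
    intro x hx hxd
    obtain ⟨p, hpm, hpx⟩ := testBit_keysM _ _ (testBit_subM hsub hx)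
    exact hnone p hpm (by rw [hpx]; exact hxd)

lemma inv_all (hok : ∀ i, i < n → nodeOK T n i = true) (h0 : root < n)
    (hs : T.stones root = 0) (hc : T.cnt root = 0) (k : ℕ) (i : ℕ)
    (hp : path T root b k = some i) : Inv T n root b k i := by
  induction k generalizing i with
  | zero =>
    rw [path_zero] at hp
    obtain rfl : root = i := by simpa using hp
    refine ⟨h0, hc, ?_, ?_⟩
    · intro x; simp [hs]
    · intro j hj; omega
  | succ k ih =>
    rw [path_succ] at hp
    cases hq : path T root b k with
    | none => rw [hq] at hp; simp [next] at hp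
    | some i' =>
      rw [hq] at hp
      have hinv := ih i' hq
      cases hl : T.leaf i' with
      | true => simp [next, hl] at hp
      | false =>
        obtain ⟨c, hc1, hc2⟩ := inv_step T n root b hok hq hinv hl
        rw [path_succ, hq] at hc1
        rw [hp] at hc1
        obtain rfl : i = c := by simpa using hc1
        exact hc2

lemma path_none_of_le {j k : ℕ} (hjk : j ≤ k) (h : path T root b j = none) :
    path T root b k = none := by
  induction k, hjk using Nat.le_induction with
  | base => exact h
  | succ k _ ih => rw [path_succ, ih]; rfl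

/-- A leaf is reached within 21 claims. -/
lemma exists_leaf (hok : ∀ i, i < n → nodeOK T n i = true) (h0 : root < n)
    (hs : T.stones root = 0) (hc : T.cnt root = 0) :
    ∃ L i, L ≤ 20 ∧ path T root b L = some i ∧ T.leaf i = true := by
  have key : ∀ k, (∃ L i, L ≤ k ∧ path T root b L = some i ∧ T.leaf i = true) ∨
      ∃ i, path T root b k = some i ∧ T.leaf i = false := by
    intro k
    induction k with
    | zero =>
      cases hl : T.leaf root with
      | true => exact Or.inl ⟨0, root, le_rfl, path_zero T root b, hl⟩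
      | false => exact Or.inr ⟨root, path_zero T root b, hl⟩
    | succ k ih =>
      rcases ih with ⟨L, i, hL, hp, hl⟩ | ⟨i, hp, hl⟩
      · exact Or.inl ⟨L, i, by omega, hp, hl⟩
      · have hinv := inv_all T n root b hok h0 hs hc k i hp
        obtain ⟨c, hc1, _⟩ := inv_step T n root b hok hp hinv hl
        cases hlc : T.leaf c with
        | true => exact Or.inl ⟨k + 1, c, le_rfl, hc1, hlc⟩
        | false => exact Or.inr ⟨c, hc1, hlc⟩
  rcases key 21 with ⟨L, i, hL, hp, hl⟩ | ⟨i, hp, _⟩
  · by_cases h20 : L ≤ 20
    · exact ⟨L, i, h20, hp, hl⟩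
    · have hinv := inv_all T n root b hok h0 hs hc L i hp
      have hn := nodeOK_spec T n (hok i hinv.lt)
      have := hn.1
      rw [hinv.cnt] at this
      omega
  · have hinv := inv_all T n root b hok h0 hs hc 21 i hp
    have hn := nodeOK_spec T n (hok i hinv.lt)
    have := hn.1
    rw [hinv.cnt] at this
    omega

/-- The abscissa of the fresh cell after `k` replies. -/
def xf (k : ℕ) : ℤ := (WN : ℤ) + k + (((List.range k).map b).map (fun r => |r.1|)).sum

lemma xf_succ (k : ℕ) : xf b (k + 1) = xf b k + 1 + |(b k).1| := by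
  simp only [xf, List.range_succ, List.map_append, List.sum_append, List.map_cons, List.map_nil,
    List.sum_cons, List.sum_nil]
  push_cast
  ring

lemma xf_lt {j k : ℕ} (h : j < k) : xf b j + 1 + |(b j).1| ≤ xf b k := by
  induction k, h using Nat.le_induction with
  | base => rw [xf_succ]
  | succ k hk ih =>
    rw [xf_succ]
    have := abs_nonneg (b k).1
    linarith

lemma xf_ge (k : ℕ) : (WN : ℤ) ≤ xf b k := by
  induction k with
  | zero => simp [xf]
  | succ k ih =>
    rw [xf_succ]
    have := abs_nonneg (b k).1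
    linarith

lemma fresh_eq (k : ℕ) : fresh ((List.range k).map b) = (xf b k, 0) := by
  simp [fresh, xf]

lemma claim_fst_lt (j k : ℕ) (hjk : j < k) :
    (makerClaim (policy T root) b j).1 < xf b k := by
  cases hp : path T root b j with
  | some i =>
    rw [claim_eq_some T root b hp]
    have h1 := dec_fst_lt (T.mv i)
    have h2 := xf_ge b k
    have h3 := xf_lt b hjk
    have h4 := xf_ge b j
    have := abs_nonneg (b j).1
    linarith
  | none =>
    rw [claim_eq_none T root b hp, fresh_eq]
    have h3 := xf_lt b hjk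
    have := abs_nonneg (b j).1
    simp only
    linarith

theorem legal_all (hok : ∀ i, i < n → nodeOK T n i = true) (h0 : root < n)
    (hs : T.stones root = 0) (hc : T.cnt root = 0) (k : ℕ) :
    (∀ j, j < k → makerClaim (policy T root) b k ≠ makerClaim (policy T root) b j) ∧
      (∀ j, j < k → makerClaim (policy T root) b k ≠ b j) := by
  cases hp : path T root b k with
  | some i =>
    have hinv := inv_all T n root b hok h0 hs hc k i hp
    have hn := nodeOK_spec T n (hok i hinv.lt)
    obtain ⟨_, h2, h3, _, _⟩ := hn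
    rw [claim_eq_some T root b hp]
    constructor
    · intro j hj heq
      have := (hinv.stones (T.mv i)).2 ⟨j, hj, heq⟩
      rw [h2] at this
      exact absurd this (by simp)
    · intro j hj heq
      exact hinv.zone j hj _ h3 heq
  | none =>
    rw [claim_eq_none T root b hp, fresh_eq]
    constructor
    · intro j hj heq
      have := claim_fst_lt T root b j k hj
      rw [← heq] at this
      simp at this
    · intro j hj heq
      have h1 := xf_lt b hj
      have h2 : xf b k = (b j).1 := by rw [← heq]
      have h3 := le_abs_self (b j).1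
      have h4 := xf_ge b j
      have h5 : (0 : ℤ) ≤ (WN : ℤ) := by positivity
      linarith

lemma shiftC_cast (neg : Bool) (t d : ℕ) (h : d ≤ t) :
    ((shiftC neg t d : ℕ) : ℤ) = (t : ℤ) + (if neg then -1 else 1) * (d : ℤ) := by
  cases neg with
  | true => simp [shiftC, h]; ring
  | false => simp [shiftC]

theorem copy_of_leaf (hok : ∀ i, i < n → nodeOK T n i = true) (h0 : root < n)
    (hs : T.stones root = 0) (hc : T.cnt root = 0) {L i : ℕ} (hL : L ≤ 20)
    (hp : path T root b L = some i) (hl : T.leaf i = true) :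
    ContainsCopy {c | ∃ j : ℕ, j ≤ 20 ∧ c = makerClaim (policy T root) b j} := by
  have hinv := inv_all T n root b hok h0 hs hc L i hp
  have hn := nodeOK_spec T n (hok i hinv.lt)
  obtain ⟨_, _, _, hcopy, _⟩ := hn
  have hC := hcopy hl
  simp only [copyOK, Bool.and_eq_true, List.all_eq_true] at hC
  obtain ⟨⟨⟨h4x, hxb⟩, h4y⟩, hcells⟩ := hC
  have h4x' := Nat.le_of_ble_eq_true h4x
  have hxb' := Nat.le_of_ble_eq_true hxb
  have h4y' := Nat.le_of_ble_eq_true h4y
  have hclaim := claim_eq_some T root b hp
  -- every coded cell of the copy is a claim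
  have hmem : ∀ p ∈ snakyL, dec (copyCode (T.orient i) (T.tx i) (T.ty i) p) ∈
      {c | ∃ j : ℕ, j ≤ 20 ∧ c = makerClaim (policy T root) b j} := by
    intro p hp'
    have h1 := hcells p hp'
    rcases (testBit_or_pow _ _ _).1 h1 with h2 | h2
    · obtain ⟨j, hj, hd⟩ := (hinv.stones _).1 h2
      exact ⟨j, by omega, hd⟩
    · refine ⟨L, hL, ?_⟩
      rw [h2, hclaim]
  -- evaluate the codes
  set o := T.orient i with ho
  set tx := T.tx i with htx
  set ty := T.ty i with hty
  have hxlt : ∀ (n₁ : Bool) (d : ℕ), d ≤ 4 → shiftC n₁ tx d < WN := by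
    intro n₁ d hd
    cases n₁ <;> simp only [shiftC] <;> simp <;> omega
  let t : Cell := ((tx : ℤ) - WO, (ty : ℤ) - WO)
  let e₁ : ℤ := if o.testBit 1 then -1 else 1
  let e₂ : ℤ := if o.testBit 2 then -1 else 1
  have he₁ : e₁ = 1 ∨ e₁ = -1 := by by_cases h : o.testBit 1 <;> simp [e₁, h]
  have he₂ : e₂ = 1 ∨ e₂ = -1 := by by_cases h : o.testBit 2 <;> simp [e₂, h]
  have hcode : ∀ p ∈ snakyL, ∀ px py : ℕ, px ≤ 4 → py ≤ 4 →
      copyCode o tx ty p = shiftC (o.testBit 2) ty py * WN + shiftC (o.testBit 1) tx px →
      dec (copyCode o tx ty p) = (t.1 + e₁ * (px : ℤ), t.2 + e₂ * (py : ℤ)) := by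
    intro p _ px py hpx hpy hc
    rw [hc, dec_code _ _ (hxlt _ _ hpx), shiftC_cast _ _ _ (by omega), shiftC_cast _ _ _ (by omega)]
    simp only [t, e₁, e₂]
    ext <;> simp <;> ring
  refine ⟨t, e₁, e₂, he₁, he₂, ?_⟩
  by_cases hsw : o.testBit 0 = true
  · right
    intro p hp'
    simp only [snaky, Finset.mem_insert, Finset.mem_singleton] at hp'
    rcases hp' with rfl | rfl | rfl | rfl | rfl | rfl
    · have h := hmem (0, 0) (by simp [snakyL])
      rw [hcode (0, 0) (by simp [snakyL]) 0 0 (by omega) (by omega) (by simp [copyCode, hsw])] at h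
      simpa using h
    · have h := hmem (1, 0) (by simp [snakyL])
      rw [hcode (1, 0) (by simp [snakyL]) 0 1 (by omega) (by omega) (by simp [copyCode, hsw])] at h
      simpa using h
    · have h := hmem (2, 0) (by simp [snakyL])
      rw [hcode (2, 0) (by simp [snakyL]) 0 2 (by omega) (by omega) (by simp [copyCode, hsw])] at h
      simpa using h
    · have h := hmem (3, 0) (by simp [snakyL])
      rw [hcode (3, 0) (by simp [snakyL]) 0 3 (by omega) (by omega) (by simp [copyCode, hsw])] at h
      simpa using h
    · have h := hmem (3, 1) (by simp [snakyL])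
      rw [hcode (3, 1) (by simp [snakyL]) 1 3 (by omega) (by omega) (by simp [copyCode, hsw])] at h
      simpa using h
    · have h := hmem (4, 1) (by simp [snakyL])
      rw [hcode (4, 1) (by simp [snakyL]) 1 4 (by omega) (by omega) (by simp [copyCode, hsw])] at h
      simpa using h
  · left
    intro p hp'
    simp only [snaky, Finset.mem_insert, Finset.mem_singleton] at hp'
    rcases hp' with rfl | rfl | rfl | rfl | rfl | rfl
    · have h := hmem (0, 0) (by simp [snakyL])
      rw [hcode (0, 0) (by simp [snakyL]) 0 0 (by omega) (by omega) (by simp [copyCode, hsw])] at h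
      simpa using h
    · have h := hmem (1, 0) (by simp [snakyL])
      rw [hcode (1, 0) (by simp [snakyL]) 1 0 (by omega) (by omega) (by simp [copyCode, hsw])] at h
      simpa using h
    · have h := hmem (2, 0) (by simp [snakyL])
      rw [hcode (2, 0) (by simp [snakyL]) 2 0 (by omega) (by omega) (by simp [copyCode, hsw])] at h
      simpa using h
    · have h := hmem (3, 0) (by simp [snakyL])
      rw [hcode (3, 0) (by simp [snakyL]) 3 0 (by omega) (by omega) (by simp [copyCode, hsw])] at h
      simpa using h
    · have h := hmem (3, 1) (by simp [snakyL])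
      rw [hcode (3, 1) (by simp [snakyL]) 3 1 (by omega) (by omega) (by simp [copyCode, hsw])] at h
      simpa using h
    · have h := hmem (4, 1) (by simp [snakyL])
      rw [hcode (4, 1) (by simp [snakyL]) 4 1 (by omega) (by omega) (by simp [copyCode, hsw])] at h
      simpa using h

end Sound

/-- A checked table gives the statement of S0047. -/
theorem statement_of_table (T : Tab) (n root : ℕ)
    (hok : ∀ i, i < n → nodeOK T n i = true) (h0 : root < n)
    (hs : T.stones root = 0) (hc : T.cnt root = 0) :
    ∃ σ : List (ℤ × ℤ) → ℤ × ℤ, ∀ b : ℕ → ℤ × ℤ,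
      (∀ k : ℕ, k < 20 →
        (∀ j : ℕ, j ≤ k → b k ≠ makerClaim σ b j) ∧
        (∀ j : ℕ, j < k → b k ≠ b j)) →
      (∀ k : ℕ, k ≤ 20 →
        (∀ j : ℕ, j < k → makerClaim σ b k ≠ makerClaim σ b j) ∧
        (∀ j : ℕ, j < k → makerClaim σ b k ≠ b j)) ∧
      ContainsCopy {c | ∃ j : ℕ, j ≤ 20 ∧ c = makerClaim σ b j} := by
  refine ⟨policy T root, fun b _ => ⟨fun k _ => legal_all T n root b hok h0 hs hc k, ?_⟩⟩
  obtain ⟨L, i, hL, hp, hl⟩ := exists_leaf T n root b hok h0 hs hc
  exact copy_of_leaf T n root b hok h0 hs hc hL hp hl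

end Crest.Agent.Lib.Snaky

/-! ### Tables encoded by natural numbers -/

namespace Crest.Agent.Lib.Snaky

open Crest.CombinatoricsR.PolyominoGame

/-- A binary trie of chunks of records. -/
inductive BT where
  | leaf (l : List Nat) : BT
  | node (a b : BT) : BT

/-- Record number `i`: the low bits of `i` choose the way through the trie. -/
def BT.get : BT → ℕ → ℕ
  | .leaf l, i => l.getD i 0
  | .node a b, i => if i % 2 = 0 then a.get (i / 2) else b.get (i / 2)

/-- The bit field of width `w` at offset `off`. -/
def fld (r off w : ℕ) : ℕ := (r >>> off) % 2 ^ w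

/-- The list of alternatives coded by `a`. -/
def decAlts : ℕ → ℕ → List (ℕ × ℕ)
  | 0, _ => []
  | f + 1, a =>
    if a = 0 then []
    else
      let e := a % 2 ^ 30 - 1
      (e % 1024, e / 1024) :: decAlts f (a >>> 30)

/-- The table given by records `R`. -/
def tabOf (R : ℕ → ℕ) : Tab where
  leaf i := (R i).testBit 10
  mv i := fld (R i) 0 10
  stones i := fld (R i) 36 729
  zone i := fld (R i) 765 729
  cnt i := fld (R i) 11 5
  dflt i := fld (R i) 16 20
  alts i := decAlts 800 ((R i) >>> 1494)
  orient i := fld (R i) 16 3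
  tx i := fld (R i) 19 5
  ty i := fld (R i) 24 5

/-- `f` holds on the interval `[b, b + 2 ^ h)`. -/
def allPow (f : ℕ → Bool) : ℕ → ℕ → Bool
  | 0, b => f b
  | h + 1, b => allPow f h b && allPow f h (b + 2 ^ h)

lemma allPow_spec (f : ℕ → Bool) (h b : ℕ) (H : allPow f h b = true) (i : ℕ) (h1 : b ≤ i)
    (h2 : i < b + 2 ^ h) : f i = true := by
  induction h generalizing b with
  | zero =>
    have : i = b := by simp at h2; omega
    subst this
    simpa [allPow] using H
  | succ h ih =>
    simp only [allPow, Bool.and_eq_true] at H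
    by_cases hi : i < b + 2 ^ h
    · exact ih b H.1 h1 hi
    · refine ih (b + 2 ^ h) H.2 (by omega) ?_
      rw [pow_succ] at h2
      omega

/-- The full check of a table with `n ≤ 2 ^ h` records. -/
def checkAll (R : ℕ → ℕ) (n h : ℕ) : Bool :=
  allPow (fun i => !(Nat.blt i n) || nodeOK (tabOf R) n i) h 0

lemma nodeOK_of_checkAll (R : ℕ → ℕ) (n h : ℕ) (H : checkAll R n h = true) (hn : n ≤ 2 ^ h) :
    ∀ i, i < n → nodeOK (tabOf R) n i = true := by
  intro i hi
  have := allPow_spec _ h 0 H i (Nat.zero_le _) (by omega)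
  have hb : Nat.blt i n = true := by
    simp only [Nat.blt]
    exact Nat.ble_eq_true_of_le hi
  simpa [hb] using this

/-- Final form of the soundness theorem for encoded tables. -/
theorem statement_of_records (R : ℕ → ℕ) (n h root : ℕ) (H : checkAll R n h = true)
    (hn : n ≤ 2 ^ h) (h0 : root < n) (hs : (tabOf R).stones root = 0)
    (hc : (tabOf R).cnt root = 0) :
    ∃ σ : List (ℤ × ℤ) → ℤ × ℤ, ∀ b : ℕ → ℤ × ℤ,
      (∀ k : ℕ, k < 20 →
        (∀ j : ℕ, j ≤ k → b k ≠ makerClaim σ b j) ∧
        (∀ j : ℕ, j < k → b k ≠ b j)) →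
      (∀ k : ℕ, k ≤ 20 →
        (∀ j : ℕ, j < k → makerClaim σ b k ≠ makerClaim σ b j) ∧
        (∀ j : ℕ, j < k → makerClaim σ b k ≠ b j)) ∧
      ContainsCopy {c | ∃ j : ℕ, j ≤ 20 ∧ c = makerClaim σ b j} :=
  statement_of_table (tabOf R) n root (nodeOK_of_checkAll R n h H hn) h0 hs hc

end Crest.Agent.Lib.Snaky
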