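import Mathlib

open Set Filter Topology

namespace Crest.Agent.Lib.TruncExp

/-- Telescoping for functions with nondecreasing drops. -/
lemma drop_telescope (L : ℝ → ℝ)
    (hw : ∀ x y δ, x ≤ y → 0 ≤ δ → L x + L (y + δ) ≤ L (x + δ) + L y)
    (z δ : ℝ) (hδ : 0 ≤ δ) (K : ℕ) :
    (K : ℝ) * (L z - L (z + δ)) ≤ L z - L (z + K * δ) := by
  induction K with
  | zero => simp
  | succ K ih =>
    have h1 := hw z (z + K * δ) δ (by nlinarith [Nat.cast_nonneg (α := ℝ) K]) hδ
    have e : z + (K : ℝ) * δ + δ = z + ((K + 1 : ℕ) : ℝ) * δ := by push_cast; ring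
    rw [e] at h1
    have e2 : ((K + 1 : ℕ) : ℝ) * (L z - L (z + δ)) =
        (K : ℝ) * (L z - L (z + δ)) + (L z - L (z + δ)) := by push_cast; ring
    rw [e2]
    linarith

lemma continuous_of_wright (L : ℝ → ℝ) (hanti : Antitone L)
    (hw : ∀ x y δ, x ≤ y → 0 ≤ δ → L x + L (y + δ) ≤ L (x + δ) + L y) : Continuous L := by
  rw [continuous_iff_continuousAt]
  intro z
  rw [Metric.continuousAt_iff]
  intro ε hε
  -- choose `K` large
  set C : ℝ := L z - L (z + 1) with hC
  have hC0 : 0 ≤ C := by
    have := hanti (show z ≤ z + 1 by linarith); linarith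
  obtain ⟨K, hK⟩ := exists_nat_gt (C / ε)
  have hKpos : 0 < (K : ℝ) + 1 := by positivity
  have hK' : C / ((K : ℝ) + 1) < ε := by
    rw [div_lt_iff₀ hKpos]
    rw [div_lt_iff₀ hε] at hK
    nlinarith
  refine ⟨1 / ((K : ℝ) + 1), by positivity, ?_⟩
  intro y hy
  rw [Real.dist_eq] at hy ⊢
  have hy' := abs_lt.mp hy
  -- the drop estimate
  have main : ∀ δ, 0 ≤ δ → δ ≤ 1 / ((K : ℝ) + 1) → L z - L (z + δ) ≤ C / ((K : ℝ) + 1) := by
    intro δ h0 h1
    have := drop_telescope L hw z δ h0 (K + 1)
    have h2 : ((K + 1 : ℕ) : ℝ) * δ ≤ 1 := by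
      push_cast
      rw [le_div_iff₀ hKpos] at h1
      nlinarith
    have h3 : L (z + 1) ≤ L (z + ((K + 1 : ℕ) : ℝ) * δ) := hanti (by linarith)
    rw [le_div_iff₀ hKpos]
    push_cast at this h3
    nlinarith
  rcases le_total y z with hyz | hyz
  · -- left of `z`
    set δ := z - y with hδ
    have h0 : 0 ≤ δ := by simp [hδ]; linarith
    have h1 : δ ≤ 1 / ((K : ℝ) + 1) := by simp only [hδ]; linarith [hy'.1]
    have hmono : L z ≤ L y := hanti hyz
    have hdrop : L y - L z ≤ L z - L (z + δ) := by
      have := hw y z δ hyz h0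
      have e : y + δ = z := by simp [hδ]
      rw [e] at this
      linarith
    have := main δ h0 h1
    rw [abs_lt]
    constructor <;> linarith
  · set δ := y - z with hδ
    have h0 : 0 ≤ δ := by simp [hδ]; linarith
    have h1 : δ ≤ 1 / ((K : ℝ) + 1) := by simp only [hδ]; linarith [hy'.2]
    have e : z + δ = y := by simp [hδ]
    have := main δ h0 h1
    rw [e] at this
    have hmono : L y ≤ L z := hanti hyz
    rw [abs_lt]
    constructor <;> linarith

/-- Midpoint concavity plus continuity gives concavity (leftmost minimiser argument). -/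
lemma concaveOn_of_midpoint (L : ℝ → ℝ) (hc : Continuous L)
    (hm : ∀ m d, 0 ≤ d → L (m - d) + L (m + d) ≤ 2 * L m) : ConcaveOn ℝ univ L := by
  refine ⟨convex_univ, ?_⟩
  intro x hx y hy a b ha hb hab
  -- it suffices to treat `x < y`
  wlog hxy : x < y generalizing x y a b
  · rcases (not_lt.mp hxy).eq_or_lt with h | h
    · rw [h]
      have e : a • x + b • x = x := by rw [← add_smul, hab, one_smul]
      simp only [smul_eq_mul] at e ⊢
      rw [e, ← add_mul, hab, one_mul]
    · have := this (mem_univ y) (mem_univ x) hb ha (by linarith) h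
      simpa [add_comm] using this
  simp only [smul_eq_mul]
  set ψ : ℝ → ℝ := fun s => L s - (L x + (L y - L x) / (y - x) * (s - x)) with hψ
  have hψc : Continuous ψ := by
    simp only [hψ]; fun_prop
  have hyx : 0 < y - x := by linarith
  have hψx : ψ x = 0 := by simp [hψ]
  have hψy : ψ y = 0 := by
    simp only [hψ]
    field_simp
    ring
  have hψm : ∀ m d, 0 ≤ d → ψ (m - d) + ψ (m + d) ≤ 2 * ψ m := by
    intro m d hd
    have := hm m d hd
    simp only [hψ]
    nlinarith
  -- nonnegativity of `ψ` on `[x,y]`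
  have hnn : ∀ z ∈ Icc x y, 0 ≤ ψ z := by
    by_contra hcon
    push Not at hcon
    obtain ⟨z, hz, hzneg⟩ := hcon
    have hcomp : IsCompact (Icc x y) := isCompact_Icc
    obtain ⟨m₀, hm₀, hm₀min⟩ := hcomp.exists_isMinOn ⟨z, hz⟩ hψc.continuousOn
    set M := ψ m₀ with hM
    have hMneg : M < 0 := lt_of_le_of_lt (hm₀min hz) hzneg
    -- the set of minimisers
    set S := Icc x y ∩ ψ ⁻¹' {M} with hS
    have hScomp : IsCompact S := hcomp.inter_right (isClosed_singleton.preimage hψc)
    obtain ⟨m, hmS, hmleast⟩ := hScomp.exists_isLeast ⟨m₀, hm₀, rfl⟩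
    have hmI := hmS.1
    have hmv : ψ m = M := hmS.2
    have hmx : x < m := by
      refine lt_of_le_of_ne hmI.1 ?_
      rintro rfl
      rw [hψx] at hmv
      linarith
    have hmy : m < y := by
      refine lt_of_le_of_ne hmI.2 ?_
      rintro rfl
      rw [hψy] at hmv
      linarith
    set d := min (m - x) (y - m) with hd
    have hd0 : 0 < d := lt_min (by linarith) (by linarith)
    have h1 : m - d ∈ Icc x y := by
      constructor
      · have := min_le_left (m - x) (y - m); simp only [hd]; linarith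
      · linarith
    have h2 : m + d ∈ Icc x y := by
      constructor
      · linarith
      · have := min_le_right (m - x) (y - m); simp only [hd]; linarith
    have h3 : M ≤ ψ (m - d) := hm₀min h1
    have h4 : M ≤ ψ (m + d) := hm₀min h2
    have h5 : ψ (m - d) ≠ M := by
      intro h
      have : m ≤ m - d := hmleast ⟨h1, h⟩
      linarith
    have h6 : M < ψ (m - d) := lt_of_le_of_ne h3 (Ne.symm h5)
    have := hψm m d hd0.le
    rw [hmv] at this
    linarith
  -- conclusion
  have hz : a * x + b * y ∈ Icc x y := by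
    have ha' : a = 1 - b := by linarith
    constructor
    · rw [ha']; nlinarith
    · rw [ha']; nlinarith
  have := hnn _ hz
  simp only [hψ] at this
  have ha' : a = 1 - b := by linarith
  have e : (L y - L x) / (y - x) * (a * x + b * y - x) = b * (L y - L x) := by
    rw [ha']; field_simp; ring
  rw [e] at this
  rw [ha'] at this ⊢
  nlinarith

end Crest.Agent.Lib.TruncExp
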