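import Crest.Agent.Lib.TruncExpReal

open MeasureTheory Set Filter Topology Real

namespace Crest.Agent.Lib.TruncExp

/-- The extremal value `(4/9) e^{-1/3}`. -/
noncomputable def c0 : ℝ := 4 / 9 * exp (-(1 / 3))

lemma c0_le : c0 ≤ 8 / 25 := by
  unfold c0
  have h1 : (25 : ℝ) / 18 ≤ exp (1 / 3) := by
    have := Real.quadratic_le_exp_of_nonneg (x := 1 / 3) (by norm_num)
    norm_num at this ⊢
    linarith
  have h2 : exp (-(1 / 3)) ≤ 18 / 25 := by
    rw [exp_neg]
    rw [inv_le_comm₀ (exp_pos _) (by norm_num)]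
    norm_num at h1 ⊢
    linarith
  nlinarith

lemma integrable_w_E (s0 A : ℝ) : Integrable (fun s => w s * E s0 A s) :=
  integrable_w_mul _ (measurable_E s0 A) (abs_E_le s0 A)

lemma flat_exact_neg (A : ℝ) (hA : 4 / 3 ≤ A) : c0 ≤ ∫ s, w s * E (4 / 3 - A) A s := by
  have hA0 : 0 < A := by linarith
  set s0 := 4 / 3 - A with hs0
  have hs00 : s0 ≤ 0 := by simp only [hs0]; linarith
  set b := 1 + 1 / A with hb
  have hb0 : 0 < b := by positivity
  have key : (fun s => w s * E s0 A s) =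
      indicator (Ioi 0) (fun s => exp (s0 / A) * (s * exp (-(b * s)))) := by
    funext s
    by_cases hs : 0 < s
    · have hmin : exp (-(s - s0) / A) ≤ 1 := by
        rw [exp_le_one_iff]
        apply div_nonpos_of_nonpos_of_nonneg _ hA0.le
        linarith
      have e1 : exp (-s) * exp (-(s - s0) / A) = exp (s0 / A) * exp (-(b * s)) := by
        rw [← exp_add, ← exp_add]; congr 1; simp only [hb]; field_simp; ring
      simp only [w, E, if_pos hs, min_eq_right hmin, indicator_of_mem (show s ∈ Ioi (0:ℝ) from hs)]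
      calc s * exp (-s) * exp (-(s - s0) / A) = s * (exp (-s) * exp (-(s - s0) / A)) := by ring
        _ = s * (exp (s0 / A) * exp (-(b * s))) := by rw [e1]
        _ = _ := by ring
    · simp [w, hs, indicator]
  rw [key, integral_indicator measurableSet_Ioi, integral_const_mul, integral_mul_exp b 0 hb0 le_rfl]
  simp only [mul_zero, neg_zero, exp_zero, mul_one, zero_div, zero_add]
  -- the numerical bound
  set y := 2 / 3 * b with hy
  have hy0 : 0 < y := by positivity
  have e1 : s0 / A + 1 / 3 = 2 * (y - 1) := by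
    simp only [hs0, hy, hb]; field_simp; ring
  have e2 : exp (s0 / A) = exp (y - 1) ^ 2 * exp (-(1 / 3)) := by
    rw [← exp_nat_mul, ← exp_add]
    congr 1
    push_cast
    linarith
  have h3 : y ≤ exp (y - 1) := by
    have := Real.add_one_le_exp (y - 1); linarith
  have h4 : y ^ 2 ≤ exp (y - 1) ^ 2 := by
    exact pow_le_pow_left₀ hy0.le h3 2
  have e3 : 4 / 9 = y ^ 2 * (1 / b ^ 2) := by
    simp only [hy]; field_simp; norm_num
  unfold c0
  rw [e2, e3]
  have h5 : 0 < exp (-(1 / 3 : ℝ)) := exp_pos _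
  have h6 : 0 < 1 / b ^ 2 := by positivity
  calc y ^ 2 * (1 / b ^ 2) * exp (-(1 / 3)) ≤ exp (y - 1) ^ 2 * (1 / b ^ 2) * exp (-(1 / 3)) := by
        gcongr
    _ = _ := by ring

lemma flat_exact_pos (A : ℝ) (hA0 : 0 < A) (hA : A < 4 / 3) :
    8 / 25 ≤ ∫ s, w s * E (4 / 3 - A) A s := by
  set s0 := 4 / 3 - A with hs0
  have hs00 : 0 < s0 := by simp only [hs0]; linarith
  set b := 1 + 1 / A with hb
  have hb0 : 0 < b := by positivity
  set f1 : ℝ → ℝ := fun s => s * exp (-(1 * s)) with hf1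
  set f2 : ℝ → ℝ := fun s => exp (s0 / A) * (s * exp (-(b * s))) with hf2
  have key : (fun s => w s * E s0 A s) =
      fun s => indicator (Ioi 0) f1 s - indicator (Ioi s0) f1 s + indicator (Ioi s0) f2 s := by
    funext s
    by_cases hs : 0 < s
    · by_cases hs1 : s0 < s
      · have hmin : exp (-(s - s0) / A) ≤ 1 := by
          rw [exp_le_one_iff]
          apply div_nonpos_of_nonpos_of_nonneg _ hA0.le
          linarith
        have e1 : exp (-s) * exp (-(s - s0) / A) = exp (s0 / A) * exp (-(b * s)) := by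
          rw [← exp_add, ← exp_add]; congr 1; simp only [hb]; field_simp; ring
        simp only [w, E, if_pos hs, min_eq_right hmin,
          indicator_of_mem (show s ∈ Ioi (0:ℝ) from hs), indicator_of_mem (show s ∈ Ioi s0 from hs1),
          hf1, hf2, one_mul, sub_self, zero_add]
        calc s * exp (-s) * exp (-(s - s0) / A) = s * (exp (-s) * exp (-(s - s0) / A)) := by ring
          _ = s * (exp (s0 / A) * exp (-(b * s))) := by rw [e1]
          _ = _ := by ring
      · have hmin : 1 ≤ exp (-(s - s0) / A) := by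
          apply one_le_exp
          apply div_nonneg _ hA0.le
          linarith [not_lt.mp hs1]
        have hn : s ∉ Ioi s0 := hs1
        simp only [w, E, if_pos hs, min_eq_left hmin,
          indicator_of_mem (show s ∈ Ioi (0:ℝ) from hs), indicator_of_notMem hn,
          hf1, one_mul, sub_zero, add_zero, mul_one]
    · have hs1 : s ∉ Ioi s0 := fun h => hs (lt_trans hs00 h)
      have hs2 : s ∉ Ioi (0:ℝ) := hs
      simp [w, hs, indicator_of_notMem hs1]
  have hI0 : IntegrableOn f1 (Ioi 0) := integrableOn_mul_exp 1 0 one_pos le_rfl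
  have hI1 : IntegrableOn f1 (Ioi s0) := integrableOn_mul_exp 1 s0 one_pos hs00.le
  have hI2 : IntegrableOn f2 (Ioi s0) := (integrableOn_mul_exp b s0 hb0 hs00.le).const_mul _
  have i0 := (integrable_indicator_iff (measurableSet_Ioi (a := (0:ℝ)))).mpr hI0
  have i1 := (integrable_indicator_iff (measurableSet_Ioi (a := s0))).mpr hI1
  have i2 := (integrable_indicator_iff (measurableSet_Ioi (a := s0))).mpr hI2
  have hh : ∫ s, ((Ioi 0).indicator f1 s - (Ioi s0).indicator f1 s + (Ioi s0).indicator f2 s) =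
      (∫ s, (Ioi 0).indicator f1 s) - (∫ s, (Ioi s0).indicator f1 s)
        + ∫ s, (Ioi s0).indicator f2 s := by
    have := integral_add (f := fun s => (Ioi 0).indicator f1 s - (Ioi s0).indicator f1 s)
      (g := (Ioi s0).indicator f2) (μ := volume) (i0.sub i1) i2
    rw [this]
    congr 1
    exact integral_sub i0 i1
  rw [key, hh, integral_indicator measurableSet_Ioi, integral_indicator measurableSet_Ioi,
    integral_indicator measurableSet_Ioi]
  have v0 : ∫ s in Ioi (0:ℝ), f1 s = 1 := by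
    simp only [hf1]
    rw [integral_mul_exp 1 0 one_pos le_rfl]; simp
  have v1 : ∫ s in Ioi s0, f1 s = (s0 + 1) * exp (-s0) := by
    simp only [hf1]
    rw [integral_mul_exp 1 s0 one_pos hs00.le]; simp
  have v2 : ∫ s in Ioi s0, f2 s = exp (-s0) * (s0 / b + 1 / b ^ 2) := by
    simp only [hf2]
    rw [integral_const_mul, integral_mul_exp b s0 hb0 hs00.le]
    have e : exp (s0 / A) * ((s0 / b + 1 / b ^ 2) * exp (-(b * s0))) =
        (exp (s0 / A) * exp (-(b * s0))) * (s0 / b + 1 / b ^ 2) := by ring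
    rw [e, ← exp_add]
    congr 2
    simp only [hb]; field_simp; ring
  rw [v0, v1, v2]
  -- numerical inequality
  set B := s0 with hB
  have hAB : A = 4 / 3 - B := by simp only [hB]; ring
  have hbA : 1 / b = A / (A + 1) := by
    simp only [hb]; field_simp
  have e4 : (B + 1) - (B / b + 1 / b ^ 2) = (-A ^ 2 + 7 / 3 * A + 7 / 3) / (A + 1) ^ 2 := by
    have : B / b = B * (1 / b) := div_eq_mul_one_div _ _
    have h1b : 1 / b ^ 2 = (1 / b) ^ 2 := by ring
    rw [this, h1b, hbA]
    have hA1 : A + 1 ≠ 0 := by positivity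
    simp only [hB]
    field_simp
    ring
  have hq : 1 + B / 2 + B ^ 2 / 8 ≤ exp (B / 2) := by
    have := Real.quadratic_le_exp_of_nonneg (x := B / 2) (by positivity)
    have e : 1 + B / 2 + (B / 2) ^ 2 / 2 = 1 + B / 2 + B ^ 2 / 8 := by ring
    rwa [e] at this
  have hq2 : (1 + B / 2 + B ^ 2 / 8) ^ 2 ≤ exp B := by
    have h0 : 0 ≤ 1 + B / 2 + B ^ 2 / 8 := by positivity
    have := pow_le_pow_left₀ h0 hq 2
    rwa [← exp_nat_mul, show ((2 : ℕ) : ℝ) * (B / 2) = B by push_cast; ring] at this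
  have hpoly : 25 * (-A ^ 2 + 7 / 3 * A + 7 / 3) ≤
      17 * (A + 1) ^ 2 * (1 + B / 2 + B ^ 2 / 8) ^ 2 := by
    have hB0 : 0 < B := hs00
    have : 17 * (A + 1) ^ 2 * (1 + B / 2 + B ^ 2 / 8) ^ 2 - 25 * (-A ^ 2 + 7 / 3 * A + 7 / 3) =
        (3 / 4) ^ 6 * (188 / 81 * B ^ 6 + 6 * (3224 / 729) * A * B ^ 5
          + 15 * (69332 / 10935) * A ^ 2 * B ^ 4 + 20 * (7306 / 1215) * A ^ 3 * B ^ 3
          + 15 * (5008 / 1215) * A ^ 4 * B ^ 2 + 6 * (160 / 81) * A ^ 5 * B
          + (8 / 9) * A ^ 6) := by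
      rw [hAB]; ring
    have h0 : 0 ≤ (3 / 4 : ℝ) ^ 6 * (188 / 81 * B ^ 6 + 6 * (3224 / 729) * A * B ^ 5
          + 15 * (69332 / 10935) * A ^ 2 * B ^ 4 + 20 * (7306 / 1215) * A ^ 3 * B ^ 3
          + 15 * (5008 / 1215) * A ^ 4 * B ^ 2 + 6 * (160 / 81) * A ^ 5 * B
          + (8 / 9) * A ^ 6) := by positivity
    linarith
  have hfin : exp (-B) * ((-A ^ 2 + 7 / 3 * A + 7 / 3) / (A + 1) ^ 2) ≤ 17 / 25 := by
    have hA1 : 0 < (A + 1) ^ 2 := by positivity
    rw [exp_neg]
    have hexp : 0 < exp B := exp_pos _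
    rw [inv_mul_eq_div, div_le_iff₀ hexp, div_le_iff₀ hA1]
    have := mul_le_mul_of_nonneg_left hq2 (by positivity : 0 ≤ 17 * (A + 1) ^ 2)
    nlinarith
  rw [← e4] at hfin
  have e5 : 1 - (B + 1) * exp (-B) + exp (-B) * (B / b + 1 / b ^ 2) =
      1 - exp (-B) * ((B + 1) - (B / b + 1 / b ^ 2)) := by ring
  rw [e5]
  linarith

lemma E_mono (s0 s0' A : ℝ) (hA : 0 < A) (h : s0' ≤ s0) (s : ℝ) : E s0' A s ≤ E s0 A s := by
  unfold E
  apply min_le_min le_rfl
  apply exp_le_exp.mpr
  apply div_le_div_of_nonneg_right _ hA.le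
  linarith

lemma flat_value (s0 A : ℝ) (hA : 0 < A) (hm : 4 / 3 ≤ s0 + A) : c0 ≤ ∫ s, w s * E s0 A s := by
  have h1 : ∫ s, w s * E (4 / 3 - A) A s ≤ ∫ s, w s * E s0 A s := by
    apply integral_mono (integrable_w_E _ _) (integrable_w_E _ _)
    intro s
    apply mul_le_mul_of_nonneg_left _ (w_nonneg s)
    exact E_mono _ _ _ hA (by linarith) s
  rcases le_or_gt (4 / 3) A with h | h
  · exact (flat_exact_neg A h).trans h1
  · exact c0_le.trans ((flat_exact_pos A hA h).trans h1)

end Crest.Agent.Lib.TruncExp
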