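import Crest.Agent.Lib.TruncExpFlat
import Crest.Agent.Lib.TruncExpConcave

open MeasureTheory Set Filter Topology Real

namespace Crest.Agent.Lib.TruncExp

/-- The hypotheses on the survival function used in the comparison argument. -/
structure Hyp (F : ℝ → ℝ) : Prop where
  pos : ∀ s, 0 < F s
  lt1 : ∀ s, F s < 1
  anti : Antitone F
  pf : ∀ x y δ, x ≤ y → 0 ≤ δ → F x * F (y + δ) ≤ F (x + δ) * F y
  bot : Tendsto F atBot (𝓝 1)
  top : Tendsto F atTop (𝓝 0)
  int : Integrable (fun s => F s - Hv 0 s)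
  mean : ∫ s, (F s - Hv 0 s) = 4 / 3

variable {F : ℝ → ℝ}

namespace Hyp

/-- The logarithm of the survival function. -/
noncomputable def h (F : ℝ → ℝ) (s : ℝ) : ℝ := log (F s)

lemma exp_h (hF : Hyp F) (s : ℝ) : exp (h F s) = F s := exp_log (hF.pos s)

lemma h_neg (hF : Hyp F) (s : ℝ) : h F s < 0 := log_neg (hF.pos s) (hF.lt1 s)

lemma h_anti (hF : Hyp F) : Antitone (h F) := fun _ _ hxy =>
  log_le_log (hF.pos _) (hF.anti hxy)

lemma h_wright (hF : Hyp F) (x y δ : ℝ) (hxy : x ≤ y) (hδ : 0 ≤ δ) :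
    h F x + h F (y + δ) ≤ h F (x + δ) + h F y := by
  unfold h
  rw [← log_mul (hF.pos _).ne' (hF.pos _).ne', ← log_mul (hF.pos _).ne' (hF.pos _).ne']
  exact log_le_log (mul_pos (hF.pos _) (hF.pos _)) (hF.pf x y δ hxy hδ)

lemma h_cont (hF : Hyp F) : Continuous (h F) :=
  continuous_of_wright _ hF.h_anti hF.h_wright

lemma h_concave (hF : Hyp F) : ConcaveOn ℝ univ (h F) := by
  refine concaveOn_of_midpoint _ hF.h_cont ?_
  intro m d hd
  have := hF.h_wright (m - d) m d (by linarith) hd
  rw [sub_add_cancel] at this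
  linarith

lemma measurable (hF : Hyp F) : Measurable F := hF.anti.measurable

lemma abs_le (hF : Hyp F) (s : ℝ) : |F s| ≤ 1 := by
  rw [abs_of_pos (hF.pos s)]; exact (hF.lt1 s).le

lemma integrable_wF (hF : Hyp F) : Integrable (fun s => w s * F s) :=
  integrable_w_mul _ hF.measurable hF.abs_le

/-- strictly decreasing -/
lemma h_strict (hF : Hyp F) {p q : ℝ} (hpq : p < q) : h F q < h F p := by
  by_contra hcon
  have h1 : h F q = h F p := le_antisymm (hF.h_anti hpq.le) (not_lt.mp hcon)
  -- `h` is constant to the left of `p`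
  have h2 : ∀ s, s < p → h F s = h F p := by
    intro s hs
    have h3 := hF.h_concave.slope_anti_adjacent (mem_univ s) (mem_univ q) hs hpq
    rw [h1, sub_self, zero_div] at h3
    have h4 : 0 ≤ h F p - h F s := by
      have := (le_div_iff₀ (show 0 < p - s by linarith)).mp h3
      linarith
    exact le_antisymm (by linarith) (hF.h_anti hs.le)
  have h5 : ∀ s, s < p → F s = F p := by
    intro s hs
    rw [← hF.exp_h s, ← hF.exp_h p, h2 s hs]
  have h6 : Tendsto F atBot (𝓝 (F p)) := by
    refine tendsto_const_nhds.congr' ?_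
    filter_upwards [Iio_mem_atBot p] with s hs
    exact (h5 s hs).symm
  have h7 := tendsto_nhds_unique h6 hF.bot
  exact absurd h7 (hF.lt1 p).ne

/-- Scale of the chord through `p,q`. -/
noncomputable def Ach (F : ℝ → ℝ) (p q : ℝ) : ℝ := (q - p) / (h F p - h F q)

/-- Left end of the chord through `p,q`. -/
noncomputable def s0ch (F : ℝ → ℝ) (p q : ℝ) : ℝ := p + Ach F p q * h F p

lemma Ach_pos (hF : Hyp F) {p q : ℝ} (hpq : p < q) : 0 < Ach F p q :=
  div_pos (by linarith) (by linarith [hF.h_strict hpq])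

/-- The chord as a function. -/
lemma chord_eq (hF : Hyp F) {p q : ℝ} (hpq : p < q) (s : ℝ) :
    -(s - s0ch F p q) / Ach F p q = h F p + (h F q - h F p) / (q - p) * (s - p) := by
  have h1 : q - p ≠ 0 := by linarith
  have h2 : h F p - h F q ≠ 0 := by linarith [hF.h_strict hpq]
  unfold s0ch Ach
  field_simp
  ring

lemma chord_in (hF : Hyp F) {p q s : ℝ} (hpq : p < q) (hs : s ∈ Icc p q) :
    h F p + (h F q - h F p) / (q - p) * (s - p) ≤ h F s := by
  rcases hs.1.eq_or_lt with h1 | h1
  · rw [← h1]; simp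
  rcases hs.2.eq_or_lt with h2 | h2
  · rw [h2]
    have : q - p ≠ 0 := by linarith
    rw [div_mul_cancel₀ _ this]
    linarith
  have h3 := hF.h_concave.slope_anti_adjacent (mem_univ p) (mem_univ q) h1 h2
  have h4 : 0 < s - p := by linarith
  have h5 : 0 < q - s := by linarith
  have h6 : 0 < q - p := by linarith
  rw [div_le_div_iff₀ h5 h4] at h3
  have h7 : (h F q - h F p) / (q - p) * (s - p) ≤ h F s - h F p := by
    rw [div_mul_eq_mul_div, div_le_iff₀ h6]
    nlinarith
  linarith

lemma chord_out (hF : Hyp F) {p q s : ℝ} (hpq : p < q) (hs : s ≤ p ∨ q ≤ s) :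
    h F s ≤ h F p + (h F q - h F p) / (q - p) * (s - p) := by
  have h6 : 0 < q - p := by linarith
  rcases hs with hs | hs
  · rcases hs.eq_or_lt with h1 | h1
    · rw [h1]; simp
    have h3 := hF.h_concave.slope_anti_adjacent (mem_univ s) (mem_univ q) h1 hpq
    have h4 : 0 < p - s := by linarith
    rw [div_le_div_iff₀ h6 h4] at h3
    have h7 : (h F q - h F p) / (q - p) * (p - s) ≤ h F p - h F s := by
      rw [div_mul_eq_mul_div, div_le_iff₀ h6]
      exact h3
    have e : (h F q - h F p) / (q - p) * (s - p) = -((h F q - h F p) / (q - p) * (p - s)) := by ring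
    rw [e]
    linarith
  · rcases hs.eq_or_lt with h1 | h1
    · rw [← h1, div_mul_cancel₀ _ h6.ne']
      linarith
    have h3 := hF.h_concave.slope_anti_adjacent (mem_univ p) (mem_univ s) hpq h1
    have h4 : 0 < s - q := by linarith
    rw [div_le_div_iff₀ h4 h6] at h3
    have h7 : h F s - h F q ≤ (h F q - h F p) / (q - p) * (s - q) := by
      rw [div_mul_eq_mul_div, le_div_iff₀ h6]
      exact h3
    have e : (h F q - h F p) / (q - p) * (s - p) =
        (h F q - h F p) / (q - p) * (s - q) + (h F q - h F p) := by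
      field_simp
      ring
    rw [e]
    linarith

/-- `D ≥ 0` on the chord interval. -/
lemma E_le_F (hF : Hyp F) {p q s : ℝ} (hpq : p < q) (hs : s ∈ Icc p q) :
    E (s0ch F p q) (Ach F p q) s ≤ F s := by
  unfold E
  refine (min_le_right _ _).trans ?_
  rw [chord_eq hF hpq s, ← hF.exp_h s]
  exact exp_le_exp.mpr (chord_in hF hpq hs)

/-- `D ≤ 0` outside of the chord interval. -/
lemma F_le_E (hF : Hyp F) {p q s : ℝ} (hpq : p < q) (hs : s ≤ p ∨ q ≤ s) :
    F s ≤ E (s0ch F p q) (Ach F p q) s := by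
  unfold E
  refine le_min (hF.lt1 s).le ?_
  rw [chord_eq hF hpq s, ← hF.exp_h s]
  exact exp_le_exp.mpr (chord_out hF hpq hs)

/-- The chord comparison inequality. -/
lemma main_ineq (hF : Hyp F) {p q α : ℝ} (hpq : p < q)
    (h1 : ∀ s ∈ Icc p q, α ≤ w s) (h2 : ∀ s, s ≤ p ∨ q ≤ s → w s ≤ α) :
    (∫ s, w s * E (s0ch F p q) (Ach F p q) s)
      + α * (4 / 3 - (s0ch F p q + Ach F p q)) ≤ ∫ s, w s * F s := by
  set A := Ach F p q with hA
  set s0 := s0ch F p q with hs0
  have hA0 : 0 < A := Ach_pos hF hpq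
  have hpt : ∀ s, 0 ≤ (w s - α) * (F s - E s0 A s) := by
    intro s
    by_cases hs : s ∈ Icc p q
    · exact mul_nonneg (by linarith [h1 s hs]) (by linarith [E_le_F hF hpq hs])
    · have hs' : s ≤ p ∨ q ≤ s := by
        by_contra hcon
        push Not at hcon
        exact hs ⟨hcon.1.le, hcon.2.le⟩
      exact mul_nonneg_of_nonpos_of_nonpos (by linarith [h2 s hs'])
        (by linarith [F_le_E hF hpq hs'])
  have e : (fun s => (w s - α) * (F s - E s0 A s)) =
      fun s => w s * F s - w s * E s0 A s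
        - α * ((F s - Hv 0 s) - (E s0 A s - Hv 0 s)) := by
    funext s; ring
  have i1 := hF.integrable_wF
  have i2 := integrable_w_E s0 A
  have i3 := hF.int
  have i4 := integrable_E_sub s0 A hA0
  have hI : 0 ≤ ∫ s, (w s - α) * (F s - E s0 A s) := integral_nonneg hpt
  rw [e] at hI
  have hI2 : ∫ s, (w s * F s - w s * E s0 A s - α * ((F s - Hv 0 s) - (E s0 A s - Hv 0 s))) =
      (∫ s, w s * F s) - (∫ s, w s * E s0 A s) - α * (4 / 3 - (s0 + A)) := by
    have j1 : Integrable (fun s => w s * F s - w s * E s0 A s) := i1.sub i2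
    have j2 : Integrable (fun s => (F s - Hv 0 s) - (E s0 A s - Hv 0 s)) := i3.sub i4
    rw [integral_sub j1 (j2.const_mul α), integral_sub i1 i2,
      integral_const_mul, integral_sub i3 i4, hF.mean, integral_E_sub s0 A hA0]
  rw [hI2] at hI
  linarith

/-- A Grünbaum type estimate. -/
lemma h_ge_of_lt (hF : Hyp F) {p : ℝ} (hp : p < 4 / 3) : -1 ≤ h F p := by
  set q : ℝ := 4 / 3 with hq
  have hpq : p < q := hp
  set A := Ach F p q with hA
  set s0 := s0ch F p q with hs0
  have hA0 : 0 < A := Ach_pos hF hpq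
  have i3 := hF.int
  have i4 := integrable_E_sub s0 A hA0
  have hind : Integrable (indicator (Icc p q) (fun _ => (1:ℝ))) := by
    rw [integrable_indicator_iff measurableSet_Icc]
    exact integrableOn_const (by simp) (by simp)
  have hle : ∀ s, (F s - Hv 0 s) - (E s0 A s - Hv 0 s) ≤ indicator (Icc p q) (fun _ => (1:ℝ)) s := by
    intro s
    by_cases hs : s ∈ Icc p q
    · rw [indicator_of_mem hs]
      have := hF.lt1 s
      have := E_pos s0 A s
      linarith
    · rw [indicator_of_notMem hs]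
      have hs' : s ≤ p ∨ q ≤ s := by
        by_contra hcon
        push Not at hcon
        exact hs ⟨hcon.1.le, hcon.2.le⟩
      have := F_le_E hF hpq hs'
      linarith
  have j2 : Integrable (fun s => (F s - Hv 0 s) - (E s0 A s - Hv 0 s)) := i3.sub i4
  have hI : ∫ s, ((F s - Hv 0 s) - (E s0 A s - Hv 0 s)) ≤
      ∫ s, indicator (Icc p q) (fun _ => (1:ℝ)) s := integral_mono j2 hind hle
  rw [integral_sub i3 i4, hF.mean, integral_E_sub s0 A hA0,
    integral_indicator measurableSet_Icc] at hI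
  have e : ∫ x in Icc p q, (1:ℝ) = q - p := by
    simp [hpq.le]
  rw [e] at hI
  -- `s0 + A ≥ p`
  have h3 : p ≤ s0 + A := by simp only [hq] at hI ⊢; linarith
  have h4 : s0 = p + A * h F p := rfl
  rw [h4] at h3
  have h5 : 0 ≤ A * (h F p + 1) := by nlinarith
  have h6 := (mul_nonneg_iff_of_pos_left hA0).mp h5
  linarith

lemma h_ge (hF : Hyp F) : -1 ≤ h F (4 / 3) := by
  have hc := hF.h_cont.tendsto (4 / 3 : ℝ)
  have hc' : Tendsto (h F) (𝓝[<] (4 / 3 : ℝ)) (𝓝 (h F (4 / 3))) := hc.mono_left nhdsWithin_le_nhds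
  refine ge_of_tendsto hc' ?_
  filter_upwards [self_mem_nhdsWithin] with s hs
  exact h_ge_of_lt hF hs

end Hyp

/-- Parametrisation of the pairs with equal weight. -/
noncomputable def pr (r : ℝ) : ℝ := log r / (r - 1)

/-- Parametrisation of the pairs with equal weight. -/
noncomputable def qr (r : ℝ) : ℝ := r * pr r

lemma pr_pos {r : ℝ} (hr : 1 < r) : 0 < pr r :=
  div_pos (log_pos hr) (by linarith)

lemma pr_lt_one {r : ℝ} (hr : 1 < r) : pr r < 1 := by
  unfold pr
  rw [div_lt_one (by linarith)]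
  exact log_lt_sub_one_of_pos (by linarith) hr.ne'

lemma qr_gt_one {r : ℝ} (hr : 1 < r) : 1 < qr r := by
  unfold qr pr
  have h0 : 0 < r - 1 := by linarith
  have hr0 : 0 < r := by linarith
  rw [← mul_div_assoc, one_lt_div h0]
  have h1 : log (1 / r) < 1 / r - 1 :=
    log_lt_sub_one_of_pos (by positivity) (by
      intro h
      rw [div_eq_one_iff_eq hr0.ne'] at h
      linarith)
  rw [one_div, log_inv] at h1
  have h2 : r * (-log r) < r * (r⁻¹ - 1) := mul_lt_mul_of_pos_left h1 hr0
  rw [mul_sub, mul_inv_cancel₀ hr0.ne'] at h2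
  linarith

lemma qr_sub_pr {r : ℝ} (hr : 1 < r) : qr r - pr r = log r := by
  unfold qr pr
  have h0 : r - 1 ≠ 0 := by linarith
  field_simp

lemma pr_lt_qr {r : ℝ} (hr : 1 < r) : pr r < qr r := by
  have := qr_sub_pr hr
  have h2 := log_pos hr
  linarith

lemma w_pr_qr {r : ℝ} (hr : 1 < r) : w (pr r) = w (qr r) := by
  have hp := pr_pos hr
  have hq : 0 < qr r := by linarith [qr_gt_one hr]
  unfold w
  rw [if_pos hp, if_pos hq]
  have hr0 : 0 < r := by linarith
  have h1 : exp (-pr r) = r * exp (-qr r) := by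
    have h2 : (r - 1) * pr r = log r := by
      unfold pr
      have h0 : r - 1 ≠ 0 := by linarith
      field_simp
    have h3 : -pr r = log r + -qr r := by
      have : qr r = r * pr r := rfl
      rw [this]
      nlinarith
    rw [h3, exp_add, exp_log hr0]
  rw [h1]
  have : qr r = r * pr r := rfl
  rw [this]
  ring_nf

lemma mul_exp_mono {x y : ℝ} (hx : 0 < x) (hxy : x ≤ y) (hy : y ≤ 1) :
    x * exp (-x) ≤ y * exp (-y) := by
  have h1 : 1 + (x - y) ≤ exp (x - y) := by
    have := Real.add_one_le_exp (x - y); linarith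
  have h2 : x ≤ y * exp (x - y) := by
    have hy0 : 0 < y := by linarith
    have h3 : y * (1 + (x - y)) ≤ y * exp (x - y) := mul_le_mul_of_nonneg_left h1 hy0.le
    nlinarith
  have e : y * exp (-y) = (y * exp (x - y)) * exp (-x) := by
    rw [mul_assoc, ← exp_add]; congr 2; ring
  rw [e]
  exact mul_le_mul_of_nonneg_right h2 (exp_pos _).le

lemma mul_exp_anti {x y : ℝ} (hx : 1 ≤ x) (hxy : x ≤ y) :
    y * exp (-y) ≤ x * exp (-x) := by
  have h1 : 1 + (y - x) ≤ exp (y - x) := by
    have := Real.add_one_le_exp (y - x); linarith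
  have h2 : y ≤ x * exp (y - x) := by
    have h3 : x * (1 + (y - x)) ≤ x * exp (y - x) :=
      mul_le_mul_of_nonneg_left h1 (by linarith)
    nlinarith
  have e : x * exp (-x) = (x * exp (y - x)) * exp (-y) := by
    rw [mul_assoc, ← exp_add]; congr 2; ring
  rw [e]
  exact mul_le_mul_of_nonneg_right h2 (exp_pos _).le

lemma w_ge_of_mem {p q s : ℝ} (hp : 0 < p) (hp1 : p < 1) (hq : 1 < q) (he : w p = w q)
    (hs : s ∈ Icc p q) : w p ≤ w s := by
  have hs0 : 0 < s := lt_of_lt_of_le hp hs.1
  rcases le_total s 1 with h | h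
  · simp only [w, if_pos hp, if_pos hs0]
    exact mul_exp_mono hp hs.1 h
  · rw [he]
    have hq0 : 0 < q := by linarith
    simp only [w, if_pos hq0, if_pos hs0]
    exact mul_exp_anti h hs.2

lemma w_le_of_not_mem {p q s : ℝ} (hp : 0 < p) (hp1 : p < 1) (hq : 1 < q) (he : w p = w q)
    (hs : s ≤ p ∨ q ≤ s) : w s ≤ w p := by
  rcases hs with hs | hs
  · by_cases hs0 : 0 < s
    · simp only [w, if_pos hp, if_pos hs0]
      exact mul_exp_mono hs0 hs hp1.le
    · simp only [w, if_neg hs0]
      exact w_nonneg p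
  · rw [he]
    have hq0 : 0 < q := by linarith
    have hs0 : 0 < s := by linarith
    simp only [w, if_pos hq0, if_pos hs0]
    exact mul_exp_anti hq.le hs

lemma continuousOn_pr : ContinuousOn pr (Ioi 1) := by
  unfold pr
  refine ContinuousOn.div ?_ (by fun_prop) ?_
  · refine continuousOn_log.mono ?_
    intro x hx
    have : (1:ℝ) < x := hx
    simp only [mem_compl_iff, mem_singleton_iff]
    linarith
  · intro x hx
    have : (1:ℝ) < x := hx
    linarith

lemma continuousOn_qr : ContinuousOn qr (Ioi 1) := by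
  unfold qr
  exact continuousOn_id.mul continuousOn_pr

lemma tendsto_qr : Tendsto qr atTop atTop := by
  refine tendsto_atTop_mono' _ ?_ tendsto_log_atTop
  filter_upwards [Ioi_mem_atTop (1:ℝ)] with r hr
  have hr1 : (1:ℝ) < r := hr
  have := qr_sub_pr hr1
  have := pr_pos hr1
  linarith

namespace Hyp

/-- The chord value at `4/3`. -/
noncomputable def cr (F : ℝ → ℝ) (r : ℝ) : ℝ :=
  h F (pr r) + (h F (qr r) - h F (pr r)) / (qr r - pr r) * (4 / 3 - pr r)

lemma continuousOn_cr (hF : Hyp F) : ContinuousOn (cr F) (Ioi 1) := by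
  unfold cr
  have h1 : ContinuousOn (fun r => h F (pr r)) (Ioi 1) :=
    hF.h_cont.comp_continuousOn continuousOn_pr
  have h2 : ContinuousOn (fun r => h F (qr r)) (Ioi 1) :=
    hF.h_cont.comp_continuousOn continuousOn_qr
  refine h1.add (ContinuousOn.mul (ContinuousOn.div (h2.sub h1) (continuousOn_qr.sub continuousOn_pr) ?_)
    (continuousOn_const.sub continuousOn_pr))
  intro r hr
  have hr1 : (1:ℝ) < r := hr
  have := pr_lt_qr hr1
  linarith

lemma cr_start (hF : Hyp F) : -1 ≤ cr F (5 / 4) := by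
  have hr : (1:ℝ) < 5 / 4 := by norm_num
  have hq : qr (5 / 4) ≤ 4 / 3 := by
    unfold qr pr
    have := log_le_sub_one_of_pos (show (0:ℝ) < 5 / 4 by norm_num)
    norm_num at this ⊢
    linarith
  have := chord_out hF (pr_lt_qr hr) (Or.inr hq)
  have h2 := hF.h_ge
  unfold cr
  linarith

/-- The key comparison theorem. -/
theorem key_lower (hF : Hyp F) : c0 ≤ ∫ s, w s * F s := by
  -- facts valid for every `r > 1`
  have hmain : ∀ r : ℝ, 1 < r →
      (∫ s, w s * E (s0ch F (pr r) (qr r)) (Ach F (pr r) (qr r)) s)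
        + w (qr r) * (4 / 3 - (s0ch F (pr r) (qr r) + Ach F (pr r) (qr r))) ≤ ∫ s, w s * F s := by
    intro r hr
    have hp := pr_pos hr
    have hp1 := pr_lt_one hr
    have hq := qr_gt_one hr
    have he := w_pr_qr hr
    have := main_ineq hF (α := w (pr r)) (pr_lt_qr hr)
      (fun s hs => w_ge_of_mem hp hp1 hq he hs)
      (fun s hs => w_le_of_not_mem hp hp1 hq he hs)
    rwa [he] at this
  have hchord : ∀ r : ℝ, 1 < r →
      -(4 / 3 - s0ch F (pr r) (qr r)) / Ach F (pr r) (qr r) = cr F r := by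
    intro r hr
    exact chord_eq hF (pr_lt_qr hr) (4 / 3)
  by_cases hex : ∃ R, 5 / 4 ≤ R ∧ cr F R ≤ -1
  · obtain ⟨R, hR, hcR⟩ := hex
    have hcont : ContinuousOn (cr F) (Icc (5 / 4) R) :=
      (continuousOn_cr hF).mono (by
        intro x hx
        have : (5:ℝ) / 4 ≤ x := hx.1
        show (1:ℝ) < x
        linarith)
    have hiv := intermediate_value_Icc' hR hcont
    obtain ⟨r, hr, hcr⟩ := hiv ⟨hcR, cr_start hF⟩
    have hr1 : (1:ℝ) < r := by
      have : (5:ℝ) / 4 ≤ r := hr.1
      linarith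
    have hA := Ach_pos hF (pr_lt_qr hr1)
    have h1 := hchord r hr1
    rw [hcr, div_eq_iff hA.ne'] at h1
    have h2 : s0ch F (pr r) (qr r) + Ach F (pr r) (qr r) = 4 / 3 := by linarith
    have h3 := hmain r hr1
    rw [h2] at h3
    have h4 := flat_value _ _ hA h2.ge
    simp only [sub_self, mul_zero, add_zero] at h3
    linarith
  · push Not at hex
    -- all chords stay above the point `(4/3,-1)`
    have hgt : ∀ r, 5 / 4 ≤ r → 4 / 3 ≤ s0ch F (pr r) (qr r) + Ach F (pr r) (qr r) := by
      intro r hr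
      have hr1 : (1:ℝ) < r := by linarith
      have hA := Ach_pos hF (pr_lt_qr hr1)
      have h1 := hchord r hr1
      have h2 := hex r hr
      rw [← h1, lt_div_iff₀ hA] at h2
      linarith
    have hlow : ∀ᶠ r in atTop, c0 - qr r ^ 2 * exp (-qr r) ≤ ∫ s, w s * F s := by
      have h1 : ∀ᶠ r in atTop, F (qr r) ≤ F 1 * exp (-1) := by
        have h2 : Tendsto (fun r => F (qr r)) atTop (𝓝 0) := hF.top.comp tendsto_qr
        have h3 : 0 < F 1 * exp (-1) := mul_pos (hF.pos 1) (exp_pos _)
        exact h2.eventually (ge_mem_nhds h3)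
      filter_upwards [h1, Ici_mem_atTop (5 / 4 : ℝ)] with r hr1 hr2
      have hr2' : (5:ℝ) / 4 ≤ r := hr2
      have hr : (1:ℝ) < r := by linarith
      have hp := pr_pos hr
      have hp1 := pr_lt_one hr
      have hq := qr_gt_one hr
      have hq0 : 0 < qr r := by linarith
      have hA := Ach_pos hF (pr_lt_qr hr)
      have h2 := hmain r hr
      have h3 := flat_value _ _ hA (hgt r hr2')
      -- estimate of the error term
      have h4 : h F (qr r) ≤ h F 1 - 1 := by
        have := log_le_log (hF.pos _) hr1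
        rw [log_mul (hF.pos 1).ne' (exp_pos _).ne', log_exp] at this
        unfold h
        linarith
      have h5 : h F 1 ≤ h F (pr r) := hF.h_anti hp1.le
      have h6 : 1 ≤ h F (pr r) - h F (qr r) := by linarith
      have h7 : Ach F (pr r) (qr r) ≤ qr r := by
        unfold Ach
        rw [div_le_iff₀ (by linarith)]
        nlinarith
      have h8 : s0ch F (pr r) (qr r) + Ach F (pr r) (qr r) - 4 / 3 ≤ qr r := by
        unfold s0ch
        have h9 : Ach F (pr r) (qr r) * h F (pr r) ≤ 0 :=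
          mul_nonpos_of_nonneg_of_nonpos hA.le (hF.h_neg _).le
        linarith
      have hw : w (qr r) = qr r * exp (-qr r) := by
        simp only [w, if_pos hq0]
      have hw0 : 0 ≤ w (qr r) := w_nonneg _
      have h10 : w (qr r) * (s0ch F (pr r) (qr r) + Ach F (pr r) (qr r) - 4 / 3) ≤
          w (qr r) * qr r := mul_le_mul_of_nonneg_left h8 hw0
      have h11 : w (qr r) * qr r = qr r ^ 2 * exp (-qr r) := by
        rw [hw]; ring
      rw [h11] at h10
      nlinarith
    have hlim : Tendsto (fun r => c0 - qr r ^ 2 * exp (-qr r)) atTop (𝓝 (c0 - 0)) :=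
      tendsto_const_nhds.sub ((tendsto_pow_mul_exp_neg_atTop_nhds_zero 2).comp tendsto_qr)
    rw [sub_zero] at hlim
    exact le_of_tendsto hlim hlow

end Hyp

end Crest.Agent.Lib.TruncExp
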