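import Mathlib

open MeasureTheory Set Filter Topology Real

namespace Crest.Agent.Lib.TruncExp

/-- The weight `s e^{-s}` on the positive half line, and `0` elsewhere. -/
noncomputable def w (s : ℝ) : ℝ := if 0 < s then s * exp (-s) else 0

/-- The step function `1_{s<y}`. -/
noncomputable def Hv (y s : ℝ) : ℝ := if s < y then 1 else 0

/-- `G y = 1 - (1+y)e^{-y}` for `y>0` and `0` otherwise. -/
noncomputable def G (y : ℝ) : ℝ := if y ≤ 0 then 0 else 1 - (1 + y) * exp (-y)

lemma w_nonneg (s : ℝ) : 0 ≤ w s := by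
  unfold w; split_ifs with h
  · positivity
  · exact le_rfl

lemma hasDerivAt_anti_mul_exp (b : ℝ) (hb : 0 < b) (x : ℝ) :
    HasDerivAt (fun x => -((x / b + 1 / b ^ 2) * exp (-(b * x)))) (x * exp (-(b * x))) x := by
  have h1 : HasDerivAt (fun x : ℝ => x / b + 1 / b ^ 2) (1 / b) x :=
    ((hasDerivAt_id x).div_const b).add_const _
  have h2 : HasDerivAt (fun x : ℝ => exp (-(b * x))) (exp (-(b * x)) * (-(b * 1))) x :=
    (((hasDerivAt_id x).const_mul b).neg).exp
  have h3 : HasDerivAt (fun x => -((x / b + 1 / b ^ 2) * exp (-(b * x))))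
      (-(1 / b * exp (-(b * x)) + (x / b + 1 / b ^ 2) * (exp (-(b * x)) * -(b * 1)))) x :=
    (h1.mul h2).neg
  refine h3.congr_deriv ?_
  have hb' : b ≠ 0 := hb.ne'
  field_simp
  ring

lemma tendsto_anti_mul_exp (b : ℝ) (hb : 0 < b) :
    Tendsto (fun x : ℝ => -((x / b + 1 / b ^ 2) * exp (-(b * x)))) atTop (𝓝 0) := by
  have h1 : Tendsto (fun x : ℝ => x * exp (-(b * x))) atTop (𝓝 0) := by
    have h3 : Tendsto (fun x : ℝ => b * x) atTop atTop :=
      tendsto_id.const_mul_atTop hb
    have h4 := (tendsto_pow_mul_exp_neg_atTop_nhds_zero 1).comp h3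
    have h5 := h4.const_mul (1 / b)
    simp only [mul_zero] at h5
    refine h5.congr (fun x => ?_)
    simp only [Function.comp, pow_one]
    have hb' : b ≠ 0 := hb.ne'
    field_simp
  have h2 : Tendsto (fun x : ℝ => exp (-(b * x))) atTop (𝓝 0) := by
    have h3 : Tendsto (fun x : ℝ => b * x) atTop atTop :=
      tendsto_id.const_mul_atTop hb
    exact tendsto_exp_neg_atTop_nhds_zero.comp h3
  have h4 := (h1.mul_const (1 / b)).add (h2.mul_const (1 / b ^ 2))
  have h5 := h4.neg
  simp only [zero_mul, add_zero, neg_zero] at h5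
  refine h5.congr (fun x => ?_)
  ring

lemma integrableOn_mul_exp (b a : ℝ) (hb : 0 < b) (ha : 0 ≤ a) :
    IntegrableOn (fun x : ℝ => x * exp (-(b * x))) (Ioi a) := by
  refine integrableOn_Ioi_deriv_of_nonneg' (fun x _ => hasDerivAt_anti_mul_exp b hb x) ?_
    (tendsto_anti_mul_exp b hb)
  intro x hx
  have : 0 < x := lt_of_le_of_lt ha hx
  positivity

lemma integral_mul_exp (b a : ℝ) (hb : 0 < b) (ha : 0 ≤ a) :
    ∫ x in Ioi a, x * exp (-(b * x)) = (a / b + 1 / b ^ 2) * exp (-(b * a)) := by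
  have hpos : ∀ x ∈ Ioi a, 0 ≤ x * exp (-(b * x)) := by
    intro x hx
    have : 0 < x := lt_of_le_of_lt ha hx
    positivity
  have := integral_Ioi_of_hasDerivAt_of_nonneg' (a := a) (fun x _ => hasDerivAt_anti_mul_exp b hb x)
    hpos (tendsto_anti_mul_exp b hb)
  rw [this]; ring

lemma hasDerivAt_anti_exp (b : ℝ) (hb : 0 < b) (x : ℝ) :
    HasDerivAt (fun x => -(exp (-(b * x)) / b)) (exp (-(b * x))) x := by
  have h2 : HasDerivAt (fun x : ℝ => exp (-(b * x))) (exp (-(b * x)) * (-(b * 1))) x :=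
    (((hasDerivAt_id x).const_mul b).neg).exp
  have h3 : HasDerivAt (fun x => -(exp (-(b * x)) / b))
      (-(exp (-(b * x)) * (-(b * 1)) / b)) x := (h2.div_const b).neg
  refine h3.congr_deriv ?_
  have hb' : b ≠ 0 := hb.ne'
  field_simp

lemma tendsto_anti_exp (b : ℝ) (hb : 0 < b) :
    Tendsto (fun x : ℝ => -(exp (-(b * x)) / b)) atTop (𝓝 0) := by
  have h2 : Tendsto (fun x : ℝ => exp (-(b * x))) atTop (𝓝 0) := by
    have h3 : Tendsto (fun x : ℝ => b * x) atTop atTop :=
      tendsto_id.const_mul_atTop hb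
    exact tendsto_exp_neg_atTop_nhds_zero.comp h3
  have h5 := (h2.div_const b).neg
  simpa using h5

lemma integrableOn_exp_mul (b a : ℝ) (hb : 0 < b) :
    IntegrableOn (fun x : ℝ => exp (-(b * x))) (Ioi a) := by
  refine integrableOn_Ioi_deriv_of_nonneg' (fun x _ => hasDerivAt_anti_exp b hb x) ?_
    (tendsto_anti_exp b hb)
  intro x _
  positivity

lemma integral_exp_mul (b a : ℝ) (hb : 0 < b) :
    ∫ x in Ioi a, exp (-(b * x)) = exp (-(b * a)) / b := by
  have := integral_Ioi_of_hasDerivAt_of_nonneg' (a := a) (fun x _ => hasDerivAt_anti_exp b hb x)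
    (fun x _ => (exp_pos _).le) (tendsto_anti_exp b hb)
  rw [this]; ring

lemma w_eq_indicator : w = indicator (Ioi 0) (fun s => s * exp (-(1 * s))) := by
  funext s
  by_cases hs : 0 < s
  · simp [w, hs, indicator]
  · simp [w, hs, indicator]

lemma integrable_w : Integrable w := by
  rw [w_eq_indicator, integrable_indicator_iff measurableSet_Ioi]
  exact integrableOn_mul_exp 1 0 one_pos le_rfl

lemma measurable_w : Measurable w := by
  rw [w_eq_indicator]
  exact (measurable_id.mul (measurable_const.mul measurable_id).neg.exp).indicator measurableSet_Ioi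

lemma measurable_Hv (y : ℝ) : Measurable (Hv y) := by
  unfold Hv
  exact Measurable.ite measurableSet_Iio measurable_const measurable_const

lemma Hv_sub_eq (y : ℝ) (hy : 0 ≤ y) (s : ℝ) :
    Hv y s - Hv 0 s = indicator (Ico 0 y) (fun _ => (1:ℝ)) s := by
  unfold Hv
  by_cases h0 : s < 0
  · have h1 : s < y := lt_of_lt_of_le h0 hy
    simp [h0, h1, indicator, not_le.mpr h0]
  · by_cases h1 : s < y
    · simp [h0, h1, indicator, not_lt.mp h0]
    · simp [h0, h1, indicator]

lemma Hv_sub_eq' (y : ℝ) (hy : y ≤ 0) (s : ℝ) :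
    Hv y s - Hv 0 s = - indicator (Ico y 0) (fun _ => (1:ℝ)) s := by
  unfold Hv
  by_cases h0 : s < 0
  · by_cases h1 : s < y
    · simp [h0, h1, indicator, not_le.mpr h1]
    · simp [h0, h1, indicator, not_lt.mp h1]
  · have h1 : ¬ s < y := fun h => h0 (lt_of_lt_of_le h hy)
    simp [h0, h1, indicator]

lemma integrable_Hv_sub (y : ℝ) : Integrable (fun s => Hv y s - Hv 0 s) := by
  rcases le_total 0 y with hy | hy
  · have : (fun s => Hv y s - Hv 0 s) = indicator (Ico 0 y) (fun _ => (1:ℝ)) := by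
      funext s; exact Hv_sub_eq y hy s
    rw [this, integrable_indicator_iff measurableSet_Ico]
    exact integrableOn_const (by simp) (by simp)
  · have : (fun s => Hv y s - Hv 0 s) = fun s => - indicator (Ico y 0) (fun _ => (1:ℝ)) s := by
      funext s; exact Hv_sub_eq' y hy s
    rw [this]
    refine Integrable.neg ?_
    rw [integrable_indicator_iff measurableSet_Ico]
    exact integrableOn_const (by simp) (by simp)

lemma integral_Hv_sub (y : ℝ) : ∫ s, (Hv y s - Hv 0 s) = y := by
  rcases le_total 0 y with hy | hy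
  · have : (fun s => Hv y s - Hv 0 s) = indicator (Ico 0 y) (fun _ => (1:ℝ)) := by
      funext s; exact Hv_sub_eq y hy s
    rw [this, integral_indicator measurableSet_Ico]
    simp [hy]
  · have : (fun s => Hv y s - Hv 0 s) = fun s => - indicator (Ico y 0) (fun _ => (1:ℝ)) s := by
      funext s; exact Hv_sub_eq' y hy s
    rw [this, integral_neg, integral_indicator measurableSet_Ico]
    simp [hy]

lemma integral_abs_Hv_sub (y : ℝ) : ∫ s, ‖Hv y s - Hv 0 s‖ = |y| := by
  rcases le_total 0 y with hy | hy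
  · have : (fun s => ‖Hv y s - Hv 0 s‖) = indicator (Ico 0 y) (fun _ => (1:ℝ)) := by
      funext s; rw [Hv_sub_eq y hy s]; by_cases h : s ∈ Ico 0 y <;> simp [h]
    rw [this, integral_indicator measurableSet_Ico]
    simp [hy, abs_of_nonneg hy]
  · have : (fun s => ‖Hv y s - Hv 0 s‖) = indicator (Ico y 0) (fun _ => (1:ℝ)) := by
      funext s; rw [Hv_sub_eq' y hy s]; by_cases h : s ∈ Ico y 0 <;> simp [h]
    rw [this, integral_indicator measurableSet_Ico]
    simp [hy, abs_of_nonpos hy]

lemma integrable_w_mul (φ : ℝ → ℝ) (hφ : Measurable φ) (hb : ∀ s, |φ s| ≤ 1) :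
    Integrable (fun s => w s * φ s) := by
  refine Integrable.mono' integrable_w ?_ ?_
  · exact (measurable_w.mul hφ).aestronglyMeasurable
  · refine Eventually.of_forall (fun s => ?_)
    rw [Real.norm_eq_abs, abs_mul, abs_of_nonneg (w_nonneg s)]
    calc w s * |φ s| ≤ w s * 1 := mul_le_mul_of_nonneg_left (hb s) (w_nonneg s)
      _ = w s := mul_one _

lemma integral_w_Hv (y : ℝ) : ∫ s, w s * Hv y s = G y := by
  have key : (fun s => w s * Hv y s) = indicator (Ioo 0 y) (fun s => s * exp (-(1 * s))) := by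
    funext s
    unfold w Hv
    by_cases h0 : 0 < s
    · by_cases h1 : s < y
      · simp [h0, h1, indicator]
      · simp [h0, h1, indicator]
    · simp [h0, indicator]
  rw [key, integral_indicator measurableSet_Ioo]
  unfold G
  split_ifs with hy
  · rw [Ioo_eq_empty (by linarith)]; simp
  · push Not at hy
    have hsplit : Ioi (0:ℝ) = Ioo 0 y ∪ Ici y := by
      ext x; simp only [mem_Ioi, mem_union, mem_Ioo, mem_Ici]
      constructor
      · intro hx
        by_cases h : x < y
        · exact Or.inl ⟨hx, h⟩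
        · exact Or.inr (not_lt.mp h)
      · rintro (⟨h, _⟩ | h)
        · exact h
        · exact lt_of_lt_of_le hy h
    have hdisj : Disjoint (Ioo 0 y) (Ici y) := by
      rw [Set.disjoint_left]; intro x hx hx'; exact absurd hx.2 (not_lt.mpr hx')
    have hI := integrableOn_mul_exp 1 0 one_pos le_rfl
    have h1 : ∫ s in Ioi (0:ℝ), s * exp (-(1 * s)) = 1 := by
      rw [integral_mul_exp 1 0 one_pos le_rfl]; simp
    have h2 : ∫ s in Ici y, s * exp (-(1 * s)) = (y + 1) * exp (-y) := by
      rw [integral_Ici_eq_integral_Ioi, integral_mul_exp 1 y one_pos hy.le]; simp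
    have h3 : ∫ s in Ioi (0:ℝ), s * exp (-(1 * s)) =
        (∫ s in Ioo 0 y, s * exp (-(1 * s))) + ∫ s in Ici y, s * exp (-(1 * s)) := by
      rw [hsplit]
      exact setIntegral_union (f := fun s => s * exp (-(1 * s))) hdisj measurableSet_Ici
        (hI.mono_set (by rw [hsplit]; exact subset_union_left))
        (hI.mono_set (by rw [hsplit]; exact subset_union_right))
    rw [h1, h2] at h3
    linarith

/-- Flat-top exponential. -/
noncomputable def E (s0 A s : ℝ) : ℝ := min 1 (exp (-(s - s0) / A))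

lemma E_pos (s0 A s : ℝ) : 0 < E s0 A s := lt_min one_pos (exp_pos _)

lemma E_le_one (s0 A s : ℝ) : E s0 A s ≤ 1 := min_le_left _ _

lemma measurable_E (s0 A : ℝ) : Measurable (E s0 A) := by
  unfold E
  exact measurable_const.min (by fun_prop)

lemma abs_E_le (s0 A s : ℝ) : |E s0 A s| ≤ 1 := by
  rw [abs_of_pos (E_pos _ _ _)]; exact E_le_one _ _ _

lemma E_sub_Hv (s0 A : ℝ) (hA : 0 < A) (s : ℝ) :
    E s0 A s - Hv s0 s = indicator (Ioi s0) (fun s => exp (s0 / A) * exp (-((1 / A) * s))) s
      + indicator {s0} (fun _ => (1:ℝ)) s := by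
  have hrew : exp (s0 / A) * exp (-((1 / A) * s)) = exp (-(s - s0) / A) := by
    rw [← exp_add]; congr 1; field_simp; ring
  unfold E Hv
  rcases lt_trichotomy s s0 with h | h | h
  · have h1 : 1 ≤ exp (-(s - s0) / A) := by
      apply one_le_exp
      apply div_nonneg _ hA.le
      linarith
    have h2 : s ∉ Ioi s0 := by simp [h.le]
    have h3 : s ∉ ({s0} : Set ℝ) := by simp [h.ne]
    rw [min_eq_left h1, if_pos h, indicator_of_notMem h2, indicator_of_notMem h3]
    simp
  · subst h
    simp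
  · have h1 : exp (-(s - s0) / A) ≤ 1 := by
      rw [exp_le_one_iff]
      apply div_nonpos_of_nonpos_of_nonneg _ hA.le
      linarith
    have h2 : s ∈ Ioi s0 := h
    have h3 : s ∉ ({s0} : Set ℝ) := by simp [h.ne']
    have h4 : ¬ s < s0 := not_lt.mpr h.le
    rw [min_eq_right h1, if_neg h4, indicator_of_mem h2, indicator_of_notMem h3, hrew]
    simp

lemma integrable_E_sub_Hv (s0 A : ℝ) (hA : 0 < A) :
    Integrable (fun s => E s0 A s - Hv s0 s) := by
  have h1 : (fun s => E s0 A s - Hv s0 s) =ᵐ[volume]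
      indicator (Ioi s0) (fun s => exp (s0 / A) * exp (-((1 / A) * s))) := by
    have : ∀ᵐ s : ℝ, s ≠ s0 := by simp [ae_iff]
    filter_upwards [this] with s hs
    rw [E_sub_Hv s0 A hA s]
    simp [hs]
  rw [integrable_congr h1, integrable_indicator_iff measurableSet_Ioi]
  exact (integrableOn_exp_mul (1 / A) s0 (by positivity)).const_mul _

lemma integral_E_sub_Hv (s0 A : ℝ) (hA : 0 < A) :
    ∫ s, (E s0 A s - Hv s0 s) = A := by
  have h1 : (fun s => E s0 A s - Hv s0 s) =ᵐ[volume]
      indicator (Ioi s0) (fun s => exp (s0 / A) * exp (-((1 / A) * s))) := by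
    have : ∀ᵐ s : ℝ, s ≠ s0 := by simp [ae_iff]
    filter_upwards [this] with s hs
    rw [E_sub_Hv s0 A hA s]
    simp [hs]
  rw [integral_congr_ae h1, integral_indicator measurableSet_Ioi, integral_const_mul,
    integral_exp_mul (1 / A) s0 (by positivity)]
  rw [mul_div_assoc', ← exp_add]
  have : s0 / A + -(1 / A * s0) = 0 := by ring
  rw [this, exp_zero]
  field_simp

lemma integrable_E_sub (s0 A : ℝ) (hA : 0 < A) :
    Integrable (fun s => E s0 A s - Hv 0 s) := by
  have := (integrable_E_sub_Hv s0 A hA).add (integrable_Hv_sub s0)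
  refine this.congr (Eventually.of_forall (fun s => ?_))
  simp

lemma integral_E_sub (s0 A : ℝ) (hA : 0 < A) :
    ∫ s, (E s0 A s - Hv 0 s) = s0 + A := by
  have h : (fun s => E s0 A s - Hv 0 s) = fun s => (E s0 A s - Hv s0 s) + (Hv s0 s - Hv 0 s) := by
    funext s; ring
  rw [h, integral_add (integrable_E_sub_Hv s0 A hA) (integrable_Hv_sub s0),
    integral_E_sub_Hv s0 A hA, integral_Hv_sub]
  ring

end Crest.Agent.Lib.TruncExp
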